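import Vale.Agent.Lib.P335.Circuit

/-!
Arcs of circuits: degrees after flipping an arc and the corrected half-edge colouring.
-/

namespace Vale.Agent.P335

open Finset Function

section
variable {V : Type} [Fintype V] [DecidableEq V]
variable {H G : Finset (Sym2 V)} {φ : V → V → Bool} {τ : V → V → V}

theorem sd_empty {α : Type} [DecidableEq α] (A : Finset α) : symmDiff A ∅ = A := by
  ext x
  simp [mem_symmDiff]

/-- every dart is periodic -/
theorem fw_periodic (h : IsTrans H φ τ) (p : V × V) : p ∈ periodicPts (fw τ) := by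
  exact (fw_injective h).mem_periodicPts p

theorem mp_pos (h : IsTrans H φ τ) (p : V × V) : 0 < minimalPeriod (fw τ) p :=
  minimalPeriod_pos_of_mem_periodicPts (fw_periodic h p)

/-- the set of edges of an arc of length `l` starting at the dart `p` -/
def arc (τ : V → V → V) (p : V × V) (l : ℕ) : Finset (Sym2 V) :=
  (range l).image (fun k => edge ((fw τ)^[k] p))

theorem mem_arc {p : V × V} {l : ℕ} {e : Sym2 V} :
    e ∈ arc τ p l ↔ ∃ k < l, edge ((fw τ)^[k] p) = e := by
  simp [arc]

theorem arc_zero (p : V × V) : arc τ p 0 = ∅ := by simp [arc]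

theorem arc_succ (p : V × V) (l : ℕ) :
    arc τ p (l + 1) = insert (edge ((fw τ)^[l] p)) (arc τ p l) := by
  simp [arc, range_add_one, image_insert]

theorem arc_bw (h : IsTrans H φ τ) (p : V × V) (l : ℕ) :
    arc τ (bw τ p) (l + 1) = insert (edge (bw τ p)) (arc τ p l) := by
  ext e
  rw [mem_insert, mem_arc, mem_arc]
  constructor
  · rintro ⟨k, hk, rfl⟩
    rcases k with _ | k
    · left; rfl
    · right
      refine ⟨k, by omega, ?_⟩
      rw [iterate_succ_apply, fw_bw h]
  · rintro (rfl | ⟨k, hk, rfl⟩)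
    · exact ⟨0, by omega, rfl⟩
    · refine ⟨k + 1, by omega, ?_⟩
      rw [iterate_succ_apply, fw_bw h]

theorem arc_subset (h : IsTrans H φ τ) {p : V × V} (hp : edge p ∈ H) (l : ℕ) :
    arc τ p l ⊆ H := by
  intro e he
  obtain ⟨k, -, rfl⟩ := mem_arc.1 he
  exact edge_fw_iter_mem h hp k

theorem edge_not_mem_arc (h : IsTrans H (col G) τ) (hH : Loopless H) {p : V × V}
    (hp : edge p ∈ H) {l : ℕ} (hl : l < minimalPeriod (fw τ) p) :
    edge ((fw τ)^[l] p) ∉ arc τ p l := by
  intro he
  obtain ⟨k, hk, hk2⟩ := mem_arc.1 he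
  have h1 := edge_iter_inj h hH hp hk2
  have h2 := (iterate_eq_iterate_iff_of_lt_minimalPeriod (hk.trans hl) hl).1 h1
  omega

/-- flip sign of a dart -/
def sgn (G : Finset (Sym2 V)) (p : V × V) : ℤ := if edge p ∈ G then -1 else 1

theorem nbr_symmDiff_singleton (E : Finset (Sym2 V)) {a b : V} (v : V) :
    nbr (symmDiff E {s(a, b)}) v =
      symmDiff (nbr E v) (univ.filter (fun u => s(v, u) = s(a, b))) := by
  ext u
  simp only [nbr, mem_filter, mem_univ, true_and, mem_symmDiff, mem_singleton]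

theorem deg_toggle (E : Finset (Sym2 V)) {a b : V} (hab : a ≠ b) (v : V) :
    (deg (symmDiff E {s(a, b)}) v : ℤ) = deg E v +
      (if s(a, b) ∈ E then -1 else 1) * ((if v = a then 1 else 0) + (if v = b then 1 else 0)) := by
  unfold deg
  rw [nbr_symmDiff_singleton]
  by_cases hva : v = a
  · subst hva
    have hset : (univ.filter (fun u => s(v, u) = s(v, b))) = {b} := by
      ext u
      simp only [mem_filter, mem_univ, true_and, mem_singleton]
      rw [Sym2.eq_iff]
      constructor
      · rintro (⟨h1, h2⟩ | ⟨h1, h2⟩)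
        · exact h2
        · exact absurd h1 hab
      · rintro rfl
        exact Or.inl ⟨rfl, rfl⟩
    rw [hset]
    by_cases hE : s(v, b) ∈ E
    · have hb : b ∈ nbr E v := by simp [nbr, hE]
      have h1 : symmDiff (nbr E v) {b} = (nbr E v).erase b := by
        ext u
        simp only [mem_symmDiff, mem_singleton, mem_erase]
        constructor
        · rintro (⟨h1, h2⟩ | ⟨h1, h2⟩)
          · exact ⟨h2, h1⟩
          · exact absurd (h1 ▸ hb) h2
        · rintro ⟨h1, h2⟩
          exact Or.inl ⟨h2, h1⟩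
      have hpos : 0 < (nbr E v).card := card_pos.2 ⟨b, hb⟩
      rw [h1, card_erase_of_mem hb]
      simp [hE, hab]
      omega
    · have hb : b ∉ nbr E v := by simp [nbr, hE]
      have h1 : symmDiff (nbr E v) {b} = insert b (nbr E v) := by
        ext u
        simp only [mem_symmDiff, mem_singleton, mem_insert]
        constructor
        · rintro (⟨h1, h2⟩ | ⟨h1, h2⟩)
          · exact Or.inr h1
          · exact Or.inl h1
        · rintro (h1 | h2)
          · exact Or.inr ⟨h1, h1 ▸ hb⟩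
          · exact Or.inl ⟨h2, fun hh => hb (hh ▸ h2)⟩
      rw [h1, card_insert_of_notMem hb]
      simp [hE, hab]
  · by_cases hvb : v = b
    · subst hvb
      have hset : (univ.filter (fun u => s(v, u) = s(a, v))) = {a} := by
        ext u
        simp only [mem_filter, mem_univ, true_and, mem_singleton]
        rw [Sym2.eq_iff]
        constructor
        · rintro (⟨h1, h2⟩ | ⟨h1, h2⟩)
          · exact absurd h1 hva
          · exact h2
        · rintro rfl
          exact Or.inr ⟨rfl, rfl⟩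
      rw [hset]
      have hsw : s(a, v) = s(v, a) := Sym2.eq_swap
      by_cases hE : s(a, v) ∈ E
      · have hb : a ∈ nbr E v := by simp [nbr, ← hsw, hE]
        have h1 : symmDiff (nbr E v) {a} = (nbr E v).erase a := by
          ext u
          simp only [mem_symmDiff, mem_singleton, mem_erase]
          constructor
          · rintro (⟨h1, h2⟩ | ⟨h1, h2⟩)
            · exact ⟨h2, h1⟩
            · exact absurd (h1 ▸ hb) h2
          · rintro ⟨h1, h2⟩
            exact Or.inl ⟨h2, h1⟩
        have hpos : 0 < (nbr E v).card := card_pos.2 ⟨a, hb⟩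
        rw [h1, card_erase_of_mem hb]
        simp [hE, hva]
        omega
      · have hb : a ∉ nbr E v := by simp [nbr, ← hsw, hE]
        have h1 : symmDiff (nbr E v) {a} = insert a (nbr E v) := by
          ext u
          simp only [mem_symmDiff, mem_singleton, mem_insert]
          constructor
          · rintro (⟨h1, h2⟩ | ⟨h1, h2⟩)
            · exact Or.inr h1
            · exact Or.inl h1
          · rintro (h1 | h2)
            · exact Or.inr ⟨h1, h1 ▸ hb⟩
            · exact Or.inl ⟨h2, fun hh => hb (hh ▸ h2)⟩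
        rw [h1, card_insert_of_notMem hb]
        simp [hE, hva]
    · have hset : (univ.filter (fun u => s(v, u) = s(a, b))) = ∅ := by
        ext u
        simp only [mem_filter, mem_univ, true_and, notMem_empty, iff_false]
        rw [Sym2.eq_iff]
        rintro (⟨h1, h2⟩ | ⟨h1, h2⟩)
        · exact hva h1
        · exact hvb h1
      rw [hset, sd_empty]
      simp [hva, hvb]

theorem loopless_of_subset {A B : Finset (Sym2 V)} (h : A ⊆ B) (hB : Loopless B) :
    Loopless A := fun v hv => hB v (h hv)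

theorem loopless_symmDiff {A B : Finset (Sym2 V)} (hA : Loopless A) (hB : Loopless B) :
    Loopless (symmDiff A B) := by
  intro v hv
  rcases mem_symmDiff.1 hv with h | h
  · exact hA v h.1
  · exact hB v h.1

theorem fst_ne_snd (hH : Loopless H) {p : V × V} (hp : edge p ∈ H) : p.1 ≠ p.2 := by
  intro h
  rw [edge, h] at hp
  exact hH _ hp

theorem symmDiff_insert_right {A B : Finset (Sym2 V)} {e : Sym2 V} (he : e ∉ B) :
    symmDiff A (insert e B) = symmDiff (symmDiff A B) {e} := by
  ext x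
  simp only [mem_symmDiff, mem_insert, mem_singleton]
  by_cases h1 : x = e
  · subst h1
    simp only [he]
    tauto
  · simp only [h1]
    tauto

theorem arc_deg (h : IsTrans H (col G) τ) (hH : Loopless H) {p : V × V}
    (hp : edge p ∈ H) {l : ℕ} (hl : l ≤ minimalPeriod (fw τ) p) (v : V) :
    (deg (symmDiff G (arc τ p l)) v : ℤ) = deg G v +
      (if v = p.1 then sgn G p else 0) -
      (if v = ((fw τ)^[l] p).1 then sgn G ((fw τ)^[l] p) else 0) := by
  induction l with
  | zero =>
    rw [arc_zero, sd_empty, iterate_zero, id]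
    ring
  | succ l ih =>
    have hl' : l < minimalPeriod (fw τ) p := hl
    have hno := edge_not_mem_arc h hH hp hl'
    have hmem := edge_fw_iter_mem h hp l
    rw [arc_succ, symmDiff_insert_right hno]
    set Q := (fw τ)^[l] p with hQ
    have hedge : edge Q = s(Q.1, Q.2) := rfl
    have hne := fst_ne_snd hH hmem
    rw [hedge, deg_toggle _ hne, ih (le_of_lt hl')]
    have hin : s(Q.1, Q.2) ∈ symmDiff G (arc τ p l) ↔ edge Q ∈ G := by
      rw [mem_symmDiff, ← hedge]
      simp [hno]
    have hsucc : (fw τ)^[l + 1] p = fw τ Q := by rw [iterate_succ_apply']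
    rw [hsucc]
    have h1 : (fw τ Q).1 = Q.2 := rfl
    have h2 : sgn G (fw τ Q) = - sgn G Q := by
      unfold sgn
      have := col_fw h hmem
      by_cases c : edge Q ∈ G
      · simp [c, this]
      · simp [c, this]
    rw [h1, h2]
    have h3 : (if s(Q.1, Q.2) ∈ symmDiff G (arc τ p l) then (-1 : ℤ) else 1) = sgn G Q := by
      unfold sgn
      by_cases c : edge Q ∈ G
      · rw [if_pos (hin.2 c), if_pos c]
      · rw [if_neg (fun hh => c (hin.1 hh)), if_neg c]
    rw [h3]
    split_ifs <;> ring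

theorem bool_aux (g1 g2 a b c e x y z w : Bool) (hg : g1 ≠ g2) (h1 : xor a b = xor x y)
    (h2 : xor c e = xor z w) :
    xor (xor (xor g1 (xor b c)) z) y ≠ xor (xor (xor g2 (xor a e)) x) w := by
  have hb : b = xor a (xor x y) := by
    rw [← h1]; cases a <;> cases b <;> rfl
  have hc : c = xor e (xor z w) := by
    rw [← h2]; cases c <;> cases e <;> rfl
  have hg' : g1 = !g2 := by
    cases g1 <;> cases g2 <;> simp_all
  subst hb hc hg'
  revert g2 a e x y z w
  decide

/-- corrected half-edge colouring -/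
def phih (Z : Finset (Sym2 V)) (D' D'' : V × V) (v u : V) : Bool :=
  xor (xor (decide (s(v, u) ∈ Z)) (decide ((v, u) = D'.swap))) (decide ((v, u) = D''))

/-- truth value of a proposition -/
noncomputable def bb (p : Prop) : Bool := @decide p (Classical.propDecidable p)

omit [Fintype V] [DecidableEq V] in
theorem decide_eq_bb (p : Prop) [Decidable p] : decide p = bb p := by
  unfold bb
  congr

theorem bb_iff {p q : Prop} (h : p ↔ q) : bb p = bb q := by
  rw [propext h]

theorem bb_pos {p : Prop} (h : p) : bb p = true := by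
  unfold bb
  simp [h]

theorem bb_neg {p : Prop} (h : ¬ p) : bb p = false := by
  unfold bb
  simp [h]

theorem arc_shift (h : IsTrans H φ τ) {p : V × V} {l : ℕ}
    (hl : l < minimalPeriod (fw τ) p) (Q : V × V) :
    xor (bb (∃ k < l, (fw τ)^[k] p = Q)) (bb (∃ k < l, (fw τ)^[k] p = fw τ Q)) =
      xor (bb (Q = bw τ p)) (bb (fw τ Q = (fw τ)^[l] p)) := by
  have hQ : Q = bw τ p ↔ fw τ Q = p := by
    constructor
    · rintro rfl
      exact fw_bw h p
    · intro hh
      rw [← hh, bw_fw h]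
  have h1 : (∃ k < l, (fw τ)^[k] p = Q) ↔ (∃ k < l, (fw τ)^[k + 1] p = fw τ Q) := by
    constructor
    · rintro ⟨k, hk, rfl⟩
      exact ⟨k, hk, iterate_succ_apply' _ _ _⟩
    · rintro ⟨k, hk, hk2⟩
      rw [iterate_succ_apply'] at hk2
      exact ⟨k, hk, fw_injective h hk2⟩
  rw [bb_iff h1, bb_iff hQ]
  generalize fw τ Q = R
  have inj : ∀ a b, a < minimalPeriod (fw τ) p → b < minimalPeriod (fw τ) p →
      ((fw τ)^[a] p = (fw τ)^[b] p ↔ a = b) := fun a b ha hb =>
    iterate_eq_iterate_iff_of_lt_minimalPeriod ha hb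
  by_cases hR : ∃ t, t < minimalPeriod (fw τ) p ∧ (fw τ)^[t] p = R
  · obtain ⟨t, ht, rfl⟩ := hR
    have c1 : (∃ k < l, (fw τ)^[k + 1] p = (fw τ)^[t] p) ↔ (1 ≤ t ∧ t ≤ l) := by
      constructor
      · rintro ⟨k, hk, hk2⟩
        have := (inj (k + 1) t (by omega) ht).1 hk2
        omega
      · rintro ⟨h1, h2⟩
        refine ⟨t - 1, by omega, ?_⟩
        rw [Nat.sub_add_cancel h1]
    have c2 : (∃ k < l, (fw τ)^[k] p = (fw τ)^[t] p) ↔ t < l := by
      constructor
      · rintro ⟨k, hk, hk2⟩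
        have := (inj k t (by omega) ht).1 hk2
        omega
      · intro h1
        exact ⟨t, h1, rfl⟩
    have c3 : ((fw τ)^[t] p = p) ↔ t = 0 := by
      have := inj t 0 ht (by omega)
      simpa using this
    have c4 : ((fw τ)^[t] p = (fw τ)^[l] p) ↔ t = l := inj t l ht hl
    rw [bb_iff c1, bb_iff c2, bb_iff c3, bb_iff c4]
    rcases Nat.lt_trichotomy t l with hh | hh | hh
    · by_cases h0 : t = 0
      · subst h0
        rw [bb_neg (show ¬ (1 ≤ 0 ∧ 0 ≤ l) by omega), bb_pos hh,
          bb_pos rfl, bb_neg (show ¬ (0 : ℕ) = l by omega)]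
        rfl
      · rw [bb_pos (show (1 ≤ t ∧ t ≤ l) by omega), bb_pos hh,
          bb_neg h0, bb_neg (show ¬ t = l by omega)]
        rfl
    · subst hh
      by_cases h0 : t = 0
      · subst h0
        rw [bb_neg (show ¬ (1 ≤ 0 ∧ 0 ≤ 0) by omega), bb_neg (show ¬ 0 < 0 by omega),
          bb_pos rfl]
        rfl
      · rw [bb_pos (show (1 ≤ t ∧ t ≤ t) by omega), bb_neg (show ¬ t < t by omega),
          bb_neg h0, bb_pos rfl]
        rfl
    · rw [bb_neg (show ¬ (1 ≤ t ∧ t ≤ l) by omega), bb_neg (show ¬ t < l by omega),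
          bb_neg (show ¬ t = 0 by omega), bb_neg (show ¬ t = l by omega)]
  · have hall : ∀ k, (fw τ)^[k] p ≠ R := by
      intro k hk
      apply hR
      refine ⟨k % minimalPeriod (fw τ) p, Nat.mod_lt _ (mp_pos h p), ?_⟩
      rw [iterate_mod_minimalPeriod_eq]
      exact hk
    have c1 : ¬ (∃ k < l, (fw τ)^[k + 1] p = R) := by
      rintro ⟨k, -, hk⟩
      exact hall _ hk
    have c2 : ¬ (∃ k < l, (fw τ)^[k] p = R) := by
      rintro ⟨k, -, hk⟩
      exact hall _ hk
    have c3 : ¬ (R = p) := fun hh => hall 0 hh.symm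
    have c4 : ¬ (R = (fw τ)^[l] p) := fun hh => hall l hh.symm
    rw [bb_neg c1, bb_neg c2, bb_neg c3, bb_neg c4]

theorem mem_arc_xor (h : IsTrans H (col G) τ) (hH : Loopless H) {p : V × V}
    (hp : edge p ∈ H) (l : ℕ) (Q : V × V) :
    bb (edge Q ∈ arc τ p l) =
      xor (bb (∃ k < l, (fw τ)^[k] p = Q)) (bb (∃ k < l, (fw τ)^[k] p = Q.swap)) := by
  have hnot : ¬ ((∃ k < l, (fw τ)^[k] p = Q) ∧ (∃ k < l, (fw τ)^[k] p = Q.swap)) := by
    rintro ⟨⟨k, hk, rfl⟩, ⟨k', hk', hk2⟩⟩
    have h1 : edge ((fw τ)^[k'] p) = edge ((fw τ)^[k] p) := by rw [hk2, edge_swap]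
    have h2 := edge_iter_inj h hH hp h1
    rw [h2] at hk2
    have h3 := edge_fw_iter_mem h hp k
    have h4 := fst_ne_snd hH h3
    apply h4
    exact congrArg Prod.fst hk2
  have hiff : edge Q ∈ arc τ p l ↔
      (∃ k < l, (fw τ)^[k] p = Q) ∨ (∃ k < l, (fw τ)^[k] p = Q.swap) := by
    rw [mem_arc]
    constructor
    · rintro ⟨k, hk, hk2⟩
      rcases (edge_eq_iff _ _).1 hk2 with h1 | h1
      · exact Or.inl ⟨k, hk, h1⟩
      · exact Or.inr ⟨k, hk, h1⟩
    · rintro (⟨k, hk, h1⟩ | ⟨k, hk, h1⟩)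
      · exact ⟨k, hk, by rw [h1]⟩
      · exact ⟨k, hk, by rw [h1, edge_swap]⟩
  rw [bb_iff hiff]
  by_cases c1 : (∃ k < l, (fw τ)^[k] p = Q) <;>
    by_cases c2 : (∃ k < l, (fw τ)^[k] p = Q.swap)
  · exact absurd ⟨c1, c2⟩ hnot
  · rw [bb_pos c1, bb_neg c2, bb_pos (Or.inl c1)]; rfl
  · rw [bb_neg c1, bb_pos c2, bb_pos (Or.inr c2)]; rfl
  · rw [bb_neg c1, bb_neg c2, bb_neg (fun hh => hh.elim c1 c2)]; rfl

theorem compat (h : IsTrans H (col G) τ) (hH : Loopless H) {p : V × V} (hp : edge p ∈ H)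
    {l : ℕ} (hl : l < minimalPeriod (fw τ) p) :
    IsTrans H (phih (symmDiff G (arc τ p l)) (bw τ p) ((fw τ)^[l] p)) τ := by
  intro v u
  refine ⟨(h v u).1, (h v u).2.1, fun hu => ⟨((h v u).2.2 hu).1, ?_⟩⟩
  have hcol := ((h v u).2.2 hu).2
  have hZ : ∀ Q : V × V, bb (edge Q ∈ symmDiff G (arc τ p l)) =
      xor (bb (edge Q ∈ G))
        (xor (bb (∃ k < l, (fw τ)^[k] p = Q)) (bb (∃ k < l, (fw τ)^[k] p = Q.swap))) := by
    intro Q
    rw [← mem_arc_xor h hH hp l Q]
    by_cases c1 : edge Q ∈ G <;> by_cases c2 : edge Q ∈ arc τ p l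
    · rw [bb_pos c1, bb_pos c2, bb_neg (by rw [mem_symmDiff]; tauto)]; rfl
    · rw [bb_pos c1, bb_neg c2, bb_pos (by rw [mem_symmDiff]; tauto)]; rfl
    · rw [bb_neg c1, bb_pos c2, bb_pos (by rw [mem_symmDiff]; tauto)]; rfl
    · rw [bb_neg c1, bb_neg c2, bb_neg (by rw [mem_symmDiff]; tauto)]; rfl
  have hA := arc_shift h hl (u, v)
  have hfw : fw τ (u, v) = (v, τ v u) := rfl
  have hB := arc_shift h hl (fw τ (u, v)).swap
  have hfw2 : fw τ (fw τ (u, v)).swap = (v, u) := by
    simp [fw, (h v u).1]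
  rw [hfw2] at hB
  rw [hfw] at hA hB
  simp only [Prod.swap_prod_mk] at hB
  have hZ1 := hZ (v, τ v u)
  have hZ2 := hZ (v, u)
  simp only [edge, Prod.swap_prod_mk] at hZ1 hZ2
  unfold phih
  unfold col at hcol
  simp only [decide_eq_bb] at hcol ⊢
  rw [hZ1, hZ2]
  have sw : ∀ a b : V × V, a = b.swap ↔ a.swap = b := by
    intro a b
    constructor
    · rintro rfl
      simp
    · rintro rfl
      simp
  rw [bb_iff (sw (v, τ v u) _), bb_iff (sw (v, u) _)]
  simp only [Prod.swap_prod_mk]
  have := bool_aux _ _ _ _ _ _ _ _ _ _ hcol hA hB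
  rw [Bool.xor_comm (bb (∃ k < l, (fw τ)^[k] p = (v, u)))]
  exact this

end

end Vale.Agent.P335
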