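import Vale.Agent.Lib.P335.Basic

/-!
# P335, module M2: local comparison

Two realizations at distance at most `K` are joined by boundedly many switches inside the set of
vertices touched by the difference.
-/

namespace Vale.Agent.P335.Local

open Finset Vale.Agent.P335

section Local
variable {V : Type} [Fintype V] [DecidableEq V]

/-- `Z` and `Z'` agree on all pairs which are not inside `U`. -/
def Agr (U : Finset V) (Z Z' : Finset (Sym2 V)) : Prop :=
  ∀ u v, ¬(u ∈ U ∧ v ∈ U) → (s(u, v) ∈ Z ↔ s(u, v) ∈ Z')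

omit [Fintype V] in
theorem Agr.refl (U : Finset V) (Z : Finset (Sym2 V)) : Agr U Z Z := fun _ _ _ => Iff.rfl

omit [Fintype V] in
theorem Agr.symm {U : Finset V} {Z Z' : Finset (Sym2 V)} (h : Agr U Z Z') : Agr U Z' Z :=
  fun u v huv => (h u v huv).symm

omit [Fintype V] in
theorem Agr.trans {U : Finset V} {Z Z' Z'' : Finset (Sym2 V)} (h : Agr U Z Z')
    (h' : Agr U Z' Z'') : Agr U Z Z'' :=
  fun u v huv => (h u v huv).trans (h' u v huv)

omit [Fintype V] in
theorem Agr.mono {U U' : Finset V} {Z Z' : Finset (Sym2 V)} (h : Agr U Z Z') (hU : U ⊆ U') :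
    Agr U' Z Z' :=
  fun u v huv => h u v (fun h' => huv ⟨hU h'.1, hU h'.2⟩)

/-- the result of a switch -/
def sw (Z : Finset (Sym2 V)) (a b c x : V) : Finset (Sym2 V) :=
  (Z \ {s(a, b), s(c, x)}) ∪ {s(a, c), s(b, x)}

theorem mem_nbr {E : Finset (Sym2 V)} {u v : V} : u ∈ nbr E v ↔ s(v, u) ∈ E := by
  simp [nbr]

omit [Fintype V] in
theorem sw_comm1 (Z : Finset (Sym2 V)) (a b c x : V) : sw Z b a x c = sw Z a b c x := by
  unfold sw
  rw [Sym2.eq_swap (a := b) (b := a), Sym2.eq_swap (a := x) (b := c),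
    Finset.pair_comm (s(b, x)) (s(a, c))]

omit [Fintype V] in
theorem sw_comm2 (Z : Finset (Sym2 V)) (a b c x : V) : sw Z c x a b = sw Z a b c x := by
  unfold sw
  rw [Finset.pair_comm (s(c, x)) (s(a, b)), Sym2.eq_swap (a := c) (b := a),
    Sym2.eq_swap (a := x) (b := b)]

theorem nbr_sw (Z : Finset (Sym2 V)) {a b c x : V} (hab : a ≠ b) (hac : a ≠ c) (hax : a ≠ x) :
    nbr (sw Z a b c x) a = insert c ((nbr Z a).erase b) := by
  ext u
  rw [mem_nbr, Finset.mem_insert, Finset.mem_erase, mem_nbr]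
  unfold sw
  simp only [Finset.mem_union, Finset.mem_sdiff, Finset.mem_insert, Finset.mem_singleton,
    Sym2.eq_iff]
  tauto

theorem nbr_sw_other (Z : Finset (Sym2 V)) {a b c x v : V} (hva : v ≠ a) (hvb : v ≠ b)
    (hvc : v ≠ c) (hvx : v ≠ x) : nbr (sw Z a b c x) v = nbr Z v := by
  ext u
  rw [mem_nbr, mem_nbr]
  unfold sw
  simp only [Finset.mem_union, Finset.mem_sdiff, Finset.mem_insert, Finset.mem_singleton,
    Sym2.eq_iff]
  tauto

theorem deg_sw_aux (Z : Finset (Sym2 V)) {a b c x : V} (hab : a ≠ b) (hac : a ≠ c) (hax : a ≠ x)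
    (hbc : b ≠ c) (h1 : s(a, b) ∈ Z) (h2 : s(a, c) ∉ Z) : deg (sw Z a b c x) a = deg Z a := by
  unfold deg
  rw [nbr_sw Z hab hac hax, Finset.card_insert_of_notMem, Finset.card_erase_of_mem]
  · have : 0 < (nbr Z a).card := Finset.card_pos.2 ⟨b, mem_nbr.2 h1⟩
    omega
  · exact mem_nbr.2 h1
  · rw [Finset.mem_erase, mem_nbr]
    tauto

theorem sw_mem_Om {d : V → ℕ} {Z : Finset (Sym2 V)} (hZ : Z ∈ Om d) {a b c x : V}
    (hab : a ≠ b) (hac : a ≠ c) (hax : a ≠ x) (hbc : b ≠ c) (hbx : b ≠ x) (hcx : c ≠ x)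
    (h1 : s(a, b) ∈ Z) (h2 : s(c, x) ∈ Z) (h3 : s(a, c) ∉ Z) (h4 : s(b, x) ∉ Z) :
    sw Z a b c x ∈ Om d := by
  rw [mem_Om] at hZ ⊢
  refine ⟨?_, ?_⟩
  · intro v hv
    unfold sw at hv
    simp only [Finset.mem_union, Finset.mem_sdiff, Finset.mem_insert, Finset.mem_singleton,
      Sym2.eq_iff] at hv
    rcases hv with hv | hv | hv
    · exact hZ.1 v hv.1
    · rcases hv with ⟨rfl, h⟩ | ⟨rfl, h⟩
      · exact hac h
      · exact hac h.symm
    · rcases hv with ⟨rfl, h⟩ | ⟨rfl, h⟩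
      · exact hbx h
      · exact hbx h.symm
  · intro v
    rw [← hZ.2 v]
    by_cases hva : v = a
    · subst hva
      exact deg_sw_aux Z hab hac hax hbc h1 h3
    by_cases hvb : v = b
    · subst hvb
      rw [← sw_comm1]
      exact deg_sw_aux Z hab.symm hbx hbc hax (by rwa [Sym2.eq_swap]) h4
    by_cases hvc : v = c
    · subst hvc
      rw [← sw_comm2]
      exact deg_sw_aux Z hcx hac.symm hbc.symm hax.symm h2 (by rwa [Sym2.eq_swap])
    by_cases hvx : v = x
    · subst hvx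
      rw [← sw_comm2, ← sw_comm1]
      exact deg_sw_aux Z hcx.symm hbx.symm hax.symm hbc.symm (by rwa [Sym2.eq_swap])
        (by rwa [Sym2.eq_swap])
    unfold deg
    rw [nbr_sw_other Z hva hvb hvc hvx]

omit [Fintype V] in
theorem Agr_sw {U : Finset V} (Z : Finset (Sym2 V)) {a b c x : V} (ha : a ∈ U) (hb : b ∈ U)
    (hc : c ∈ U) (hx : x ∈ U) : Agr U Z (sw Z a b c x) := by
  intro u v huv
  unfold sw
  simp only [Finset.mem_union, Finset.mem_sdiff, Finset.mem_insert, Finset.mem_singleton,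
    Sym2.eq_iff]
  constructor
  · intro h
    left
    refine ⟨h, ?_⟩
    rintro ((⟨rfl, rfl⟩ | ⟨rfl, rfl⟩) | (⟨rfl, rfl⟩ | ⟨rfl, rfl⟩)) <;> tauto
  · rintro (h | (⟨rfl, rfl⟩ | ⟨rfl, rfl⟩) | (⟨rfl, rfl⟩ | ⟨rfl, rfl⟩))
    · exact h.1
    all_goals tauto

theorem switchAdj_sw {Z : Finset (Sym2 V)} {a b c x : V}
    (hab : a ≠ b) (hac : a ≠ c) (hax : a ≠ x) (hbc : b ≠ c) (hbx : b ≠ x) (hcx : c ≠ x)
    (h1 : s(a, b) ∈ Z) (h2 : s(c, x) ∈ Z) (h3 : s(a, c) ∉ Z) (h4 : s(b, x) ∉ Z) :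
    SwitchAdj Z (sw Z a b c x) :=
  ⟨a, b, c, x, hab, hac, hax, hbc, hbx, hcx, h1, h2, h3, h4, rfl⟩

/-- one switch, inside `U`, replacing the neighbour `b` of `a` by `c`. -/
theorem exists_step {d : V → ℕ} {Z : Finset (Sym2 V)} (hZ : Z ∈ Om d) {U : Finset V} {a b c : V}
    (ha : a ∈ U) (hb : b ∈ U) (hc : c ∈ U) (hbc : b ≠ c) (h1 : s(a, b) ∈ Z) (h3 : s(a, c) ∉ Z)
    (hac : a ≠ c) (hle : (nbr Z b ∩ U).card ≤ (nbr Z c ∩ U).card) :
    ∃ Y ∈ Om d, SwitchAdj Z Y ∧ Agr U Z Y ∧ nbr Y a = insert c ((nbr Z a).erase b) := by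
  have hZ' := (mem_Om.1 hZ).1
  have hab : a ≠ b := by
    rintro rfl
    exact hZ' a h1
  -- find `x`
  obtain ⟨x, hxc, hxb⟩ : ∃ x ∈ (nbr Z c ∩ U).erase b, x ∉ ((nbr Z b ∩ U).erase a).erase c := by
    by_contra hcon
    push Not at hcon
    have hsub : (nbr Z c ∩ U).erase b ⊆ ((nbr Z b ∩ U).erase a).erase c := hcon
    have hcard := Finset.card_le_card hsub
    have haB : a ∈ nbr Z b ∩ U :=
      Finset.mem_inter.2 ⟨mem_nbr.2 (by rwa [Sym2.eq_swap]), ha⟩
    have hpos : 0 < (nbr Z b ∩ U).card := Finset.card_pos.2 ⟨a, haB⟩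
    by_cases hbcZ : s(b, c) ∈ Z
    · have hbC : b ∈ nbr Z c ∩ U :=
        Finset.mem_inter.2 ⟨mem_nbr.2 (by rwa [Sym2.eq_swap]), hb⟩
      have hcB : c ∈ (nbr Z b ∩ U).erase a :=
        Finset.mem_erase.2 ⟨hac.symm, Finset.mem_inter.2 ⟨mem_nbr.2 hbcZ, hc⟩⟩
      rw [Finset.card_erase_of_mem hbC, Finset.card_erase_of_mem hcB,
        Finset.card_erase_of_mem haB] at hcard
      have hpos' : 0 < ((nbr Z b ∩ U).erase a).card := Finset.card_pos.2 ⟨c, hcB⟩
      rw [Finset.card_erase_of_mem haB] at hpos'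
      omega
    · have hbC : b ∉ nbr Z c ∩ U := by
        rw [Finset.mem_inter, mem_nbr, Sym2.eq_swap]
        tauto
      rw [Finset.erase_eq_of_notMem hbC] at hcard
      have h5 : (((nbr Z b ∩ U).erase a).erase c).card ≤ ((nbr Z b ∩ U).erase a).card :=
        Finset.card_erase_le
      rw [Finset.card_erase_of_mem haB] at h5
      omega
  rw [Finset.mem_erase, Finset.mem_inter, mem_nbr] at hxc
  have hxU : x ∈ U := hxc.2.2
  have hxb' : x ≠ b := hxc.1
  have h2 : s(c, x) ∈ Z := hxc.2.1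
  have hcx : c ≠ x := by
    rintro rfl
    exact hZ' c h2
  have hax : a ≠ x := by
    rintro rfl
    rw [Sym2.eq_swap] at h2
    exact h3 h2
  have h4 : s(b, x) ∉ Z := by
    intro h4
    apply hxb
    rw [Finset.mem_erase, Finset.mem_erase, Finset.mem_inter, mem_nbr]
    exact ⟨hcx.symm, hax.symm, h4, hxU⟩
  exact ⟨sw Z a b c x, sw_mem_Om hZ hab hac hax hbc hxb'.symm hcx h1 h2 h3 h4,
    switchAdj_sw hab hac hax hbc hxb'.symm hcx h1 h2 h3 h4, Agr_sw Z ha hb hc hxU,
    nbr_sw Z hab hac hax⟩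

/-- degrees inside `U` only depend on the class of `Z` under `Agr U`. -/
theorem card_nbr_inter_eq {d : V → ℕ} {Z Z' : Finset (Sym2 V)} (hZ : Z ∈ Om d) (hZ' : Z' ∈ Om d)
    {U : Finset V} (h : Agr U Z Z') (v : V) :
    (nbr Z v ∩ U).card = (nbr Z' v ∩ U).card := by
  have h1 : nbr Z v \ U = nbr Z' v \ U := by
    ext u
    rw [Finset.mem_sdiff, Finset.mem_sdiff, mem_nbr, mem_nbr]
    constructor
    · rintro ⟨h2, h3⟩
      exact ⟨(h v u (fun h4 => h3 h4.2)).1 h2, h3⟩
    · rintro ⟨h2, h3⟩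
      exact ⟨(h v u (fun h4 => h3 h4.2)).2 h2, h3⟩
  have h2 := Finset.card_inter_add_card_sdiff (nbr Z v) U
  have h3 := Finset.card_inter_add_card_sdiff (nbr Z' v) U
  have h4 : (nbr Z v).card = (nbr Z' v).card := by
    have e1 := (mem_Om.1 hZ).2 v
    have e2 := (mem_Om.1 hZ').2 v
    unfold deg at e1 e2
    rw [e1, e2]
  rw [h1] at h2
  omega

/-- make the neighbourhoods of `a` equal -/
theorem fix_one {d : V → ℕ} {U : Finset V} {a : V} (ha : a ∈ U) (f : Finset (Sym2 V) → ℝ)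
    (B : ℝ) (hB0 : 0 ≤ B) (Z₀ : Finset (Sym2 V))
    (hB : ∀ Y ∈ Om d, ∀ Y' ∈ Om d, Agr U Z₀ Y → Agr U Z₀ Y' → SwitchAdj Y Y' →
      |f Y - f Y'| ≤ B) :
    ∀ (n : ℕ) (Z Z' : Finset (Sym2 V)), Z ∈ Om d → Z' ∈ Om d → Agr U Z₀ Z → Agr U Z₀ Z' →
      (nbr Z a \ nbr Z' a).card = n →
      ∃ Y ∈ Om d, ∃ Y' ∈ Om d, Agr U Z₀ Y ∧ Agr U Z₀ Y' ∧ nbr Y a = nbr Y' a ∧
        |f Z - f Y| + |f Z' - f Y'| ≤ n * B := by
  intro n
  induction n with
  | zero =>
    intro Z Z' hZ hZ' hAZ hAZ' hn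
    refine ⟨Z, hZ, Z', hZ', hAZ, hAZ', ?_, by simp⟩
    have hsub : nbr Z a ⊆ nbr Z' a := by
      rw [Finset.card_eq_zero, Finset.sdiff_eq_empty_iff_subset] at hn
      exact hn
    apply Finset.eq_of_subset_of_card_le hsub
    have e1 := (mem_Om.1 hZ).2 a
    have e2 := (mem_Om.1 hZ').2 a
    unfold deg at e1 e2
    rw [e1, e2]
  | succ n ih =>
    intro Z Z' hZ hZ' hAZ hAZ' hn
    have e1 : (nbr Z a).card = d a := (mem_Om.1 hZ).2 a
    have e2 : (nbr Z' a).card = d a := (mem_Om.1 hZ').2 a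
    have hAA : Agr U Z Z' := hAZ.symm.trans hAZ'
    obtain ⟨b, hb⟩ : (nbr Z a \ nbr Z' a).Nonempty := by
      rw [← Finset.card_pos, hn]
      omega
    have hn' : (nbr Z' a \ nbr Z a).card = n + 1 := by
      rw [← hn]
      have h1 := Finset.card_inter_add_card_sdiff (nbr Z a) (nbr Z' a)
      have h2 := Finset.card_inter_add_card_sdiff (nbr Z' a) (nbr Z a)
      rw [Finset.inter_comm] at h2
      omega
    obtain ⟨c, hc⟩ : (nbr Z' a \ nbr Z a).Nonempty := by
      rw [← Finset.card_pos, hn']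
      omega
    have hb' := hb
    have hc' := hc
    rw [Finset.mem_sdiff, mem_nbr, mem_nbr] at hb hc
    have hbU : b ∈ U := by
      by_contra hbU
      exact hb.2 ((hAA a b (fun h => hbU h.2)).1 hb.1)
    have hcU : c ∈ U := by
      by_contra hcU
      exact hc.2 ((hAA a c (fun h => hcU h.2)).2 hc.1)
    have hbc : b ≠ c := by
      rintro rfl
      exact hb.2 hc.1
    have hab : a ≠ b := by
      rintro rfl
      exact (mem_Om.1 hZ).1 a hb.1
    have hac : a ≠ c := by
      rintro rfl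
      exact (mem_Om.1 hZ').1 a hc.1
    rcases le_total (nbr Z b ∩ U).card (nbr Z c ∩ U).card with hle | hle
    · obtain ⟨Y, hY, hadj, hagr, hnbr⟩ := exists_step hZ ha hbU hcU hbc hb.1 hc.2 hac hle
      have hAY : Agr U Z₀ Y := hAZ.trans hagr
      have hcard : (nbr Y a \ nbr Z' a).card = n := by
        have : nbr Y a \ nbr Z' a = (nbr Z a \ nbr Z' a).erase b := by
          ext u
          rw [hnbr]
          simp only [Finset.mem_sdiff, Finset.mem_insert, Finset.mem_erase]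
          constructor
          · rintro ⟨rfl | h1, h2⟩
            · exact absurd (mem_nbr.2 hc.1) h2
            · exact ⟨h1.1, h1.2, h2⟩
          · rintro ⟨h1, h2, h3⟩
            exact ⟨Or.inr ⟨h1, h2⟩, h3⟩
        rw [this, Finset.card_erase_of_mem hb', hn]
        rfl
      obtain ⟨Y₁, hY₁, Y₂, hY₂, hA₁, hA₂, hnb, hle2⟩ := ih Y Z' hY hZ' hAY hAZ' hcard
      refine ⟨Y₁, hY₁, Y₂, hY₂, hA₁, hA₂, hnb, ?_⟩
      have h1 := hB Z hZ Y hY hAZ hAY hadj
      have h2 : |f Z - f Y₁| ≤ |f Z - f Y| + |f Y - f Y₁| := abs_sub_le _ _ _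
      push_cast
      linarith
    · rw [card_nbr_inter_eq hZ hZ' hAA b, card_nbr_inter_eq hZ hZ' hAA c] at hle
      obtain ⟨Y, hY, hadj, hagr, hnbr⟩ := exists_step hZ' ha hcU hbU hbc.symm hc.1 hb.2 hab hle
      have hAY : Agr U Z₀ Y := hAZ'.trans hagr
      have hcard : (nbr Z a \ nbr Y a).card = n := by
        have : nbr Z a \ nbr Y a = (nbr Z a \ nbr Z' a).erase b := by
          ext u
          rw [hnbr]
          simp only [Finset.mem_sdiff, Finset.mem_insert, Finset.mem_erase, not_or, not_and]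
          constructor
          · rintro ⟨h1, h2, h3⟩
            refine ⟨h2, h1, h3 ?_⟩
            rintro rfl
            exact hc.2 (mem_nbr.1 h1)
          · rintro ⟨h1, h2, h3⟩
            exact ⟨h2, h1, fun _ => h3⟩
        rw [this, Finset.card_erase_of_mem hb', hn]
        rfl
      obtain ⟨Y₁, hY₁, Y₂, hY₂, hA₁, hA₂, hnb, hle2⟩ := ih Z Y hZ hY hAZ hAY hcard
      refine ⟨Y₁, hY₁, Y₂, hY₂, hA₁, hA₂, hnb, ?_⟩
      have h1 := hB Z' hZ' Y hY hAZ' hAY hadj
      have h2 : |f Z' - f Y₂| ≤ |f Z' - f Y| + |f Y - f Y₂| := abs_sub_le _ _ _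
      push_cast
      linarith

/-- two realizations agreeing off `U` are joined by at most `|U|^2` switches inside `U`. -/
theorem local_diff {d : V → ℕ} (f : Finset (Sym2 V) → ℝ) (B : ℝ) (hB0 : 0 ≤ B) :
    ∀ (m : ℕ) (U : Finset V), U.card = m → ∀ (Z Z' : Finset (Sym2 V)), Z ∈ Om d → Z' ∈ Om d →
      Agr U Z Z' →
      (∀ Y ∈ Om d, ∀ Y' ∈ Om d, Agr U Z Y → Agr U Z Y' → SwitchAdj Y Y' → |f Y - f Y'| ≤ B) →
      |f Z - f Z'| ≤ (m : ℝ) ^ 2 * B := by
  intro m
  induction m with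
  | zero =>
    intro U hU Z Z' hZ hZ' hA hB
    rw [Finset.card_eq_zero] at hU
    subst hU
    have : Z = Z' := by
      ext e
      induction e with
      | h u v => exact hA u v (by simp)
    rw [this]
    simp
  | succ m ih =>
    intro U hU Z Z' hZ hZ' hA hB
    obtain ⟨a, ha⟩ : U.Nonempty := by
      rw [← Finset.card_pos, hU]
      omega
    have hn : (nbr Z a \ nbr Z' a).card ≤ m + 1 := by
      rw [← hU]
      apply Finset.card_le_card
      intro b hb
      rw [Finset.mem_sdiff, mem_nbr, mem_nbr] at hb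
      by_contra hbU
      exact hb.2 ((hA a b (fun h => hbU h.2)).1 hb.1)
    obtain ⟨Y, hY, Y', hY', hAY, hAY', hnb, hle⟩ :=
      fix_one ha f B hB0 Z hB _ Z Z' hZ hZ' (Agr.refl U Z) hA rfl
    have hA2 : Agr (U.erase a) Y Y' := by
      intro u v huv
      by_cases huv' : u ∈ U ∧ v ∈ U
      · have : u = a ∨ v = a := by
          by_contra hcon
          push Not at hcon
          exact huv ⟨Finset.mem_erase.2 ⟨hcon.1, huv'.1⟩, Finset.mem_erase.2 ⟨hcon.2, huv'.2⟩⟩
        rcases this with rfl | rfl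
        · rw [← mem_nbr, ← mem_nbr, hnb]
        · rw [Sym2.eq_swap, ← mem_nbr, ← mem_nbr, hnb]
      · exact (hAY.symm.trans hAY') u v huv'
    have hrec := ih (U.erase a) (by rw [Finset.card_erase_of_mem ha, hU]; rfl) Y Y' hY hY' hA2
      (fun W hW W' hW' hAW hAW' hadj => hB W hW W' hW'
        (hAY.trans (hAW.mono (Finset.erase_subset a U)))
        (hAY.trans (hAW'.mono (Finset.erase_subset a U))) hadj)
    have h1 : |f Z - f Z'| ≤ |f Z - f Y| + |f Y - f Y'| + |f Y' - f Z'| := by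
      have := abs_add_three (f Z - f Y) (f Y - f Y') (f Y' - f Z')
      have e : f Z - f Y + (f Y - f Y') + (f Y' - f Z') = f Z - f Z' := by ring
      rwa [e] at this
    rw [abs_sub_comm (f Y') (f Z')] at h1
    have h2 : ((nbr Z a \ nbr Z' a).card : ℝ) * B ≤ (m + 1) * B := by
      apply mul_le_mul_of_nonneg_right _ hB0
      exact_mod_cast hn
    have h3 : (m : ℝ) ^ 2 * B + (m + 1) * B ≤ ((m + 1 : ℕ) : ℝ) ^ 2 * B := by
      push_cast
      nlinarith [mul_nonneg (Nat.cast_nonneg (α := ℝ) m) hB0]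
    linarith

open Classical in
/-- number of edge sets agreeing with a given one off `U` -/
theorem card_Agr_le (U : Finset V) (Z : Finset (Sym2 V)) (S : Finset (Finset (Sym2 V))) :
    (S.filter (fun Y => Agr U Z Y)).card ≤ 2 ^ ((U.card + 1) ^ 2) := by
  have h1 : (S.filter (fun Y => Agr U Z Y)).card ≤ (U.sym2.powerset).card := by
    apply Finset.card_le_card_of_injOn (fun Y => Y ∩ U.sym2)
    · intro Y _
      simp
    · intro Y hY Y' hY' hYY'
      rw [Finset.mem_coe, Finset.mem_filter] at hY hY'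
      ext e
      induction e with
      | h u v =>
        by_cases huv : u ∈ U ∧ v ∈ U
        · have h2 : s(u, v) ∈ U.sym2 := Finset.mk_mem_sym2_iff.2 huv
          have h3 : s(u, v) ∈ Y ∩ U.sym2 ↔ s(u, v) ∈ Y' ∩ U.sym2 := by
            have : Y ∩ U.sym2 = Y' ∩ U.sym2 := hYY'
            rw [this]
          rw [Finset.mem_inter, Finset.mem_inter] at h3
          tauto
        · exact ((hY.2.symm.trans hY'.2) u v huv)
  refine h1.trans ?_
  rw [Finset.card_powerset]
  apply Nat.pow_le_pow_right (by norm_num)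
  rw [Finset.card_sym2, Nat.choose_two_right, Nat.add_sub_cancel]
  calc (U.card + 1) * U.card / 2 ≤ (U.card + 1) * U.card := Nat.div_le_self _ _
    _ ≤ (U.card + 1) ^ 2 := by nlinarith

end Local

section Energy
variable {V : Type} [Fintype V] [DecidableEq V]

open Classical in
/-- energy of the switches between elements agreeing with `Z` off `U` -/
noncomputable def LocE (d : V → ℕ) (f : Finset (Sym2 V) → ℝ) (U : Finset V)
    (Z : Finset (Sym2 V)) : ℝ :=
  ∑ Y ∈ (Om d).filter (fun Y => Agr U Z Y),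
    ∑ Y' ∈ (Om d).filter (fun Y' => SwitchAdj Y Y'), (f Y - f Y') ^ 2

theorem LocE_nonneg (d : V → ℕ) (f : Finset (Sym2 V) → ℝ) (U : Finset V)
    (Z : Finset (Sym2 V)) : 0 ≤ LocE d f U Z :=
  Finset.sum_nonneg (fun _ _ => Finset.sum_nonneg (fun _ _ => sq_nonneg _))

theorem sq_le_LocE {d : V → ℕ} (f : Finset (Sym2 V) → ℝ) (U : Finset V) {Z Z' : Finset (Sym2 V)}
    (hZ : Z ∈ Om d) (hZ' : Z' ∈ Om d) (hA : Agr U Z Z') :
    (f Z - f Z') ^ 2 ≤ (U.card : ℝ) ^ 4 * LocE d f U Z := by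
  classical
  have hE := LocE_nonneg d f U Z
  have key := local_diff f (Real.sqrt (LocE d f U Z)) (Real.sqrt_nonneg _) U.card U rfl Z Z' hZ
    hZ' hA (by
      intro Y hY Y' hY' hAY hAY' hadj
      apply Real.abs_le_sqrt
      unfold LocE
      calc (f Y - f Y') ^ 2 ≤ ∑ Y' ∈ (Om d).filter (fun Y' => SwitchAdj Y Y'),
            (f Y - f Y') ^ 2 :=
            Finset.single_le_sum (f := fun Y' => (f Y - f Y') ^ 2) (fun _ _ => sq_nonneg _)
              (Finset.mem_filter.2 ⟨hY', hadj⟩)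
        _ ≤ _ := Finset.single_le_sum
              (f := fun Y => ∑ Y' ∈ (Om d).filter (fun Y' => SwitchAdj Y Y'), (f Y - f Y') ^ 2)
              (fun _ _ => Finset.sum_nonneg (fun _ _ => sq_nonneg _))
              (Finset.mem_filter.2 ⟨hY, hAY⟩))
  calc (f Z - f Z') ^ 2 = |f Z - f Z'| ^ 2 := (sq_abs _).symm
    _ ≤ ((U.card : ℝ) ^ 2 * Real.sqrt (LocE d f U Z)) ^ 2 :=
        pow_le_pow_left₀ (abs_nonneg _) key 2
    _ = (U.card : ℝ) ^ 4 * LocE d f U Z := by
        rw [mul_pow, Real.sq_sqrt hE]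
        ring

theorem sum_LocE_le (d : V → ℕ) (f : Finset (Sym2 V) → ℝ) (U : Finset V) :
    ∑ Z ∈ Om d, LocE d f U Z ≤ (2 ^ ((U.card + 1) ^ 2) : ℕ) * SwitchEnergy d f := by
  classical
  unfold LocE SwitchEnergy
  simp_rw [Finset.sum_filter]
  rw [Finset.sum_comm, Finset.mul_sum]
  apply Finset.sum_le_sum
  intro Y _
  rw [← Finset.sum_filter, Finset.sum_const, nsmul_eq_mul]
  apply mul_le_mul_of_nonneg_right
  · have h1 : ((Om d).filter (fun Z => Agr U Z Y)) = ((Om d).filter (fun Z => Agr U Y Z)) := by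
      apply Finset.filter_congr
      intro Z _
      exact ⟨Agr.symm, Agr.symm⟩
    rw [h1]
    exact_mod_cast card_Agr_le U Y (Om d)
  · exact Finset.sum_nonneg (fun _ _ => by split_ifs <;> positivity)

/-- the vertices touched by the symmetric difference -/
def touched (Z Z' : Finset (Sym2 V)) : Finset V := (symmDiff Z Z').biUnion Sym2.toFinset

omit [Fintype V] in
theorem card_touched_le (Z Z' : Finset (Sym2 V)) :
    (touched Z Z').card ≤ 2 * (symmDiff Z Z').card := by
  rw [mul_comm]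
  apply Finset.card_biUnion_le_card_mul
  intro e _
  induction e with
  | h u v =>
    rw [Sym2.toFinset_mk_eq]
    exact Finset.card_le_two

omit [Fintype V] in
theorem Agr_touched (Z Z' : Finset (Sym2 V)) : Agr (touched Z Z') Z Z' := by
  intro u v huv
  by_contra hcon
  apply huv
  have h1 : s(u, v) ∈ symmDiff Z Z' := by
    rw [Finset.mem_symmDiff]
    tauto
  unfold touched
  rw [Finset.mem_biUnion, Finset.mem_biUnion]
  exact ⟨⟨_, h1, by simp⟩, ⟨_, h1, by simp⟩⟩

/-- number of small vertex sets -/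
theorem card_small_le (m : ℕ) (hV : 0 < Fintype.card V) :
    ((univ : Finset (Finset V)).filter (fun U => U.card ≤ m)).card
      ≤ (m + 1) * Fintype.card V ^ m := by
  have h1 : ((univ : Finset (Finset V)).filter (fun U => U.card ≤ m))
      ⊆ (range (m + 1)).biUnion (fun i => Finset.powersetCard i (univ : Finset V)) := by
    intro U hU
    rw [Finset.mem_filter] at hU
    rw [Finset.mem_biUnion]
    exact ⟨U.card, Finset.mem_range.2 (by omega), Finset.mem_powersetCard.2
      ⟨Finset.subset_univ U, rfl⟩⟩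
  refine (Finset.card_le_card h1).trans ?_
  refine (Finset.card_biUnion_le_card_mul _ _ (Fintype.card V ^ m) ?_).trans ?_
  · intro i hi
    rw [Finset.card_powersetCard, Finset.card_univ]
    exact (Nat.choose_le_pow _ _).trans (Nat.pow_le_pow_right hV
      (by rw [Finset.mem_range] at hi; omega))
  · rw [Finset.card_range]

end Energy

end Vale.Agent.P335.Local

namespace Vale.Agent.P335

open Finset Vale.Agent.P335.Local

/-- M2. Local comparison of the energies. -/
theorem local_energy (K : ℕ) : ∃ C k : ℕ, ∀ (V : Type) [Fintype V] [DecidableEq V] (d : V → ℕ)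
    (f : Finset (Sym2 V) → ℝ),
    NearEnergy d K f ≤ (C : ℝ) * (Fintype.card V : ℝ) ^ k * SwitchEnergy d f := by
  refine ⟨(2 * K) ^ 4 * 2 ^ ((2 * K + 1) ^ 2) * 2 ^ ((2 * K + 1) ^ 2) * (2 * K + 1), 2 * K, ?_⟩
  intro V _ _ d f
  classical
  have hSE : 0 ≤ SwitchEnergy d f :=
    Finset.sum_nonneg (fun _ _ => Finset.sum_nonneg (fun _ _ => sq_nonneg _))
  rcases Nat.eq_zero_or_pos (Fintype.card V) with hV | hV
  · have : IsEmpty V := Fintype.card_eq_zero_iff.1 hV
    have h0 : NearEnergy d K f = 0 := by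
      unfold NearEnergy
      apply Finset.sum_eq_zero
      intro Z _
      apply Finset.sum_eq_zero
      intro Z' _
      have : Z = Z' := by
        ext e
        induction e with
        | h u v => exact isEmptyElim u
      rw [this]
      simp
    rw [h0]
    positivity
  · set M : ℕ := 2 ^ ((2 * K + 1) ^ 2) with hM
    set SU : Finset (Finset V) := univ.filter (fun U => U.card ≤ 2 * K) with hSU
    have h1 : ∀ Z ∈ Om d, ∑ Z' ∈ (Om d).filter (fun Z' => (symmDiff Z Z').card ≤ K),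
        (f Z - f Z') ^ 2 ≤ ∑ U ∈ SU, (((2 * K) ^ 4 * M : ℕ) : ℝ) * LocE d f U Z := by
      intro Z hZ
      calc ∑ Z' ∈ (Om d).filter (fun Z' => (symmDiff Z Z').card ≤ K), (f Z - f Z') ^ 2
          ≤ ∑ Z' ∈ (Om d).filter (fun Z' => (symmDiff Z Z').card ≤ K),
              ∑ U ∈ SU.filter (fun U => Agr U Z Z'), (((2 * K) ^ 4 : ℕ) : ℝ) * LocE d f U Z := by
            apply Finset.sum_le_sum
            intro Z' hZ'
            rw [Finset.mem_filter] at hZ'
            have hc : (touched Z Z').card ≤ 2 * K :=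
              (card_touched_le Z Z').trans (Nat.mul_le_mul_left 2 hZ'.2)
            have hmem : touched Z Z' ∈ SU.filter (fun U => Agr U Z Z') := by
              rw [Finset.mem_filter, hSU, Finset.mem_filter]
              exact ⟨⟨Finset.mem_univ _, hc⟩, Agr_touched Z Z'⟩
            refine le_trans ?_ (Finset.single_le_sum
              (f := fun U => (((2 * K) ^ 4 : ℕ) : ℝ) * LocE d f U Z)
              (fun U _ => mul_nonneg (Nat.cast_nonneg _) (LocE_nonneg d f U Z)) hmem)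
            refine (sq_le_LocE f (touched Z Z') hZ hZ'.1 (Agr_touched Z Z')).trans ?_
            apply mul_le_mul_of_nonneg_right _ (LocE_nonneg d f _ Z)
            exact_mod_cast Nat.pow_le_pow_left hc 4
        _ ≤ ∑ Z' ∈ Om d, ∑ U ∈ SU.filter (fun U => Agr U Z Z'),
              (((2 * K) ^ 4 : ℕ) : ℝ) * LocE d f U Z := by
            apply Finset.sum_le_sum_of_subset_of_nonneg (Finset.filter_subset _ _)
            intro Z' _ _
            exact Finset.sum_nonneg (fun U _ => mul_nonneg (Nat.cast_nonneg _)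
              (LocE_nonneg d f U Z))
        _ = ∑ U ∈ SU, ∑ _Z' ∈ (Om d).filter (fun Z' => Agr U Z Z'),
              (((2 * K) ^ 4 : ℕ) : ℝ) * LocE d f U Z := by
            simp_rw [Finset.sum_filter]
            rw [Finset.sum_comm]
        _ ≤ ∑ U ∈ SU, (((2 * K) ^ 4 * M : ℕ) : ℝ) * LocE d f U Z := by
            apply Finset.sum_le_sum
            intro U hU
            rw [hSU, Finset.mem_filter] at hU
            rw [Finset.sum_const, nsmul_eq_mul]
            have h2 : ((Om d).filter (fun Z' => Agr U Z Z')).card ≤ M := by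
              refine (card_Agr_le U Z (Om d)).trans ?_
              rw [hM]
              exact Nat.pow_le_pow_right (by norm_num) (Nat.pow_le_pow_left (by omega) 2)
            have h3 : (((Om d).filter (fun Z' => Agr U Z Z')).card : ℝ) ≤ (M : ℝ) := by
              exact_mod_cast h2
            have h4 := LocE_nonneg d f U Z
            calc (((Om d).filter (fun Z' => Agr U Z Z')).card : ℝ) *
                  ((((2 * K) ^ 4 : ℕ) : ℝ) * LocE d f U Z)
                ≤ (M : ℝ) * ((((2 * K) ^ 4 : ℕ) : ℝ) * LocE d f U Z) := by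
                  apply mul_le_mul_of_nonneg_right h3
                  positivity
              _ = _ := by push_cast; ring
    unfold NearEnergy
    calc ∑ Z ∈ Om d, ∑ Z' ∈ (Om d).filter (fun Z' => (symmDiff Z Z').card ≤ K), (f Z - f Z') ^ 2
        ≤ ∑ Z ∈ Om d, ∑ U ∈ SU, (((2 * K) ^ 4 * M : ℕ) : ℝ) * LocE d f U Z :=
          Finset.sum_le_sum h1
      _ = ∑ U ∈ SU, (((2 * K) ^ 4 * M : ℕ) : ℝ) * ∑ Z ∈ Om d, LocE d f U Z := by
          rw [Finset.sum_comm]
          simp_rw [Finset.mul_sum]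
      _ ≤ ∑ _U ∈ SU, (((2 * K) ^ 4 * M : ℕ) : ℝ) * ((M : ℝ) * SwitchEnergy d f) := by
          apply Finset.sum_le_sum
          intro U hU
          rw [hSU, Finset.mem_filter] at hU
          apply mul_le_mul_of_nonneg_left _ (Nat.cast_nonneg _)
          refine (sum_LocE_le d f U).trans ?_
          apply mul_le_mul_of_nonneg_right _ hSE
          have : 2 ^ ((U.card + 1) ^ 2) ≤ M := by
            rw [hM]
            exact Nat.pow_le_pow_right (by norm_num) (Nat.pow_le_pow_left (by omega) 2)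
          exact_mod_cast this
      _ = (SU.card : ℝ) * ((((2 * K) ^ 4 * M : ℕ) : ℝ) * ((M : ℝ) * SwitchEnergy d f)) := by
          rw [Finset.sum_const, nsmul_eq_mul]
      _ ≤ (((2 * K + 1) * Fintype.card V ^ (2 * K) : ℕ) : ℝ) *
            ((((2 * K) ^ 4 * M : ℕ) : ℝ) * ((M : ℝ) * SwitchEnergy d f)) := by
          apply mul_le_mul_of_nonneg_right
          · exact_mod_cast card_small_le (V := V) (2 * K) hV
          · positivity
      _ = _ := by
          push_cast
          ring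

end Vale.Agent.P335
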