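import Vale.Agent.Lib.P335.Basic

/-!
Counting compatible transition systems (module M5 for P335).
-/

namespace Vale.Agent.P335

open Finset

section
variable {V : Type} [Fintype V] [DecidableEq V]

/-- local condition at one vertex: `f` is an involution which is the identity off `N` and swaps
the two colours of `c` on `N` -/
def IsLocTrans (N : Finset V) (c : V → Bool) (f : V → V) : Prop :=
  ∀ u, f (f u) = u ∧ (u ∉ N → f u = u) ∧ (u ∈ N → f u ≠ u ∧ c (f u) ≠ c u)

theorem IsLocTrans.mem {N : Finset V} {c : V → Bool} {f : V → V} (hf : IsLocTrans N c f)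
    {u : V} (hu : u ∈ N) : f u ∈ N := by
  by_contra h
  have h1 := (hf (f u)).2.1 h
  rw [(hf u).1] at h1
  exact ((hf u).2.2 hu).1 h1.symm

/-- local transition functions as equivalences between the two colour classes -/
noncomputable def locEquiv (N : Finset V) (c : V → Bool) :
    {f : V → V // IsLocTrans N c f} ≃
      ({u : V // u ∈ N ∧ c u = true} ≃ {u : V // u ∈ N ∧ c u = false}) where
  toFun f :=
    { toFun := fun u => ⟨f.1 u.1, f.2.mem u.2.1, by
        have h := ((f.2 u.1).2.2 u.2.1).2
        rw [u.2.2] at h
        simpa using h⟩
      invFun := fun u => ⟨f.1 u.1, f.2.mem u.2.1, by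
        have h := ((f.2 u.1).2.2 u.2.1).2
        rw [u.2.2] at h
        simpa using h⟩
      left_inv := fun u => Subtype.ext (f.2 u.1).1
      right_inv := fun u => Subtype.ext (f.2 u.1).1 }
  invFun e := ⟨fun u => if h : u ∈ N ∧ c u = true then (e ⟨u, h⟩ : V)
      else if h : u ∈ N ∧ c u = false then (e.symm ⟨u, h⟩ : V) else u, by
    intro u
    by_cases h1 : u ∈ N ∧ c u = true
    · have h2 := (e ⟨u, h1⟩).2
      have h3 : ¬ ((e ⟨u, h1⟩ : V) ∈ N ∧ c (e ⟨u, h1⟩ : V) = true) := by
        rw [h2.2]; simp
      refine ⟨?_, fun h => absurd h1.1 h, fun _ => ⟨?_, ?_⟩⟩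
      · simp only [dif_pos h1, dif_neg h3, dif_pos h2]
        simp
      · simp only [dif_pos h1]
        intro h
        rw [h, h1.2] at h2
        simp at h2
      · simp only [dif_pos h1]
        rw [h2.2, h1.2]
        simp
    · by_cases h2 : u ∈ N ∧ c u = false
      · have h3 := (e.symm ⟨u, h2⟩).2
        refine ⟨?_, fun h => absurd h2.1 h, fun _ => ⟨?_, ?_⟩⟩
        · simp only [dif_neg h1, dif_pos h2, dif_pos h3]
          simp
        · simp only [dif_neg h1, dif_pos h2]
          intro h
          rw [h, h2.2] at h3
          simp at h3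
        · simp only [dif_neg h1, dif_pos h2]
          rw [h3.2, h2.2]
          simp
      · have h3 : u ∉ N := by
          intro h
          rcases Bool.eq_false_or_eq_true (c u) with h4 | h4
          · exact h1 ⟨h, h4⟩
          · exact h2 ⟨h, h4⟩
        refine ⟨?_, fun _ => ?_, fun h => absurd h h3⟩
        · simp only [dif_neg h1, dif_neg h2]
        · simp only [dif_neg h1, dif_neg h2]⟩
  left_inv f := by
    apply Subtype.ext
    funext u
    by_cases h1 : u ∈ N ∧ c u = true
    · simp only [dif_pos h1]
      rfl
    · by_cases h2 : u ∈ N ∧ c u = false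
      · simp only [dif_neg h1, dif_pos h2]
        rfl
      · have h3 : u ∉ N := by
          intro h
          rcases Bool.eq_false_or_eq_true (c u) with h4 | h4
          · exact h1 ⟨h, h4⟩
          · exact h2 ⟨h, h4⟩
        simp only [dif_neg h1, dif_neg h2]
        exact ((f.2 u).2.1 h3).symm
  right_inv e := by
    apply Equiv.ext
    intro u
    apply Subtype.ext
    simp only [Equiv.coe_fn_mk, dif_pos u.2]

open Classical in
/-- the finset of local transition functions -/
noncomputable def LT (N : Finset V) (c : V → Bool) : Finset (V → V) :=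
  univ.filter (fun f => IsLocTrans N c f)

theorem mem_LT {N : Finset V} {c : V → Bool} {f : V → V} :
    f ∈ LT N c ↔ IsLocTrans N c f := by
  simp [LT]

theorem card_filter_add (N : Finset V) (c : V → Bool) :
    (N.filter (fun u => c u = true)).card + (N.filter (fun u => c u = false)).card = N.card := by
  have h := Finset.card_filter_add_card_filter_not (s := N) (fun u => c u = true)
  simpa using h

theorem card_LT_eq (N : Finset V) (c : V → Bool)
    (h : (N.filter (fun u => c u = true)).card = (N.filter (fun u => c u = false)).card) :
    (LT N c).card = (N.card / 2).factorial := by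
  classical
  have h0 : (LT N c).card = Fintype.card {f : V → V // IsLocTrans N c f} := by
    rw [Fintype.card_subtype]
    rfl
  have ha : Fintype.card {u : V // u ∈ N ∧ c u = true} =
      (N.filter (fun u => c u = true)).card := by
    rw [Fintype.card_subtype]
    congr 1
    ext u
    simp
  have hb : Fintype.card {u : V // u ∈ N ∧ c u = false} =
      (N.filter (fun u => c u = false)).card := by
    rw [Fintype.card_subtype]
    congr 1
    ext u
    simp
  have he : Fintype.card {u : V // u ∈ N ∧ c u = true} =
      Fintype.card {u : V // u ∈ N ∧ c u = false} := by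
    rw [ha, hb, h]
  have e := Fintype.equivOfCardEq he
  rw [h0, Fintype.card_congr (locEquiv N c), Fintype.card_equiv e, ha]
  congr 1
  have h2 := card_filter_add N c
  omega

theorem card_LT_le (N : Finset V) (c : V → Bool) :
    (LT N c).card ≤ (N.card / 2).factorial := by
  classical
  by_cases h : (N.filter (fun u => c u = true)).card = (N.filter (fun u => c u = false)).card
  · exact (card_LT_eq N c h).le
  · have h0 : (LT N c) = ∅ := by
      rw [Finset.eq_empty_iff_forall_notMem]
      intro f hf
      rw [mem_LT] at hf
      apply h
      have e := locEquiv N c ⟨f, hf⟩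
      have h1 := Fintype.card_congr e
      have ha : Fintype.card {u : V // u ∈ N ∧ c u = true} =
          (N.filter (fun u => c u = true)).card := by
        rw [Fintype.card_subtype]
        congr 1
        ext u
        simp
      have hb : Fintype.card {u : V // u ∈ N ∧ c u = false} =
          (N.filter (fun u => c u = false)).card := by
        rw [Fintype.card_subtype]
        congr 1
        ext u
        simp
      rw [← ha, ← hb, h1]
    rw [h0]
    simp

theorem TT_eq_pi (H : Finset (Sym2 V)) (φ : V → V → Bool) :
    TT H φ = Fintype.piFinset (fun v => LT (nbr H v) (φ v)) := by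
  ext τ
  rw [mem_TT, Fintype.mem_piFinset]
  simp only [mem_LT, IsTrans, IsLocTrans, nbr, mem_filter, mem_univ, true_and]

theorem card_trans_le (H : Finset (Sym2 V)) (φ : V → V → Bool) : (TT H φ).card ≤ WW H := by
  rw [TT_eq_pi, Fintype.card_piFinset]
  exact Finset.prod_le_prod' (fun v _ => card_LT_le (nbr H v) (φ v))

theorem card_trans_eq (H : Finset (Sym2 V)) (φ : V → V → Bool)
    (hbal : ∀ v, ((nbr H v).filter (fun u => φ v u = true)).card =
      ((nbr H v).filter (fun u => φ v u = false)).card) :
    (TT H φ).card = WW H := by
  rw [TT_eq_pi, Fintype.card_piFinset]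
  exact Finset.prod_congr rfl (fun v _ => card_LT_eq (nbr H v) (φ v) (hbal v))

end

end Vale.Agent.P335
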