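import Vale.Agent.Lib.P335.Tele
import Vale.Agent.Lib.P335.Trans
import Vale.Agent.Lib.P335.Local

/-!
Assembly: the Poincare inequality for the switch chain.
-/

namespace Vale.Agent.P335

open Finset Function

section
variable {V : Type} [Fintype V] [DecidableEq V]

theorem card_sym2_le : Fintype.card (Sym2 V) ≤ ND V := by
  apply Fintype.card_le_of_surjective (fun p : V × V => s(p.1, p.2))
  intro e
  induction e with
  | _ a b => exact ⟨(a, b), rfl⟩

theorem small_card (r : ℕ) :
    (univ.filter (fun X : Finset (Sym2 V) => X.card ≤ r)).card ≤ (ND V + 1) ^ r := by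
  induction r with
  | zero =>
    have : univ.filter (fun X : Finset (Sym2 V) => X.card ≤ 0) ⊆ {∅} := by
      intro X hX
      simpa using hX
    simpa using card_le_card this
  | succ r ih =>
    set S := univ.filter (fun X : Finset (Sym2 V) => X.card ≤ r) with hS
    let ins : Finset (Sym2 V) × Option (Sym2 V) → Finset (Sym2 V) :=
      fun q => q.2.elim q.1 (fun e => insert e q.1)
    have hsub : univ.filter (fun X : Finset (Sym2 V) => X.card ≤ r + 1) ⊆
        (S ×ˢ (univ : Finset (Option (Sym2 V)))).image ins := by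
      intro X hX
      have hX' : X.card ≤ r + 1 := (mem_filter.1 hX).2
      rw [mem_image]
      rcases Nat.lt_or_ge r X.card with h | h
      · have hne : X.Nonempty := card_pos.1 (by omega)
        obtain ⟨e, he⟩ := hne
        refine ⟨(X.erase e, some e), ?_, ?_⟩
        · rw [mem_product]
          refine ⟨?_, mem_univ _⟩
          rw [hS, mem_filter]
          refine ⟨mem_univ _, ?_⟩
          rw [card_erase_of_mem he]
          omega
        · exact insert_erase he
      · refine ⟨(X, none), ?_, rfl⟩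
        rw [mem_product]
        refine ⟨?_, mem_univ _⟩
        rw [hS, mem_filter]
        exact ⟨mem_univ _, h⟩
    calc _ ≤ ((S ×ˢ (univ : Finset (Option (Sym2 V)))).image ins).card := card_le_card hsub
      _ ≤ (S ×ˢ (univ : Finset (Option (Sym2 V)))).card := card_image_le
      _ = S.card * (Fintype.card (Sym2 V) + 1) := by
        rw [card_product, card_univ, Fintype.card_option]
      _ ≤ (ND V + 1) ^ r * (ND V + 1) :=
        Nat.mul_le_mul ih (Nat.add_le_add_right card_sym2_le 1)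
      _ = (ND V + 1) ^ (r + 1) := by rw [pow_succ]

theorem ball_card (r : ℕ) (Z : Finset (Sym2 V)) :
    (univ.filter (fun X : Finset (Sym2 V) => (symmDiff X Z).card ≤ r)).card ≤
      (ND V + 1) ^ r := by
  refine le_trans ?_ (small_card (V := V) r)
  apply card_le_card_of_injOn (fun X => symmDiff X Z)
  · intro X hX
    simpa using hX
  · intro X _ Y _ hXY
    exact symmDiff_left_injective _ hXY

theorem balanced {d : V → ℕ} {G H : Finset (Sym2 V)} (hG : G ∈ Om d)
    (hG' : symmDiff G H ∈ Om d) (v : V) :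
    ((nbr H v).filter (fun u => col G v u = true)).card =
      ((nbr H v).filter (fun u => col G v u = false)).card := by
  have h1 := (mem_Om.1 hG).2 v
  have h2 := (mem_Om.1 hG').2 v
  unfold deg at h1 h2
  rw [nbr_symmDiff] at h2
  have e0 : (nbr H v).filter (fun u => col G v u = true) = nbr H v ∩ nbr G v := by
    ext u
    simp [col, nbr]
  have e0' : (nbr H v).filter (fun u => col G v u = false) = nbr H v \ nbr G v := by
    ext u
    simp [col, nbr]
  rw [e0, e0']
  have e1 : (symmDiff (nbr G v) (nbr H v)).card =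
      (nbr G v \ nbr H v).card + (nbr H v \ nbr G v).card := by
    rw [symmDiff_def, sup_eq_union, card_union_of_disjoint]
    rw [disjoint_left]
    intro x hx hx'
    simp only [mem_sdiff] at hx hx'
    exact hx.2 hx'.1
  have e2 := card_sdiff_add_card_inter (nbr G v) (nbr H v)
  rw [inter_comm] at e2
  omega

theorem WW_pos (H : Finset (Sym2 V)) : 0 < WW H := by
  unfold WW
  exact prod_pos fun v _ => Nat.factorial_pos _

open Classical in
/-- indicator of being near a realization together with its partner -/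
noncomputable def both (d : V → ℕ) (H Z : Finset (Sym2 V)) : ℝ :=
  if Near d 5 Z ∧ Near d 5 (symmDiff Z H) then 1 else 0

theorem both_nonneg (d : V → ℕ) (H Z : Finset (Sym2 V)) : 0 ≤ both d H Z := by
  unfold both
  split_ifs <;> norm_num

theorem sum_term_le (d : V → ℕ) (f : Finset (Sym2 V) → ℝ) (H Z : Finset (Sym2 V)) :
    ∑ τ : V → V → V, term d f H τ Z ≤
      (WW H : ℝ) * ((ND V : ℝ) ^ 2 * (both d H Z * Lam d f Z)) := by
  classical
  have hL := Lam_nonneg d f Z
  by_cases hb : Near d 5 Z ∧ Near d 5 (symmDiff Z H)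
  · have hboth : both d H Z = 1 := by simp [both, hb]
    rw [hboth, one_mul]
    have h1 : ∀ τ : V → V → V, term d f H τ Z =
        (if τ ∈ univ.filter (fun τ : V → V → V => ∃ D' D'' : V × V,
          IsTrans H (phih Z D' D'') τ) then Lam d f Z else 0) := by
      intro τ
      unfold term GoodZ
      simp [hb]
    rw [sum_congr rfl (fun τ _ => h1 τ), sum_ite_mem, univ_inter, sum_const, nsmul_eq_mul]
    have hsub : univ.filter (fun τ : V → V → V => ∃ D' D'' : V × V,
          IsTrans H (phih Z D' D'') τ) ⊆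
        (univ : Finset ((V × V) × (V × V))).biUnion (fun q => TT H (phih Z q.1 q.2)) := by
      intro τ hτ
      obtain ⟨D', D'', h⟩ := (mem_filter.1 hτ).2
      rw [mem_biUnion]
      exact ⟨(D', D''), mem_univ _, mem_TT.2 h⟩
    have hcard : (univ.filter (fun τ : V → V → V => ∃ D' D'' : V × V,
          IsTrans H (phih Z D' D'') τ)).card ≤ ND V ^ 2 * WW H := by
      refine (card_le_card hsub).trans ?_
      refine (card_biUnion_le_card_mul _ _ (WW H) (fun q _ => card_trans_le _ _)).trans ?_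
      rw [card_univ, Fintype.card_prod, sq]
      exact le_rfl
    have hcard' : ((univ.filter (fun τ : V → V → V => ∃ D' D'' : V × V,
          IsTrans H (phih Z D' D'') τ)).card : ℝ) ≤ (ND V : ℝ) ^ 2 * WW H := by
      exact_mod_cast hcard
    calc _ ≤ ((ND V : ℝ) ^ 2 * WW H) * Lam d f Z := mul_le_mul_of_nonneg_right hcard' hL
      _ = _ := by ring
  · have hboth : both d H Z = 0 := by simp only [both, hb, if_false]
    rw [hboth, zero_mul, mul_zero, mul_zero]
    apply le_of_eq
    apply sum_eq_zero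
    intro τ _
    unfold term
    rw [if_neg]
    intro hg
    exact hb ⟨hg.1, hg.2.1⟩

open Classical in
theorem fixed_H (d : V → ℕ) (f : Finset (Sym2 V) → ℝ) (H : Finset (Sym2 V)) :
    ∑ A ∈ Om d, (if symmDiff A H ∈ Om d then (f A - f (symmDiff A H)) ^ 2 else 0) ≤
      (ND V : ℝ) ^ 7 * ((ND V : ℝ) * ND V + 1) ^ 2 *
        ∑ Z : Finset (Sym2 V), both d H Z * Lam d f Z := by
  have hW : (0 : ℝ) < WW H := by exact_mod_cast WW_pos H
  have h1 : (WW H : ℝ) * ∑ A ∈ Om d,
      (if symmDiff A H ∈ Om d then (f A - f (symmDiff A H)) ^ 2 else 0) =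
      ∑ τ : V → V → V, ∑ G ∈ PP d H τ, (f G - f (symmDiff G H)) ^ 2 := by
    have a1 : ∀ τ : V → V → V, ∑ G ∈ PP d H τ, (f G - f (symmDiff G H)) ^ 2 =
        ∑ G ∈ Om d, (if symmDiff G H ∈ Om d ∧ IsTrans H (col G) τ then
          (f G - f (symmDiff G H)) ^ 2 else 0) := by
      intro τ
      unfold PP
      rw [sum_filter]
    rw [sum_congr rfl (fun τ _ => a1 τ), sum_comm, mul_sum]
    apply sum_congr rfl
    intro A hA
    by_cases hAH : symmDiff A H ∈ Om d
    · simp only [hAH, if_true, true_and]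
      rw [← sum_filter, sum_const, nsmul_eq_mul]
      congr 2
      have : (univ.filter (fun τ : V → V → V => IsTrans H (col A) τ)) = TT H (col A) := by
        ext τ
        rw [mem_TT]
        simp
      rw [this, card_trans_eq H (col A) (balanced hA hAH)]
    · simp [hAH]
  have h2 : ∑ τ : V → V → V, ∑ G ∈ PP d H τ, (f G - f (symmDiff G H)) ^ 2 ≤
      ∑ τ : V → V → V, (ND V : ℝ) ^ 5 * ((ND V : ℝ) * ND V + 1) ^ 2 *
        ∑ Z : Finset (Sym2 V), term d f H τ Z :=
    sum_le_sum fun τ _ => pair_bound f H τ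
  rw [← mul_sum, sum_comm] at h2
  have h3 : ∑ Z : Finset (Sym2 V), ∑ τ : V → V → V, term d f H τ Z ≤
      ∑ Z : Finset (Sym2 V), (WW H : ℝ) * ((ND V : ℝ) ^ 2 * (both d H Z * Lam d f Z)) :=
    sum_le_sum fun Z _ => sum_term_le d f H Z
  rw [← mul_sum, ← mul_sum] at h3
  set K : ℝ := (ND V : ℝ) ^ 5 * ((ND V : ℝ) * ND V + 1) ^ 2 with hK
  have hK0 : 0 ≤ K := by positivity
  set T := ∑ Z : Finset (Sym2 V), both d H Z * Lam d f Z with hT
  have h4 : (WW H : ℝ) * ∑ A ∈ Om d,
      (if symmDiff A H ∈ Om d then (f A - f (symmDiff A H)) ^ 2 else 0) ≤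
      (WW H : ℝ) * ((ND V : ℝ) ^ 7 * ((ND V : ℝ) * ND V + 1) ^ 2 * T) := by
    rw [h1]
    refine h2.trans ?_
    refine (mul_le_mul_of_nonneg_left h3 hK0).trans ?_
    apply le_of_eq
    rw [hK]
    ring
  exact le_of_mul_le_mul_left h4 hW

theorem near_card (d : V → ℕ) (r : ℕ) [DecidablePred (Near d r)] :
    (univ.filter (fun L : Finset (Sym2 V) => Near d r L)).card ≤
      (Om d).card * (ND V + 1) ^ r := by
  have hsub : univ.filter (fun L : Finset (Sym2 V) => Near d r L) ⊆
      (Om d).biUnion (fun Z' => univ.filter (fun X : Finset (Sym2 V) =>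
        (symmDiff X Z').card ≤ r)) := by
    intro L hL
    obtain ⟨Z', hZ', h⟩ := (mem_filter.1 hL).2
    rw [mem_biUnion]
    exact ⟨Z', hZ', mem_filter.2 ⟨mem_univ _, h⟩⟩
  refine (card_le_card hsub).trans ?_
  exact card_biUnion_le_card_mul _ _ _ (fun Z' _ => ball_card r Z')

theorem sum_both_le (d : V → ℕ) (Z : Finset (Sym2 V)) :
    ∑ H : Finset (Sym2 V), both d H Z ≤ ((Om d).card : ℝ) * ((ND V : ℝ) + 1) ^ 5 := by
  classical
  have h1 : ∀ H : Finset (Sym2 V), both d H Z ≤
      (if Near d 5 (symmDiff Z H) then (1 : ℝ) else 0) := by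
    intro H
    unfold both
    split_ifs with c1 c2 c2
    · exact le_rfl
    · exact absurd c1.2 c2
    · norm_num
    · exact le_rfl
  have h2 : ∑ H : Finset (Sym2 V), (if Near d 5 (symmDiff Z H) then (1 : ℝ) else 0) =
      ∑ L : Finset (Sym2 V), (if Near d 5 L then (1 : ℝ) else 0) := by
    apply sum_nbij' (fun H => symmDiff Z H) (fun H => symmDiff Z H)
    · intro G _; exact mem_univ _
    · intro G _; exact mem_univ _
    · intro G _
      rw [← symmDiff_assoc, symmDiff_self, bot_symmDiff]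
    · intro G _
      rw [← symmDiff_assoc, symmDiff_self, bot_symmDiff]
    · intro G _
      rfl
  refine (sum_le_sum fun H _ => h1 H).trans ?_
  rw [h2, sum_boole]
  have := near_card d 5
  exact_mod_cast this

theorem sum_Lam_le (d : V → ℕ) (f : Finset (Sym2 V) → ℝ) :
    ∑ Z : Finset (Sym2 V), Lam d f Z ≤ ((ND V : ℝ) + 1) ^ 6 * NearEnergy d 12 f := by
  have h1 : ∀ Z : Finset (Sym2 V), Lam d f Z = ∑ A ∈ Om d, ∑ B ∈ Om d,
      (if (symmDiff Z A).card ≤ 6 ∧ (symmDiff Z B).card ≤ 6 then (f A - f B) ^ 2 else 0) := by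
    intro Z
    unfold Lam
    rw [sum_filter]
    apply sum_congr rfl
    intro A _
    by_cases hA : (symmDiff Z A).card ≤ 6
    · simp only [hA, if_true, true_and]
      rw [sum_filter]
    · simp [hA]
  rw [sum_congr rfl (fun Z _ => h1 Z), sum_comm]
  unfold NearEnergy
  rw [mul_sum]
  apply sum_le_sum
  intro A _
  rw [sum_comm, sum_filter, mul_sum]
  apply sum_le_sum
  intro B _
  by_cases hAB : (symmDiff A B).card ≤ 12
  · simp only [hAB, if_true]
    rw [← sum_filter, sum_const, nsmul_eq_mul]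
    apply mul_le_mul_of_nonneg_right _ (sq_nonneg _)
    have hsub : univ.filter (fun Z : Finset (Sym2 V) =>
        (symmDiff Z A).card ≤ 6 ∧ (symmDiff Z B).card ≤ 6) ⊆
        univ.filter (fun Z : Finset (Sym2 V) => (symmDiff Z A).card ≤ 6) := by
      intro Z hZ
      rw [mem_filter] at hZ ⊢
      exact ⟨hZ.1, hZ.2.1⟩
    have := (card_le_card hsub).trans (ball_card 6 A)
    exact_mod_cast this
  · simp only [hAB, if_false, mul_zero]
    apply le_of_eq
    apply sum_eq_zero
    intro Z _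
    rw [if_neg]
    rintro ⟨c1, c2⟩
    apply hAB
    have := card_symmDiff_triangle A Z B
    rw [card_symmDiff_comm A Z] at this
    omega

theorem energy_bound (d : V → ℕ) (f : Finset (Sym2 V) → ℝ) :
    ∑ A ∈ Om d, ∑ B ∈ Om d, (f A - f B) ^ 2 ≤
      (ND V : ℝ) ^ 7 * ((ND V : ℝ) * ND V + 1) ^ 2 * ((ND V : ℝ) + 1) ^ 11 *
        ((Om d).card : ℝ) * NearEnergy d 12 f := by
  classical
  have h1 : ∑ A ∈ Om d, ∑ B ∈ Om d, (f A - f B) ^ 2 =
      ∑ H : Finset (Sym2 V), ∑ A ∈ Om d,
        (if symmDiff A H ∈ Om d then (f A - f (symmDiff A H)) ^ 2 else 0) := by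
    rw [sum_comm]
    rw [sum_comm]
    conv_rhs => rw [sum_comm]
    apply sum_congr rfl
    intro A _
    rw [← sum_filter]
    apply sum_nbij' (fun B => symmDiff A B) (fun B => symmDiff A B)
    · intro B hB
      rw [mem_filter]
      refine ⟨mem_univ _, ?_⟩
      rw [← symmDiff_assoc, symmDiff_self, bot_symmDiff]
      exact hB
    · intro B hB
      exact (mem_filter.1 hB).2
    · intro B _
      rw [← symmDiff_assoc, symmDiff_self, bot_symmDiff]
    · intro B _
      rw [← symmDiff_assoc, symmDiff_self, bot_symmDiff]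
    · intro B _
      rw [← symmDiff_assoc, symmDiff_self, bot_symmDiff]
  rw [h1]
  have h2 := sum_le_sum (fun H (_ : H ∈ (univ : Finset (Finset (Sym2 V)))) => fixed_H d f H)
  refine h2.trans ?_
  rw [← mul_sum, sum_comm]
  have h3 : ∑ Z : Finset (Sym2 V), ∑ H : Finset (Sym2 V), both d H Z * Lam d f Z ≤
      ((Om d).card : ℝ) * ((ND V : ℝ) + 1) ^ 5 *
        (((ND V : ℝ) + 1) ^ 6 * NearEnergy d 12 f) := by
    have : ∀ Z ∈ (univ : Finset (Finset (Sym2 V))),
        ∑ H : Finset (Sym2 V), both d H Z * Lam d f Z ≤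
        ((Om d).card : ℝ) * ((ND V : ℝ) + 1) ^ 5 * Lam d f Z := by
      intro Z _
      rw [← sum_mul]
      exact mul_le_mul_of_nonneg_right (sum_both_le d Z) (Lam_nonneg d f Z)
    refine (sum_le_sum this).trans ?_
    rw [← mul_sum]
    exact mul_le_mul_of_nonneg_left (sum_Lam_le d f) (by positivity)
  refine (mul_le_mul_of_nonneg_left h3 (by positivity)).trans ?_
  apply le_of_eq
  ring

end

theorem SwitchEnergy_nonneg {V : Type} [Fintype V] [DecidableEq V] (d : V → ℕ)
    (f : Finset (Sym2 V) → ℝ) : 0 ≤ SwitchEnergy d f :=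
  sum_nonneg fun _ _ => sum_nonneg fun _ _ => sq_nonneg _

theorem poincare : ∃ C k : ℕ, ∀ (V : Type) [Fintype V] [DecidableEq V] (d : V → ℕ)
    (f : Finset (Sym2 V) → ℝ), ∑ A ∈ Om d, ∑ B ∈ Om d, (f A - f B) ^ 2 ≤
      (C : ℝ) * (Fintype.card V : ℝ) ^ k * ((Om d).card : ℝ) * SwitchEnergy d f := by
  obtain ⟨C0, k0, h0⟩ := local_energy 12
  refine ⟨2 ^ 13 * C0, 44 + k0, ?_⟩
  intro V _ _ d f
  have h1 := energy_bound d f
  have h2 := h0 V d f
  have hS := SwitchEnergy_nonneg d f
  have hND : (ND V : ℝ) = (Fintype.card V : ℝ) ^ 2 := by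
    unfold ND
    rw [Fintype.card_prod]
    push_cast
    ring
  rcases Nat.eq_zero_or_pos (Fintype.card V) with hV | hV
  · -- empty vertex set
    have hz : (ND V : ℝ) = 0 := by rw [hND, hV]; norm_num
    refine h1.trans ?_
    rw [hz]
    have : (0 : ℝ) ≤ ((2 ^ 13 * C0 : ℕ) : ℝ) * (Fintype.card V : ℝ) ^ (44 + k0) *
        ((Om d).card : ℝ) * SwitchEnergy d f := by positivity
    simpa using this
  · set n : ℝ := (Fintype.card V : ℝ) with hn
    have hn1 : 1 ≤ n := by rw [hn]; exact_mod_cast hV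
    rw [hND] at h1
    have e1 : n ^ 2 + 1 ≤ 2 * n ^ 2 := by nlinarith
    have e2 : n ^ 2 * n ^ 2 + 1 ≤ 2 * n ^ 4 := by
      have : (1 : ℝ) ≤ n ^ 4 := one_le_pow₀ hn1
      nlinarith
    have e3 : (n ^ 2) ^ 7 * (n ^ 2 * n ^ 2 + 1) ^ 2 * (n ^ 2 + 1) ^ 11 ≤
        (n ^ 2) ^ 7 * (2 * n ^ 4) ^ 2 * (2 * n ^ 2) ^ 11 := by
      gcongr
    have e4 : (n ^ 2) ^ 7 * (2 * n ^ 4) ^ 2 * (2 * n ^ 2) ^ 11 = 2 ^ 13 * n ^ 44 := by ring
    have hNE : NearEnergy d 12 f ≤ (C0 : ℝ) * n ^ k0 * SwitchEnergy d f := h2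
    have hNE0 : 0 ≤ NearEnergy d 12 f :=
      sum_nonneg fun _ _ => sum_nonneg fun _ _ => sq_nonneg _
    calc _ ≤ (n ^ 2) ^ 7 * (n ^ 2 * n ^ 2 + 1) ^ 2 * (n ^ 2 + 1) ^ 11 *
            ((Om d).card : ℝ) * NearEnergy d 12 f := h1
      _ ≤ (2 ^ 13 * n ^ 44) * ((Om d).card : ℝ) * ((C0 : ℝ) * n ^ k0 * SwitchEnergy d f) := by
          rw [← e4]
          gcongr
      _ = _ := by
          push_cast
          ring

end Vale.Agent.P335
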