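import Mathlib

/-!
Basic combinatorial definitions for P335 (switch chain on simple graphs with given degrees).
Graphs on `V` are represented by their edge sets `E : Finset (Sym2 V)`.
-/

namespace Vale.Agent.P335

open Finset

section
variable {V : Type} [Fintype V] [DecidableEq V]

/-- neighbours of `v` in the edge set `E` -/
def nbr (E : Finset (Sym2 V)) (v : V) : Finset V := univ.filter (fun u => s(v, u) ∈ E)

/-- degree of `v` in the edge set `E` -/
def deg (E : Finset (Sym2 V)) (v : V) : ℕ := (nbr E v).card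

/-- no loops -/
def Loopless (E : Finset (Sym2 V)) : Prop := ∀ v, s(v, v) ∉ E

open Classical in
/-- the set of realizations of the degree vector `d` -/
noncomputable def Om (d : V → ℕ) : Finset (Finset (Sym2 V)) :=
  univ.filter (fun E => Loopless E ∧ ∀ v, deg E v = d v)

theorem mem_Om {d : V → ℕ} {E : Finset (Sym2 V)} :
    E ∈ Om d ↔ Loopless E ∧ ∀ v, deg E v = d v := by
  simp [Om]

/-- number of vertices of larger degree -/
def cc (d : V → ℕ) (y : V) : ℕ := (univ.filter (fun z => d y < d z)).card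

/-- height of a signed vertex (`true` = plus, `false` = minus) -/
def ht (d : V → ℕ) (x : V) (s : Bool) : ℕ := if s then d x else cc d x

/-- sign -/
def sg (s : Bool) : ℤ := if s then 1 else -1

/-- a switch from `Z` to `Z'` -/
def SwitchAdj (Z Z' : Finset (Sym2 V)) : Prop :=
  ∃ a b c e : V, a ≠ b ∧ a ≠ c ∧ a ≠ e ∧ b ≠ c ∧ b ≠ e ∧ c ≠ e ∧
    s(a, b) ∈ Z ∧ s(c, e) ∈ Z ∧ s(a, c) ∉ Z ∧ s(b, e) ∉ Z ∧
    Z' = (Z \ {s(a, b), s(c, e)}) ∪ {s(a, c), s(b, e)}

open Classical in
/-- sum of squared differences over all switch pairs -/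
noncomputable def SwitchEnergy (d : V → ℕ) (f : Finset (Sym2 V) → ℝ) : ℝ :=
  ∑ Z ∈ Om d, ∑ Z' ∈ (Om d).filter (fun Z' => SwitchAdj Z Z'), (f Z - f Z') ^ 2

/-- sum of squared differences over all pairs at distance at most `K` -/
noncomputable def NearEnergy (d : V → ℕ) (K : ℕ) (f : Finset (Sym2 V) → ℝ) : ℝ :=
  ∑ Z ∈ Om d, ∑ Z' ∈ (Om d).filter (fun Z' => (symmDiff Z Z').card ≤ K), (f Z - f Z') ^ 2

/-- `x` lies strictly between `a` and `b` -/
def Btw (a b x : ℕ) : Prop := (a < x ∧ x < b) ∨ (b < x ∧ x < a)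

/-- `τ` is a transition system on the edge set `H` compatible with the half-edge colouring `φ`:
at every vertex `v` it pairs up the neighbours of `v` so that paired half-edges have different
colours. -/
def IsTrans (H : Finset (Sym2 V)) (φ : V → V → Bool) (τ : V → V → V) : Prop :=
  ∀ v u, τ v (τ v u) = u ∧ (s(v, u) ∉ H → τ v u = u) ∧
    (s(v, u) ∈ H → τ v u ≠ u ∧ φ v (τ v u) ≠ φ v u)

open Classical in
/-- the finite set of compatible transition systems -/
noncomputable def TT (H : Finset (Sym2 V)) (φ : V → V → Bool) : Finset (V → V → V) :=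
  univ.filter (fun τ => IsTrans H φ τ)

theorem mem_TT {H : Finset (Sym2 V)} {φ : V → V → Bool} {τ : V → V → V} :
    τ ∈ TT H φ ↔ IsTrans H φ τ := by
  simp [TT]

/-- weight -/
def WW (H : Finset (Sym2 V)) : ℕ := ∏ v, (deg H v / 2).factorial

end

end Vale.Agent.P335
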