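import Vale.Agent.Lib.P335.Defs

/-!
The switch chain is a lazy symmetric stochastic matrix.
-/

namespace Vale.Agent.P335

open Finset

open Classical in
theorem mem_perfectMatchings_iff {n : ℕ} {S : Finset (Fin n)} {F : Finset (Sym2 (Fin n))} :
    F ∈ perfectMatchings S ↔ (∀ e ∈ F, ¬ e.IsDiag ∧ ∀ v ∈ e, v ∈ S) ∧
      ∀ v ∈ S, ∃! e : Sym2 (Fin n), e ∈ F ∧ v ∈ e := by
  unfold perfectMatchings
  rw [mem_filter]
  exact and_iff_right (mem_univ _)

theorem switchStep_of {n : ℕ} {G : SimpleGraph (Fin n)} {F F' : Finset (Sym2 (Fin n))}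
    (h : (∀ e ∈ F, e ∈ G.edgeSet) ∧ (∀ e ∈ F', e ∉ G.edgeSet)) :
    switchStep G F F' = SimpleGraph.fromEdgeSet
      ((G.edgeSet \ (F : Set (Sym2 (Fin n)))) ∪ (F' : Set (Sym2 (Fin n)))) := by
  unfold switchStep
  rw [if_pos h]

theorem switchStep_of_not {n : ℕ} {G : SimpleGraph (Fin n)} {F F' : Finset (Sym2 (Fin n))}
    (h : ¬ ((∀ e ∈ F, e ∈ G.edgeSet) ∧ (∀ e ∈ F', e ∉ G.edgeSet))) :
    switchStep G F F' = G := by
  unfold switchStep
  rw [if_neg h]

/-- the edges after a switch. -/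
theorem mem_edgeSet_switchStep {n : ℕ} {S : Finset (Fin n)} {G : SimpleGraph (Fin n)}
    {F F' : Finset (Sym2 (Fin n))} (hF' : F' ∈ perfectMatchings S)
    (h : (∀ e ∈ F, e ∈ G.edgeSet) ∧ (∀ e ∈ F', e ∉ G.edgeSet)) (e : Sym2 (Fin n)) :
    e ∈ (switchStep G F F').edgeSet ↔ (e ∈ G.edgeSet ∧ e ∉ F) ∨ e ∈ F' := by
  rw [switchStep_of h, SimpleGraph.edgeSet_fromEdgeSet]
  have h1 := (mem_perfectMatchings_iff.1 hF').1
  constructor
  · rintro ⟨h2 | h2, _⟩
    · exact Or.inl h2
    · exact Or.inr h2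
  · rintro (h2 | h2)
    · exact ⟨Or.inl h2, G.not_isDiag_of_mem_edgeSet h2.1⟩
    · exact ⟨Or.inr h2, (h1 e h2).1⟩

theorem switchStep_symm {n : ℕ} {S : Finset (Fin n)} {G G' : SimpleGraph (Fin n)}
    {F F' : Finset (Sym2 (Fin n))} (hF : F ∈ perfectMatchings S) (hF' : F' ∈ perfectMatchings S)
    (hne : G ≠ G') (h : switchStep G F F' = G') : switchStep G' F' F = G := by
  by_cases hc : (∀ e ∈ F, e ∈ G.edgeSet) ∧ (∀ e ∈ F', e ∉ G.edgeSet)
  · have h1 := mem_edgeSet_switchStep hF' hc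
    rw [h] at h1
    have hc' : (∀ e ∈ F', e ∈ G'.edgeSet) ∧ (∀ e ∈ F, e ∉ G'.edgeSet) := by
      refine ⟨fun e he => (h1 e).2 (Or.inr he), fun e he he' => ?_⟩
      rcases (h1 e).1 he' with h2 | h2
      · exact h2.2 he
      · exact hc.2 e h2 (hc.1 e he)
    rw [← SimpleGraph.edgeSet_inj]
    ext e
    rw [mem_edgeSet_switchStep hF hc', h1 e]
    constructor
    · rintro (⟨h2 | h2, h3⟩ | h2)
      · exact h2.1
      · exact absurd h2 h3
      · exact hc.1 e h2
    · intro h2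
      by_cases h3 : e ∈ F
      · exact Or.inr h3
      · exact Or.inl ⟨Or.inl ⟨h2, h3⟩, fun h4 => hc.2 e h4 h2⟩
  · rw [switchStep_of_not hc] at h
    exact absurd h hne

open Classical in
theorem degree_eq_card {n : ℕ} (G : SimpleGraph (Fin n)) (v : Fin n) :
    G.degree v = (univ.filter (fun e : Sym2 (Fin n) => e ∈ G.edgeSet ∧ v ∈ e)).card := by
  rw [← SimpleGraph.card_incidenceFinset_eq_degree]
  congr 1
  ext e
  rw [SimpleGraph.mem_incidenceFinset, mem_filter]
  simp [SimpleGraph.incidenceSet]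

open Classical in
theorem degree_switchStep {n : ℕ} {S : Finset (Fin n)} (G : SimpleGraph (Fin n))
    {F F' : Finset (Sym2 (Fin n))} (hF : F ∈ perfectMatchings S) (hF' : F' ∈ perfectMatchings S)
    (v : Fin n) : (switchStep G F F').degree v = G.degree v := by
  by_cases hc : (∀ e ∈ F, e ∈ G.edgeSet) ∧ (∀ e ∈ F', e ∉ G.edgeSet)
  swap
  · rw [switchStep_of_not hc]
  have h1 := mem_edgeSet_switchStep hF' hc
  rw [degree_eq_card, degree_eq_card]
  by_cases hv : v ∈ S
  · obtain ⟨f, ⟨hf, hvf⟩, huf⟩ := (mem_perfectMatchings_iff.1 hF).2 v hv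
    obtain ⟨f', ⟨hf', hvf'⟩, huf'⟩ := (mem_perfectMatchings_iff.1 hF').2 v hv
    have h2 : (univ.filter (fun e : Sym2 (Fin n) => e ∈ (switchStep G F F').edgeSet ∧ v ∈ e))
        = insert f' ((univ.filter (fun e : Sym2 (Fin n) => e ∈ G.edgeSet ∧ v ∈ e)).erase f) := by
      ext e
      rw [mem_filter, mem_insert, mem_erase, mem_filter, h1 e]
      constructor
      · rintro ⟨_, h3 | h3, h4⟩
        · refine Or.inr ⟨?_, mem_univ _, h3.1, h4⟩
          rintro rfl
          exact h3.2 hf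
        · exact Or.inl (huf' e ⟨h3, h4⟩)
      · rintro (rfl | ⟨h3, _, h4, h5⟩)
        · exact ⟨mem_univ _, Or.inr hf', hvf'⟩
        · exact ⟨mem_univ _, Or.inl ⟨h4, fun h6 => h3 (huf e ⟨h6, h5⟩)⟩, h5⟩
    rw [h2, card_insert_of_notMem, card_erase_add_one]
    · exact mem_filter.2 ⟨mem_univ _, hc.1 f hf, hvf⟩
    · intro h3
      have := (mem_filter.1 (mem_erase.1 h3).2).2.1
      exact hc.2 f' hf' this
  · congr 1
    ext e
    rw [mem_filter, mem_filter, h1 e]
    have h2 : v ∈ e → e ∉ F := fun h3 h4 => hv (((mem_perfectMatchings_iff.1 hF).1 e h4).2 v h3)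
    have h3 : v ∈ e → e ∉ F' := fun h3 h4 => hv (((mem_perfectMatchings_iff.1 hF').1 e h4).2 v h3)
    tauto

theorem pair_mem_perfectMatchings {n : ℕ} {a b c e : Fin n} (hab : a ≠ b) (hac : a ≠ c)
    (hae : a ≠ e) (hbc : b ≠ c) (hbe : b ≠ e) (hce : c ≠ e) :
    ({s(a, b), s(c, e)} : Finset (Sym2 (Fin n))) ∈ perfectMatchings {a, b, c, e} := by
  rw [mem_perfectMatchings_iff]
  constructor
  · intro f hf
    rw [mem_insert, mem_singleton] at hf
    rcases hf with rfl | rfl
    · refine ⟨by simpa using hab, fun v hv => ?_⟩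
      rcases Sym2.mem_iff.1 hv with rfl | rfl <;> simp
    · refine ⟨by simpa using hce, fun v hv => ?_⟩
      rcases Sym2.mem_iff.1 hv with rfl | rfl <;> simp
  · intro v hv
    simp only [mem_insert, mem_singleton] at hv
    rcases hv with rfl | rfl | rfl | rfl
    · refine ⟨s(v, b), ⟨by simp, by simp⟩, ?_⟩
      rintro f ⟨hf, hvf⟩
      rw [mem_insert, mem_singleton] at hf
      rcases hf with rfl | rfl
      · rfl
      · rcases Sym2.mem_iff.1 hvf with h | h
        · exact absurd h hac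
        · exact absurd h hae
    · refine ⟨s(a, v), ⟨by simp, by simp⟩, ?_⟩
      rintro f ⟨hf, hvf⟩
      rw [mem_insert, mem_singleton] at hf
      rcases hf with rfl | rfl
      · rfl
      · rcases Sym2.mem_iff.1 hvf with h | h
        · exact absurd h hbc
        · exact absurd h hbe
    · refine ⟨s(v, e), ⟨by simp, by simp⟩, ?_⟩
      rintro f ⟨hf, hvf⟩
      rw [mem_insert, mem_singleton] at hf
      rcases hf with rfl | rfl
      · rcases Sym2.mem_iff.1 hvf with h | h
        · exact absurd h.symm hac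
        · exact absurd h.symm hbc
      · rfl
    · refine ⟨s(c, v), ⟨by simp, by simp⟩, ?_⟩
      rintro f ⟨hf, hvf⟩
      rw [mem_insert, mem_singleton] at hf
      rcases hf with rfl | rfl
      · rcases Sym2.mem_iff.1 hvf with h | h
        · exact absurd h.symm hae
        · exact absurd h.symm hbe
      · rfl

theorem eq_pair_of_mem {n : ℕ} {a b c e : Fin n} (hab : a ≠ b) (hac : a ≠ c)
    (hae : a ≠ e) (hbc : b ≠ c) (hbe : b ≠ e) (hce : c ≠ e) {F : Finset (Sym2 (Fin n))}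
    (hF : F ∈ perfectMatchings {a, b, c, e}) (h : s(a, b) ∈ F) : F = {s(a, b), s(c, e)} := by
  obtain ⟨h1, h2⟩ := mem_perfectMatchings_iff.1 hF
  obtain ⟨fa, ⟨hfa, hafa⟩, hua⟩ := h2 a (by simp)
  obtain ⟨fb, ⟨hfb, hbfb⟩, hub⟩ := h2 b (by simp)
  obtain ⟨fc, ⟨hfc, hcfc⟩, huc⟩ := h2 c (by simp)
  obtain ⟨fe, ⟨hfe, hefe⟩, hue⟩ := h2 e (by simp)
  have e1 : s(a, b) = fa := hua _ ⟨h, by simp⟩
  have e2 : s(a, b) = fb := hub _ ⟨h, by simp⟩
  -- the edge at c
  have hcE : s(c, e) = fc := by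
    obtain ⟨y, rfl⟩ := Sym2.mem_iff_exists.1 hcfc
    have hy := (h1 _ hfc).2 y (by simp)
    have hd := (h1 _ hfc).1
    rw [Sym2.mk_isDiag_iff] at hd
    simp only [mem_insert, mem_singleton] at hy
    rcases hy with rfl | rfl | rfl | rfl
    · have h3 := hua _ ⟨hfc, by simp⟩
      rw [← e1, Sym2.eq_iff] at h3
      rcases h3 with h3 | h3
      · exact absurd h3.1.symm hac
      · exact absurd h3.1.symm hbc
    · have h3 := hub _ ⟨hfc, by simp⟩
      rw [← e2, Sym2.eq_iff] at h3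
      rcases h3 with h3 | h3
      · exact absurd h3.1.symm hac
      · exact absurd h3.1.symm hbc
    · exact absurd rfl hd
    · rfl
  have hcF : s(c, e) ∈ F := hcE ▸ hfc
  have e4 : s(c, e) = fe := hue _ ⟨hcF, by simp⟩
  ext f
  rw [mem_insert, mem_singleton]
  constructor
  · intro hf
    obtain ⟨v, hv⟩ : ∃ v, v ∈ f := by
      induction f using Sym2.ind with
      | _ x y => exact ⟨x, by simp⟩
    have hvS := (h1 f hf).2 v hv
    simp only [mem_insert, mem_singleton] at hvS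
    rcases hvS with rfl | rfl | rfl | rfl
    · exact Or.inl ((hua f ⟨hf, hv⟩).trans e1.symm)
    · exact Or.inl ((hub f ⟨hf, hv⟩).trans e2.symm)
    · exact Or.inr ((huc f ⟨hf, hv⟩).trans hcE.symm)
    · exact Or.inr ((hue f ⟨hf, hv⟩).trans e4.symm)
  · rintro (rfl | rfl)
    · exact h
    · exact hcF

/-- the three perfect matchings of a `4`-element set. -/
theorem perfectMatchings_four {n : ℕ} {a b c e : Fin n} (hab : a ≠ b) (hac : a ≠ c)
    (hae : a ≠ e) (hbc : b ≠ c) (hbe : b ≠ e) (hce : c ≠ e) :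
    perfectMatchings {a, b, c, e}
      = {{s(a, b), s(c, e)}, {s(a, c), s(b, e)}, {s(a, e), s(b, c)}} := by
  have hS1 : ({a, b, c, e} : Finset (Fin n)) = {a, c, b, e} := by
    ext x; simp only [mem_insert, mem_singleton]; tauto
  have hS2 : ({a, b, c, e} : Finset (Fin n)) = {a, e, b, c} := by
    ext x; simp only [mem_insert, mem_singleton]; tauto
  ext F
  rw [mem_insert, mem_insert, mem_singleton]
  constructor
  · intro hF
    obtain ⟨h1, h2⟩ := mem_perfectMatchings_iff.1 hF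
    obtain ⟨fa, ⟨hfa, hafa⟩, _⟩ := h2 a (by simp)
    obtain ⟨y, rfl⟩ := Sym2.mem_iff_exists.1 hafa
    have hy := (h1 _ hfa).2 y (by simp)
    have hd := (h1 _ hfa).1
    rw [Sym2.mk_isDiag_iff] at hd
    simp only [mem_insert, mem_singleton] at hy
    rcases hy with rfl | rfl | rfl | rfl
    · exact absurd rfl hd
    · exact Or.inl (eq_pair_of_mem hab hac hae hbc hbe hce hF hfa)
    · rw [hS1] at hF
      exact Or.inr (Or.inl (eq_pair_of_mem hac hab hae hbc.symm hce hbe hF hfa))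
    · rw [hS2] at hF
      exact Or.inr (Or.inr (eq_pair_of_mem hae hab hac hbe.symm hce.symm hbc hF hfa))
  · rintro (rfl | rfl | rfl)
    · exact pair_mem_perfectMatchings hab hac hae hbc hbe hce
    · rw [hS1]
      exact pair_mem_perfectMatchings hac hab hae hbc.symm hce hbe
    · rw [hS2]
      exact pair_mem_perfectMatchings hae hab hac hbe.symm hce.symm hbc

theorem card_perfectMatchings {n : ℕ} {S : Finset (Fin n)} (hS : S.card = 4) :
    (perfectMatchings S).card = 3 := by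
  obtain ⟨a, b, c, e, hab, hac, hae, hbc, hbe, hce, rfl⟩ := Finset.card_eq_four.1 hS
  rw [perfectMatchings_four hab hac hae hbc hbe hce]
  have h1 : ({s(a, b), s(c, e)} : Finset (Sym2 (Fin n))) ≠ {s(a, c), s(b, e)} := by
    intro h
    have h2 : s(a, b) ∈ ({s(a, c), s(b, e)} : Finset (Sym2 (Fin n))) := h ▸ by simp
    rw [mem_insert, mem_singleton, Sym2.eq_iff, Sym2.eq_iff] at h2
    tauto
  have h2 : ({s(a, b), s(c, e)} : Finset (Sym2 (Fin n))) ≠ {s(a, e), s(b, c)} := by
    intro h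
    have h2 : s(a, b) ∈ ({s(a, e), s(b, c)} : Finset (Sym2 (Fin n))) := h ▸ by simp
    rw [mem_insert, mem_singleton, Sym2.eq_iff, Sym2.eq_iff] at h2
    tauto
  have h3 : ({s(a, c), s(b, e)} : Finset (Sym2 (Fin n))) ≠ {s(a, e), s(b, c)} := by
    intro h
    have h2 : s(a, c) ∈ ({s(a, e), s(b, c)} : Finset (Sym2 (Fin n))) := h ▸ by simp
    rw [mem_insert, mem_singleton, Sym2.eq_iff, Sym2.eq_iff] at h2
    tauto
  rw [card_eq_three]
  exact ⟨_, _, _, h1, h2, h3, rfl⟩

theorem card_offDiag_perfectMatchings {n : ℕ} {S : Finset (Fin n)} (hS : S.card = 4) :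
    (perfectMatchings S).offDiag.card = 6 := by
  rw [offDiag_card, card_perfectMatchings hS]

/-- J-A -/
theorem chain_symm (n : ℕ) (d : Fin n → ℕ) (G G' : Realization n d) :
    switchChain n d G G' = switchChain n d G' G := by
  classical
  unfold switchChain
  by_cases hG : G = G'
  · rw [hG]
  have hG' : G' ≠ G := fun h => hG h.symm
  have hne : G.1 ≠ G'.1 := fun h => hG (Subtype.ext h)
  rw [if_neg hG, if_neg hG']
  congr 2
  refine sum_congr rfl fun S _ => ?_
  congr 1
  refine sum_bij (fun F _ => F.swap) ?_ ?_ ?_ ?_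
  · intro F hF
    rw [mem_offDiag] at hF ⊢
    exact ⟨hF.2.1, hF.1, hF.2.2.symm⟩
  · intro F _ F' _ h
    exact Prod.swap_injective h
  · intro F hF
    rw [mem_offDiag] at hF
    exact ⟨F.swap, mem_offDiag.2 ⟨hF.2.1, hF.1, hF.2.2.symm⟩, Prod.swap_swap F⟩
  · intro F hF
    rw [mem_offDiag] at hF
    have h1 : switchStep G.1 F.1 F.2 = G'.1 ↔ switchStep G'.1 F.swap.1 F.swap.2 = G.1 :=
      ⟨fun h => switchStep_symm hF.1 hF.2.1 hne h,
        fun h => switchStep_symm hF.2.1 hF.1 hne.symm h⟩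
    by_cases h : switchStep G.1 F.1 F.2 = G'.1
    · rw [if_pos h, if_pos (h1.1 h)]
    · rw [if_neg h, if_neg (fun h' => h (h1.2 h'))]

theorem chain_nonneg (n : ℕ) (d : Fin n → ℕ) (G G' : Realization n d) :
    0 ≤ switchChain n d G G' := by
  unfold switchChain
  refine add_nonneg (by split_ifs <;> norm_num) (mul_nonneg (by norm_num) ?_)
  refine sum_nonneg fun S _ => mul_nonneg (by positivity) (sum_nonneg fun F _ => ?_)
  split_ifs <;> norm_num

theorem chain_lazy (n : ℕ) (d : Fin n → ℕ) (G : Realization n d) :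
    1 / 2 ≤ switchChain n d G G := by
  unfold switchChain
  rw [if_pos rfl, mul_one]
  refine le_add_of_nonneg_right (mul_nonneg (by norm_num) ?_)
  refine sum_nonneg fun S _ => mul_nonneg (by positivity) (sum_nonneg fun F _ => ?_)
  split_ifs <;> norm_num

theorem chain_row (n : ℕ) (hn : 4 ≤ n) (d : Fin n → ℕ) (G : Realization n d) :
    ∑ G', switchChain n d G G' = 1 := by
  classical
  unfold switchChain
  rw [sum_add_distrib, ← mul_sum, ← mul_sum, sum_ite_eq, if_pos (mem_univ _), sum_comm]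
  have h1 : ∀ S ∈ powersetCard 4 (univ : Finset (Fin n)),
      ∑ G' : Realization n d, (1 / (n.choose 4 : ℝ)) *
        ∑ F ∈ (perfectMatchings S).offDiag, (1 / 6) *
          (if switchStep G.1 F.1 F.2 = G'.1 then (1 : ℝ) else 0) = 1 / (n.choose 4 : ℝ) := by
    intro S hS
    have hS4 : S.card = 4 := (mem_powersetCard.1 hS).2
    rw [← mul_sum, sum_comm]
    have h2 : ∀ F ∈ (perfectMatchings S).offDiag, ∑ G' : Realization n d, (1 / 6 : ℝ) *
        (if switchStep G.1 F.1 F.2 = G'.1 then (1 : ℝ) else 0) = 1 / 6 := by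
      intro F hF
      rw [mem_offDiag] at hF
      set H : Realization n d := ⟨switchStep G.1 F.1 F.2, fun v => by
        rw [← G.2 v]
        exact degree_switchStep G.1 hF.1 hF.2.1 v⟩ with hH
      rw [← mul_sum]
      have h3 : ∀ G' : Realization n d, (if switchStep G.1 F.1 F.2 = G'.1 then (1 : ℝ) else 0)
          = if H = G' then 1 else 0 := by
        intro G'
        refine if_congr ?_ rfl rfl
        exact ⟨fun h => Subtype.ext h, fun h => congrArg Subtype.val h⟩
      rw [sum_congr rfl fun G' _ => h3 G', sum_ite_eq, if_pos (mem_univ _), mul_one]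
    rw [sum_congr rfl h2, sum_const, card_offDiag_perfectMatchings hS4]
    norm_num
  rw [sum_congr rfl h1, sum_const, card_powersetCard, card_univ, Fintype.card_fin, nsmul_eq_mul]
  have h4 : (0 : ℝ) < (n.choose 4 : ℝ) := by exact_mod_cast Nat.choose_pos hn
  field_simp
  norm_num

end Vale.Agent.P335
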