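import Vale.Agent.Lib.P335.Climb

/-!
The inequality for one circuit.
-/

namespace Vale.Agent.P335

open Finset Function

section
variable {V : Type} [Fintype V] [DecidableEq V]
variable {H G : Finset (Sym2 V)} {φ : V → V → Bool} {τ : V → V → V}

/-- edges of the circuit through the dart `p` -/
noncomputable def circ (τ : V → V → V) (p : V × V) : Finset (Sym2 V) :=
  arc τ p (minimalPeriod (fw τ) p)

theorem mem_circ (h : IsTrans H φ τ) {p : V × V} {e : Sym2 V} :
    e ∈ circ τ p ↔ ∃ k, edge ((fw τ)^[k] p) = e := by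
  unfold circ
  rw [mem_arc]
  constructor
  · rintro ⟨k, -, hk⟩
    exact ⟨k, hk⟩
  · rintro ⟨k, hk⟩
    refine ⟨k % minimalPeriod (fw τ) p, Nat.mod_lt _ (mp_pos h p), ?_⟩
    rw [iterate_mod_minimalPeriod_eq]
    exact hk

theorem circ_iter (h : IsTrans H φ τ) (p : V × V) (k : ℕ) :
    circ τ ((fw τ)^[k] p) = circ τ p := by
  ext e
  rw [mem_circ h, mem_circ h]
  constructor
  · rintro ⟨l, hl⟩
    rw [← iterate_add_apply] at hl
    exact ⟨_, hl⟩
  · rintro ⟨l, hl⟩
    have hm := mp_pos h p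
    refine ⟨l + (k * minimalPeriod (fw τ) p - k), ?_⟩
    rw [← iterate_add_apply]
    have hk : k ≤ k * minimalPeriod (fw τ) p := Nat.le_mul_of_pos_right k hm
    have : l + (k * minimalPeriod (fw τ) p - k) + k = l + k * minimalPeriod (fw τ) p := by
      omega
    rw [this, ← iterate_mod_minimalPeriod_eq, Nat.add_mul_mod_self_right,
      iterate_mod_minimalPeriod_eq]
    exact hl

theorem circ_bw_iter (h : IsTrans H φ τ) (p : V × V) (k : ℕ) :
    circ τ ((bw τ)^[k] p) = circ τ p := by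
  have := circ_iter h ((bw τ)^[k] p) k
  rw [fw_iter_bw_iter h] at this
  exact this.symm

theorem circ_mem_Om {d : V → ℕ} (hG : G ∈ Om d) (h : IsTrans H (col G) τ) (hH : Loopless H)
    {p : V × V} (hp : edge p ∈ H) : symmDiff G (circ τ p) ∈ Om d := by
  have hG' := mem_Om.1 hG
  rw [mem_Om]
  refine ⟨loopless_symmDiff hG'.1 (loopless_of_subset (arc_subset h hp _) hH), fun v => ?_⟩
  have h1 := arc_deg h hH hp (le_refl _) v
  rw [iterate_minimalPeriod] at h1
  rw [← hG'.2 v]
  unfold circ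
  have : (deg (symmDiff G (arc τ p (minimalPeriod (fw τ) p))) v : ℤ) = deg G v := by
    rw [h1]; ring
  exact_mod_cast this

open Classical in
/-- a realization near `Z` -/
noncomputable def nr (d : V → ℕ) (Z : Finset (Sym2 V)) : Finset (Sym2 V) :=
  if Z ∈ Om d then Z else if h : Near d 5 Z then h.choose else ∅

theorem nr_self {d : V → ℕ} {Z : Finset (Sym2 V)} (h : Z ∈ Om d) : nr d Z = Z := by
  simp [nr, h]

theorem nr_spec {d : V → ℕ} {Z : Finset (Sym2 V)} (h : Near d 5 Z) :
    nr d Z ∈ Om d ∧ (symmDiff Z (nr d Z)).card ≤ 5 := by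
  by_cases hZ : Z ∈ Om d
  · rw [nr_self hZ]
    exact ⟨hZ, by simp⟩
  · have : nr d Z = h.choose := by simp [nr, hZ, h]
    rw [this]
    exact h.choose_spec

/-- local variation near `Z` -/
noncomputable def Lam (d : V → ℕ) (f : Finset (Sym2 V) → ℝ) (Z : Finset (Sym2 V)) : ℝ :=
  ∑ A ∈ (Om d).filter (fun A => (symmDiff Z A).card ≤ 6),
    ∑ B ∈ (Om d).filter (fun B => (symmDiff Z B).card ≤ 6), (f A - f B) ^ 2

theorem Lam_nonneg (d : V → ℕ) (f : Finset (Sym2 V) → ℝ) (Z : Finset (Sym2 V)) :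
    0 ≤ Lam d f Z :=
  sum_nonneg fun _ _ => sum_nonneg fun _ _ => sq_nonneg _

theorem le_Lam {d : V → ℕ} (f : Finset (Sym2 V) → ℝ) {Z A B : Finset (Sym2 V)}
    (hA : A ∈ Om d) (hB : B ∈ Om d) (hA6 : (symmDiff Z A).card ≤ 6)
    (hB6 : (symmDiff Z B).card ≤ 6) : (f A - f B) ^ 2 ≤ Lam d f Z := by
  unfold Lam
  have h1 : (f A - f B) ^ 2 ≤ ∑ B ∈ (Om d).filter (fun B => (symmDiff Z B).card ≤ 6),
      (f A - f B) ^ 2 :=
    single_le_sum (f := fun B => (f A - f B) ^ 2) (fun _ _ => sq_nonneg _)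
      (mem_filter.2 ⟨hB, hB6⟩)
  refine h1.trans ?_
  exact single_le_sum (f := fun A => ∑ B ∈ (Om d).filter (fun B => (symmDiff Z B).card ≤ 6),
      (f A - f B) ^ 2) (fun _ _ => sum_nonneg fun _ _ => sq_nonneg _)
      (mem_filter.2 ⟨hA, hA6⟩)

/-- admissible intermediate sets -/
def GoodZ (d : V → ℕ) (H : Finset (Sym2 V)) (τ : V → V → V) (Z : Finset (Sym2 V)) : Prop :=
  Near d 5 Z ∧ Near d 5 (symmDiff Z H) ∧ ∃ D' D'' : V × V, IsTrans H (phih Z D' D'') τ

open Classical in
/-- local variation restricted to admissible sets -/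
noncomputable def term (d : V → ℕ) (f : Finset (Sym2 V) → ℝ) (H : Finset (Sym2 V))
    (τ : V → V → V) (Z : Finset (Sym2 V)) : ℝ :=
  if GoodZ d H τ Z then Lam d f Z else 0

theorem term_nonneg (d : V → ℕ) (f : Finset (Sym2 V) → ℝ) (H : Finset (Sym2 V))
    (τ : V → V → V) (Z : Finset (Sym2 V)) : 0 ≤ term d f H τ Z := by
  unfold term
  split_ifs
  · exact Lam_nonneg _ _ _
  · exact le_rfl

theorem term_good {d : V → ℕ} {f : Finset (Sym2 V) → ℝ} {H : Finset (Sym2 V)}
    {τ : V → V → V} {Z : Finset (Sym2 V)} (h : GoodZ d H τ Z) : term d f H τ Z = Lam d f Z := by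
  simp [term, h]

/-- number of darts -/
noncomputable def ND (V : Type) [Fintype V] : ℕ := Fintype.card (V × V)

/-- rank of darts refining the height -/
noncomputable def rk (d : V → ℕ) (G : Finset (Sym2 V)) (p : V × V) : ℕ :=
  hd d G p * ND V + (Fintype.equivFin (V × V) p : ℕ)

theorem code_lt (p : V × V) : (Fintype.equivFin (V × V) p : ℕ) < ND V :=
  (Fintype.equivFin (V × V) p).2

theorem hd_le_of_rk_le {d : V → ℕ} {p q : V × V} (h : rk d G p ≤ rk d G q) :
    hd d G p ≤ hd d G q := by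
  by_contra hlt
  push Not at hlt
  have h1 : (hd d G q + 1) * ND V ≤ hd d G p * ND V := Nat.mul_le_mul_right _ hlt
  have h2 := code_lt q
  unfold rk at h
  rw [add_mul, one_mul] at h1
  omega

theorem rk_injective (d : V → ℕ) (G : Finset (Sym2 V)) : Injective (rk d G) := by
  intro p q h
  have h1 := hd_le_of_rk_le (le_of_eq h)
  have h2 := hd_le_of_rk_le (le_of_eq h.symm)
  have h3 : hd d G p = hd d G q := le_antisymm h1 h2
  unfold rk at h
  rw [h3] at h
  have h4 : (Fintype.equivFin (V × V) p : ℕ) = (Fintype.equivFin (V × V) q : ℕ) := by omega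
  exact (Fintype.equivFin (V × V)).injective (Fin.ext h4)

theorem mp_le (p : V × V) (τ : V → V → V) : minimalPeriod (fw τ) p ≤ ND V :=
  minimalPeriod_le_card

theorem compatFF (h : IsTrans H (col G) τ) (hH : Loopless H) {p : V × V} (hp : edge p ∈ H)
    {i j : ℕ} (hl : i + j < minimalPeriod (fw τ) p) :
    ∃ D' D'' : V × V, IsTrans H (phih (symmDiff G (FF τ p i j)) D' D'') τ := by
  unfold FF
  exact ⟨_, _, compat h hH (edge_bw_iter_mem h hp i) (by rw [mp_bw_iter h]; exact hl)⟩

theorem node_good {d : V → ℕ} (hG : G ∈ Om d) (hG' : symmDiff G H ∈ Om d)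
    (h : IsTrans H (col G) τ) (hH : Loopless H)
    {p : V × V} (hp : edge p ∈ H) {i j : ℕ} (a b a' b' : ℕ) (ha : a ≤ 1) (hb : b ≤ 1)
    (ha' : a' ≤ 1) (hb' : b' ≤ 1)
    (hl : i + j + 2 ≤ minimalPeriod (fw τ) p)
    (hle : rk d G ((fw τ)^[j + b] p) ≤ rk d G ((bw τ)^[i + a] p))
    (hle' : rk d G ((bw τ)^[i + a'] p) ≤ rk d G ((fw τ)^[j + b'] p)) :
    GoodZ d H τ (symmDiff G (FF τ p i j)) := by
  refine ⟨near5_left hG h hH hp ha hb hl (hd_le_of_rk_le hle), ?_, compatFF h hH hp (by omega)⟩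
  have := near5_right hG' h hH hp ha' hb' hl (hd_le_of_rk_le hle')
  rwa [symmDiff_assoc, symmDiff_comm H, ← symmDiff_assoc] at this

theorem exists_base (h : IsTrans H φ τ) (r : V × V → ℕ) (P : V × V) :
    ∃ k0, ∀ k, r ((fw τ)^[k0] P) ≤ r ((fw τ)^[k] P) := by
  have hm := mp_pos h P
  obtain ⟨k0, -, hk0⟩ := exists_min_image (range (minimalPeriod (fw τ) P))
    (fun k => r ((fw τ)^[k] P)) ⟨0, mem_range.2 hm⟩
  refine ⟨k0, fun k => ?_⟩
  have := hk0 (k % minimalPeriod (fw τ) P) (mem_range.2 (Nat.mod_lt _ hm))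
  rwa [iterate_mod_minimalPeriod_eq] at this

theorem exists_top (h : IsTrans H φ τ) (r : V × V → ℕ) (P : V × V) :
    ∃ M < minimalPeriod (fw τ) P, ∀ k, r ((fw τ)^[k] P) ≤ r ((fw τ)^[M] P) := by
  have hm := mp_pos h P
  obtain ⟨k0, hk, hk0⟩ := exists_max_image (range (minimalPeriod (fw τ) P))
    (fun k => r ((fw τ)^[k] P)) ⟨0, mem_range.2 hm⟩
  refine ⟨k0, mem_range.1 hk, fun k => ?_⟩
  have := hk0 (k % minimalPeriod (fw τ) P) (mem_range.2 (Nat.mod_lt _ hm))
  rwa [iterate_mod_minimalPeriod_eq] at this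

theorem bw_iter_eq (h : IsTrans H φ τ) (p : V × V) {i : ℕ}
    (hi : i ≤ minimalPeriod (fw τ) p) :
    (bw τ)^[i] p = (fw τ)^[minimalPeriod (fw τ) p - i] p := by
  apply ((fw_injective h).iterate i)
  rw [fw_iter_bw_iter h, ← iterate_add_apply, Nat.add_sub_cancel' hi, iterate_minimalPeriod]

theorem circuit_base {d : V → ℕ} (f : Finset (Sym2 V) → ℝ)
    (hG : G ∈ Om d) (hG' : symmDiff G H ∈ Om d)
    (h : IsTrans H (col G) τ) (hH : Loopless H) {D : V × V} (hD : edge D ∈ H)
    (hmin : ∀ k, rk d G D ≤ rk d G ((fw τ)^[k] D)) :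
    |f G - f (symmDiff G (circ τ D))| ≤ ((ND V : ℝ) * ND V + 1) *
      Real.sqrt (∑ i ∈ range (ND V), ∑ j ∈ range (ND V),
        term d f H τ (symmDiff G (FF τ D i j))) := by
  set N := ND V with hN
  set m := minimalPeriod (fw τ) D with hm
  set S := ∑ i ∈ range N, ∑ j ∈ range N, term d f H τ (symmDiff G (FF τ D i j)) with hS
  set B := Real.sqrt S with hB
  have hmN : m ≤ N := mp_le D τ
  have hm0 : 0 < m := mp_pos h D
  obtain ⟨M, hMm, hmax⟩ := exists_top h (rk d G) D
  have inj : ∀ a b, a < m → b < m →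
      ((fw τ)^[a] D = (fw τ)^[b] D ↔ a = b) := fun a b ha hb =>
    iterate_eq_iterate_iff_of_lt_minimalPeriod ha hb
  have hfwne : fw τ D ≠ D := by
    intro hh
    have := col_fw h hD
    rw [hh] at this
    tauto
  have hm2 : 2 ≤ m := by
    by_contra hlt
    have h1 : m = 1 := by omega
    apply hfwne
    have := iterate_minimalPeriod (f := fw τ) (x := D)
    rw [← hm, h1] at this
    exact this
  have hM0 : 0 < M := by
    rcases Nat.eq_zero_or_pos M with h0 | h0
    · exfalso
      subst h0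
      have h1 := hmax 1
      have h2 := hmin 1
      have h3 : rk d G ((fw τ)^[1] D) = rk d G D := le_antisymm h1 h2
      exact hfwne (rk_injective d G h3)
    · exact h0
  -- bounds for a single node
  have hterm : ∀ i j, i < N → j < N → GoodZ d H τ (symmDiff G (FF τ D i j)) →
      Lam d f (symmDiff G (FF τ D i j)) ≤ S := by
    intro i j hi hj hg
    rw [← term_good (f := f) hg]
    have h1 : term d f H τ (symmDiff G (FF τ D i j)) ≤
        ∑ j ∈ range N, term d f H τ (symmDiff G (FF τ D i j)) :=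
      single_le_sum (f := fun j => term d f H τ (symmDiff G (FF τ D i j)))
        (fun _ _ => term_nonneg _ _ _ _ _) (mem_range.2 hj)
    refine h1.trans ?_
    exact single_le_sum
      (f := fun i => ∑ j ∈ range N, term d f H τ (symmDiff G (FF τ D i j)))
      (fun _ _ => sum_nonneg fun _ _ => term_nonneg _ _ _ _ _) (mem_range.2 hi)
  have hstep : ∀ i j (A C : Finset (Sym2 V)), i < N → j < N →
      GoodZ d H τ (symmDiff G (FF τ D i j)) → A ∈ Om d → C ∈ Om d →
      (symmDiff (symmDiff G (FF τ D i j)) A).card ≤ 6 →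
      (symmDiff (symmDiff G (FF τ D i j)) C).card ≤ 6 → |f A - f C| ≤ B := by
    intro i j A C hi hj hg hA hC hA6 hC6
    apply Real.abs_le_sqrt
    exact (le_Lam f hA hC hA6 hC6).trans (hterm i j hi hj hg)
  set L : ℕ → ℕ := fun i => rk d G ((bw τ)^[i] D) with hLdef
  set R : ℕ → ℕ := fun j => rk d G ((fw τ)^[j] D) with hRdef
  set g : ℕ → ℕ → ℝ := fun i j => f (nr d (symmDiff G (FF τ D i j))) with hg
  have hLfw : ∀ i, i ≤ m → L i = rk d G ((fw τ)^[m - i] D) := by
    intro i hi
    simp only [hLdef]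
    rw [bw_iter_eq h D hi]
  have hinc : ∀ a, 0 < a → a < m → rk d G D < rk d G ((fw τ)^[a] D) := by
    intro a ha ham
    refine lt_of_le_of_ne (hmin a) ?_
    intro hh
    have := rk_injective d G hh
    have := (inj 0 a hm0 ham).1 this
    omega
  have hdec : ∀ a, a ≠ M → a < m → rk d G ((fw τ)^[a] D) < rk d G ((fw τ)^[M] D) := by
    intro a ha ham
    refine lt_of_le_of_ne (hmax a) ?_
    intro hh
    have := rk_injective d G hh
    have := (inj a M ham hMm).1 this
    omega
  have hLp : L (m - M) = R M := by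
    rw [hLfw _ (by omega)]
    simp only [hRdef]
    congr 3
    omega
  have goodnode : ∀ i j a b a' b', a ≤ 1 → b ≤ 1 → a' ≤ 1 → b' ≤ 1 → i + j + 2 ≤ m →
      R (j + b) ≤ L (i + a) → L (i + a') ≤ R (j + b') →
      GoodZ d H τ (symmDiff G (FF τ D i j)) := by
    intro i j a b a' b' ha hb ha' hb' hl h1 h2
    exact node_good hG hG' h hH hD a b a' b' ha hb ha' hb' hl h1 h2
  have key : |g 0 0 - g (m - M - 1) (M - 1)| ≤ ((m - M : ℕ) : ℝ) * (M : ℕ) * B := by
    apply mountain (m - M) M (by omega) hM0 L R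
    · rfl
    · exact hLp
    · rw [hLp]
      exact hinc M hM0 hMm
    · intro i hi hi2
      rw [hLfw i (by omega)]
      refine ⟨hinc _ (by omega) (by omega), ?_⟩
      rw [hLp]
      exact hdec _ (by omega) (by omega)
    · intro j hj hj2
      exact ⟨hinc _ (by omega) (by omega), hdec _ (by omega) (by omega)⟩
    · intro i j hi hi2 hj hj2 hh
      rw [hLfw i (by omega)] at hh
      have := rk_injective d G hh
      have := (inj (m - i) j (by omega) (by omega)).1 this
      omega
    · exact Real.sqrt_nonneg _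
    · intro i j hi hj hb
      have hboth : GoodZ d H τ (symmDiff G (FF τ D i j)) ∧
          GoodZ d H τ (symmDiff G (FF τ D (i + 1) j)) := by
        rcases hb with ⟨h1, h2⟩ | ⟨h1, h2⟩
        · exact ⟨goodnode i j 1 0 1 1 (by omega) (by omega) (by omega) (by omega) (by omega)
              h1.le h2.le,
            goodnode (i + 1) j 0 0 0 1 (by omega) (by omega) (by omega) (by omega) (by omega)
              h1.le h2.le⟩
        · exact ⟨goodnode i j 1 1 1 0 (by omega) (by omega) (by omega) (by omega) (by omega)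
              h1.le h2.le,
            goodnode (i + 1) j 0 1 0 0 (by omega) (by omega) (by omega) (by omega) (by omega)
              h1.le h2.le⟩
      have n1 := nr_spec hboth.1.1
      have n2 := nr_spec hboth.2.1
      refine hstep i j _ _ (by omega) (by omega) hboth.1 n1.1 n2.1 (by omega) ?_
      have t1 := card_symmDiff_triangle (symmDiff G (FF τ D i j))
        (symmDiff G (FF τ D (i + 1) j)) (nr d (symmDiff G (FF τ D (i + 1) j)))
      have t2 := FF_step_left h G D i j
      omega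
    · intro i j hi hj hb
      have hboth : GoodZ d H τ (symmDiff G (FF τ D i j)) ∧
          GoodZ d H τ (symmDiff G (FF τ D i (j + 1))) := by
        rcases hb with ⟨h1, h2⟩ | ⟨h1, h2⟩
        · exact ⟨goodnode i j 1 1 0 1 (by omega) (by omega) (by omega) (by omega) (by omega)
              h2.le h1.le,
            goodnode i (j + 1) 1 0 0 0 (by omega) (by omega) (by omega) (by omega) (by omega)
              h2.le h1.le⟩
        · exact ⟨goodnode i j 0 1 1 1 (by omega) (by omega) (by omega) (by omega) (by omega)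
              h2.le h1.le,
            goodnode i (j + 1) 0 0 1 0 (by omega) (by omega) (by omega) (by omega) (by omega)
              h2.le h1.le⟩
      have n1 := nr_spec hboth.1.1
      have n2 := nr_spec hboth.2.1
      refine hstep i j _ _ (by omega) (by omega) hboth.1 n1.1 n2.1 (by omega) ?_
      have t1 := card_symmDiff_triangle (symmDiff G (FF τ D i j))
        (symmDiff G (FF τ D i (j + 1))) (nr d (symmDiff G (FF τ D i (j + 1))))
      have t2 := FF_step_right h G D i j
      omega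
  -- last step
  have hlast : |g (m - M - 1) (M - 1) - f (symmDiff G (circ τ D))| ≤ B := by
    have e1 : m - M - 1 + 1 = m - M := by omega
    have e2 : M - 1 + 1 = M := by omega
    have hgd : GoodZ d H τ (symmDiff G (FF τ D (m - M - 1) (M - 1))) := by
      apply goodnode (m - M - 1) (M - 1) 1 1 1 1 (by omega) (by omega) (by omega) (by omega)
        (by omega)
      · rw [e1, e2, hLp]
      · rw [e1, e2, hLp]
    have n1 := nr_spec hgd.1
    refine hstep (m - M - 1) (M - 1) _ _ (by omega) (by omega) hgd n1.1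
      (circ_mem_Om hG h hH hD) (by omega) ?_
    have t2 := FF_step_two h G D (m - M - 1) (M - 1) 1 1 le_rfl le_rfl
    have e3 : FF τ D (m - M - 1 + 1) (M - 1 + 1) = circ τ D := by
      rw [e1, e2]
      unfold FF
      rw [← circ_bw_iter h D (m - M)]
      unfold circ
      rw [mp_bw_iter h]
      congr 1
      omega
    rw [e3] at t2
    omega
  have hg0 : g 0 0 = f G := by
    simp only [hg, FF_zero, sd_empty]
    rw [nr_self hG]
  have hBn : 0 ≤ B := Real.sqrt_nonneg _
  have htri : |f G - f (symmDiff G (circ τ D))| ≤ |g 0 0 - g (m - M - 1) (M - 1)| +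
      |g (m - M - 1) (M - 1) - f (symmDiff G (circ τ D))| := by
    rw [← hg0]
    exact abs_sub_le _ _ _
  have hpq : ((m - M : ℕ) : ℝ) * (M : ℕ) ≤ (N : ℝ) * N := by
    have a1 : ((m - M : ℕ) : ℝ) ≤ N := by exact_mod_cast (by omega : m - M ≤ N)
    have a2 : (M : ℝ) ≤ N := by exact_mod_cast (by omega : M ≤ N)
    exact mul_le_mul a1 a2 (by positivity) (by positivity)
  calc |f G - f (symmDiff G (circ τ D))| ≤ _ := htri
    _ ≤ ((m - M : ℕ) : ℝ) * (M : ℕ) * B + B := add_le_add key hlast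
    _ ≤ (N : ℝ) * N * B + B := by
        have := mul_le_mul_of_nonneg_right hpq hBn
        linarith
    _ = ((N : ℝ) * N + 1) * B := by ring

theorem circuit_ineq {d : V → ℕ} (f : Finset (Sym2 V) → ℝ)
    (hG : G ∈ Om d) (hG' : symmDiff G H ∈ Om d)
    (h : IsTrans H (col G) τ) (hH : Loopless H) {P : V × V} (hP : edge P ∈ H) :
    (f G - f (symmDiff G (circ τ P))) ^ 2 ≤ ((ND V : ℝ) * ND V + 1) ^ 2 *
      ∑ D : V × V, ∑ i ∈ range (ND V), ∑ j ∈ range (ND V),
        term d f H τ (symmDiff G (FF τ D i j)) := by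
  obtain ⟨k0, hk0⟩ := exists_base h (rk d G) P
  have hD : edge ((fw τ)^[k0] P) ∈ H := edge_fw_iter_mem h hP k0
  have h1 := circuit_base f hG hG' h hH hD (fun k => by
    have := hk0 (k + k0)
    rwa [iterate_add_apply] at this)
  rw [circ_iter h P k0] at h1
  set D := (fw τ)^[k0] P
  have hS : (0 : ℝ) ≤ ∑ i ∈ range (ND V), ∑ j ∈ range (ND V),
        term d f H τ (symmDiff G (FF τ D i j)) :=
    sum_nonneg fun _ _ => sum_nonneg fun _ _ => term_nonneg _ _ _ _ _
  have h2 : (f G - f (symmDiff G (circ τ P))) ^ 2 ≤ (((ND V : ℝ) * ND V + 1) *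
      Real.sqrt (∑ i ∈ range (ND V), ∑ j ∈ range (ND V),
        term d f H τ (symmDiff G (FF τ D i j)))) ^ 2 := by
    rw [← sq_abs]
    exact pow_le_pow_left₀ (abs_nonneg _) h1 2
  rw [mul_pow, Real.sq_sqrt hS] at h2
  refine h2.trans (mul_le_mul_of_nonneg_left ?_ (by positivity))
  exact single_le_sum (f := fun D => ∑ i ∈ range (ND V), ∑ j ∈ range (ND V),
        term d f H τ (symmDiff G (FF τ D i j)))
    (fun _ _ => sum_nonneg fun _ _ => sum_nonneg fun _ _ => term_nonneg _ _ _ _ _)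
    (mem_univ D)

end

end Vale.Agent.P335
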