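import Vale.Agent.Lib.P335.Basic

/-!
Circuits of a transition system.
-/

namespace Vale.Agent.P335

open Finset Function

section
variable {V : Type} [Fintype V] [DecidableEq V]

/-- colour of half-edges given by the edge set `G` -/
def col (G : Finset (Sym2 V)) (v u : V) : Bool := decide (s(v, u) ∈ G)

/-- forward step on darts -/
def fw (τ : V → V → V) (p : V × V) : V × V := (p.2, τ p.2 p.1)

/-- backward step on darts -/
def bw (τ : V → V → V) (p : V × V) : V × V := (τ p.1 p.2, p.1)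

/-- edge of a dart -/
def edge (p : V × V) : Sym2 V := s(p.1, p.2)

theorem edge_swap (p : V × V) : edge p.swap = edge p := by
  simp [edge, Sym2.eq_swap]

theorem edge_eq_iff (p q : V × V) : edge p = edge q ↔ p = q ∨ p = q.swap := by
  rcases p with ⟨a, b⟩
  rcases q with ⟨c, e⟩
  simp [edge]

variable {H G : Finset (Sym2 V)} {φ : V → V → Bool} {τ : V → V → V}

theorem fw_bw (h : IsTrans H φ τ) (p : V × V) : fw τ (bw τ p) = p := by
  rcases p with ⟨a, b⟩
  simp [fw, bw, (h a b).1]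

theorem bw_fw (h : IsTrans H φ τ) (p : V × V) : bw τ (fw τ p) = p := by
  rcases p with ⟨a, b⟩
  simp [fw, bw, (h b a).1]

theorem bw_iter_fw_iter (h : IsTrans H φ τ) (k : ℕ) (p : V × V) :
    (bw τ)^[k] ((fw τ)^[k] p) = p :=
  (LeftInverse.iterate (bw_fw h) k) p

theorem fw_iter_bw_iter (h : IsTrans H φ τ) (k : ℕ) (p : V × V) :
    (fw τ)^[k] ((bw τ)^[k] p) = p :=
  (LeftInverse.iterate (fw_bw h) k) p

theorem fw_injective (h : IsTrans H φ τ) : Injective (fw τ) :=
  (show LeftInverse (bw τ) (fw τ) from bw_fw h).injective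

theorem swap_fw (p : V × V) : (fw τ p).swap = bw τ p.swap := by
  rcases p with ⟨a, b⟩
  simp [fw, bw]

theorem swap_fw_iter (k : ℕ) (p : V × V) : ((fw τ)^[k] p).swap = (bw τ)^[k] p.swap := by
  have h : Semiconj (Prod.swap : V × V → V × V) (fw τ) (bw τ) := fun p => swap_fw p
  exact (h.iterate_right k) p

theorem edge_fw_mem (h : IsTrans H φ τ) {p : V × V} (hp : edge p ∈ H) : edge (fw τ p) ∈ H := by
  rcases p with ⟨a, b⟩
  by_contra hn
  have hp' : s(b, a) ∈ H := by rwa [Sym2.eq_swap]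
  have h1 := (h b a).2.2 hp'
  have h2 := (h b (τ b a)).2.1 hn
  rw [(h b a).1] at h2
  exact h1.1 h2.symm

theorem edge_fw_iter_mem (h : IsTrans H φ τ) {p : V × V} (hp : edge p ∈ H) (k : ℕ) :
    edge ((fw τ)^[k] p) ∈ H := by
  induction k with
  | zero => exact hp
  | succ k ih => rw [iterate_succ_apply']; exact edge_fw_mem h ih

theorem edge_bw_mem (h : IsTrans H φ τ) {p : V × V} (hp : edge p ∈ H) : edge (bw τ p) ∈ H := by
  have h1 : edge p.swap ∈ H := by rwa [edge_swap]
  have h2 := edge_fw_mem h h1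
  rw [← edge_swap, swap_fw, Prod.swap_swap] at h2
  exact h2

theorem edge_bw_iter_mem (h : IsTrans H φ τ) {p : V × V} (hp : edge p ∈ H) (k : ℕ) :
    edge ((bw τ)^[k] p) ∈ H := by
  induction k with
  | zero => exact hp
  | succ k ih => rw [iterate_succ_apply']; exact edge_bw_mem h ih

theorem col_fw (h : IsTrans H (col G) τ) {p : V × V} (hp : edge p ∈ H) :
    edge (fw τ p) ∈ G ↔ edge p ∉ G := by
  rcases p with ⟨a, b⟩
  have hp' : s(b, a) ∈ H := by rwa [Sym2.eq_swap]
  have h1 := ((h b a).2.2 hp').2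
  simp only [col] at h1
  have h2 : edge (a, b) = s(b, a) := by simp [edge, Sym2.eq_swap]
  have h3 : edge (fw τ (a, b)) = s(b, τ b a) := rfl
  rw [h2, h3]
  by_cases c1 : s(b, a) ∈ G <;> by_cases c2 : s(b, τ b a) ∈ G <;> simp_all

theorem col_fw_iter (h : IsTrans H (col G) τ) {p : V × V} (hp : edge p ∈ H) (k : ℕ) :
    edge ((fw τ)^[k] p) ∈ G ↔ (edge p ∈ G ↔ Even k) := by
  induction k with
  | zero => simp
  | succ k ih =>
    rw [iterate_succ_apply', col_fw h (edge_fw_iter_mem h hp k), ih, Nat.even_add_one]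
    tauto

theorem no_swap (h : IsTrans H (col G) τ) (hH : Loopless H) {p : V × V} (hp : edge p ∈ H)
    (k : ℕ) : (fw τ)^[k] p ≠ p.swap := by
  intro hk
  have h1 := col_fw_iter h hp k
  rw [hk, edge_swap] at h1
  have h2 : Even k := by
    by_cases c : edge p ∈ G
    · exact (h1.1 c).1 c
    · by_contra hne
      exact c (h1.2 ⟨fun h => absurd h c, fun h => absurd h hne⟩)
  obtain ⟨j, rfl⟩ := h2
  have h3 : ((fw τ)^[j] p).swap = (fw τ)^[j] p := by
    rw [swap_fw_iter, ← hk, iterate_add_apply, bw_iter_fw_iter h]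
  have h4 := edge_fw_iter_mem h hp j
  have h5 : ((fw τ)^[j] p).2 = ((fw τ)^[j] p).1 := congrArg Prod.fst h3
  rw [edge, h5] at h4
  exact hH _ h4

theorem edge_iter_inj (h : IsTrans H (col G) τ) (hH : Loopless H) {p : V × V}
    (hp : edge p ∈ H) {k l : ℕ} (hkl : edge ((fw τ)^[k] p) = edge ((fw τ)^[l] p)) :
    (fw τ)^[k] p = (fw τ)^[l] p := by
  rcases (edge_eq_iff _ _).1 hkl with h1 | h1
  · exact h1
  · exfalso
    rcases le_total l k with hlk | hlk
    · obtain ⟨j, rfl⟩ := Nat.exists_eq_add_of_le hlk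
      rw [add_comm, iterate_add_apply] at h1
      exact no_swap h hH (edge_fw_iter_mem h hp l) j h1
    · obtain ⟨j, rfl⟩ := Nat.exists_eq_add_of_le hlk
      have h2 : (fw τ)^[k + j] p = ((fw τ)^[k] p).swap := by
        rw [h1, Prod.swap_swap]
      rw [add_comm, iterate_add_apply] at h2
      exact no_swap h hH (edge_fw_iter_mem h hp k) j h2

end

end Vale.Agent.P335
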