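import Vale.Agent.Lib.P335.Basic

/-!
The key lemma for P335: an edge set whose degree vector is `d` corrected by two signed unit
vectors, the heights of which are ordered, is within three edges of a realization of `d`.
-/

namespace Vale.Agent.P335

open Finset

section
variable {V : Type} [Fintype V] [DecidableEq V]

theorem key_mem_nbr {E : Finset (Sym2 V)} {v u : V} : u ∈ nbr E v ↔ s(v, u) ∈ E := by
  simp [nbr]

theorem key_mem_nbr_comm {E : Finset (Sym2 V)} {v u : V} : u ∈ nbr E v ↔ v ∈ nbr E u := by
  rw [key_mem_nbr, key_mem_nbr, Sym2.eq_swap]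

theorem key_deg_insert {E : Finset (Sym2 V)} {a b : V} (hab : a ≠ b) (h : s(a, b) ∉ E) (v : V) :
    (deg (insert s(a, b) E) v : ℤ) =
      deg E v + (if v = a then 1 else 0) + (if v = b then 1 else 0) := by
  unfold deg
  by_cases hva : v = a
  · subst hva
    have h1 : nbr (insert s(v, b) E) v = insert b (nbr E v) := by
      ext u
      simp only [key_mem_nbr, mem_insert]
      constructor
      · rintro (h1 | h1)
        · left
          rcases Sym2.eq_iff.mp h1 with ⟨_, h2⟩ | ⟨h2, h3⟩
          · exact h2
          · exact absurd h2 hab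
        · exact Or.inr h1
      · rintro (h1 | h1)
        · left
          rw [h1]
        · exact Or.inr h1
    have h2 : b ∉ nbr E v := by rw [key_mem_nbr]; exact h
    rw [h1, card_insert_of_notMem h2]
    simp [hab]
  · by_cases hvb : v = b
    · subst hvb
      have h1 : nbr (insert s(a, v) E) v = insert a (nbr E v) := by
        ext u
        simp only [key_mem_nbr, mem_insert]
        constructor
        · rintro (h1 | h1)
          · left
            rcases Sym2.eq_iff.mp h1 with ⟨h2, _⟩ | ⟨_, h2⟩
            · exact absurd h2 hva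
            · exact h2
          · exact Or.inr h1
        · rintro (h1 | h1)
          · left
            rw [h1, Sym2.eq_swap]
          · exact Or.inr h1
      have h2 : a ∉ nbr E v := by rw [key_mem_nbr, Sym2.eq_swap]; exact h
      rw [h1, card_insert_of_notMem h2]
      simp [hva]
    · have h1 : nbr (insert s(a, b) E) v = nbr E v := by
        ext u
        simp only [key_mem_nbr, mem_insert]
        constructor
        · rintro (h1 | h1)
          · rcases Sym2.eq_iff.mp h1 with ⟨h2, _⟩ | ⟨h2, _⟩
            · exact absurd h2 hva
            · exact absurd h2 hvb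
          · exact h1
        · exact Or.inr
      rw [h1]
      simp [hva, hvb]

theorem key_deg_erase {E : Finset (Sym2 V)} {a b : V} (hab : a ≠ b) (h : s(a, b) ∈ E) (v : V) :
    (deg (E.erase s(a, b)) v : ℤ) =
      deg E v - (if v = a then 1 else 0) - (if v = b then 1 else 0) := by
  have h1 := key_deg_insert (E := E.erase s(a, b)) hab (notMem_erase _ _) v
  rw [insert_erase h] at h1
  rw [h1]
  ring

omit [Fintype V] in
theorem key_loopless_insert {E : Finset (Sym2 V)} {a b : V} (hab : a ≠ b) (h : Loopless E) :
    Loopless (insert s(a, b) E) := by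
  intro v hv
  rcases mem_insert.mp hv with h1 | h1
  · rcases Sym2.eq_iff.mp h1 with ⟨h2, h3⟩ | ⟨h2, h3⟩
    · exact hab (h2.symm.trans h3)
    · exact hab (h3.symm.trans h2)
  · exact h v h1

omit [Fintype V] in
theorem key_loopless_erase {E : Finset (Sym2 V)} {e : Sym2 V} (h : Loopless E) :
    Loopless (E.erase e) := fun v hv => h v (mem_of_mem_erase hv)

theorem key_sd_trans {α : Type} [DecidableEq α] (A B C : Finset α) :
    (symmDiff A C).card ≤ (symmDiff A B).card + (symmDiff B C).card := by
  refine le_trans (card_le_card ?_) (card_union_le _ _)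
  exact symmDiff_triangle A B C

theorem key_sd_insert {α : Type} [DecidableEq α] (A : Finset α) (e : α) :
    (symmDiff A (insert e A)).card ≤ 1 := by
  have h : symmDiff A (insert e A) ⊆ {e} := by
    intro u hu
    rw [mem_symmDiff] at hu
    simp only [mem_insert, mem_singleton] at *
    tauto
  simpa using card_le_card h

theorem key_sd_erase {α : Type} [DecidableEq α] (A : Finset α) (e : α) :
    (symmDiff A (A.erase e)).card ≤ 1 := by
  have h : symmDiff A (A.erase e) ⊆ {e} := by
    intro u hu
    rw [mem_symmDiff] at hu
    simp only [mem_erase, mem_singleton] at *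
    tauto
  simpa using card_le_card h

/-- moving one edge -/
theorem key_move (d : V → ℕ) (x y : V) (hxy : d y ≤ d x)
    (Z : Finset (Sym2 V)) (hZ : Loopless Z)
    (hdeg : ∀ v, (deg Z v : ℤ) = d v + (if v = x then 1 else 0) - (if v = y then 1 else 0)) :
    ∃ Z' ∈ Om d, (symmDiff Z Z').card ≤ 3 := by
  by_cases hne : x = y
  · subst hne
    refine ⟨Z, mem_Om.mpr ⟨hZ, fun v => ?_⟩, by simp⟩
    have := hdeg v
    split_ifs at this <;> omega
  · have hx := hdeg x
    have hy := hdeg y
    have hyx : y ≠ x := fun h => hne h.symm
    simp only [if_true, if_neg hne] at hx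
    simp only [if_true, if_neg hyx] at hy
    have hcard : ((nbr Z y).erase x).card < ((nbr Z x).erase y).card := by
      by_cases hadj : y ∈ nbr Z x
      · have hadj' : x ∈ nbr Z y := key_mem_nbr_comm.mp hadj
        rw [card_erase_of_mem hadj, card_erase_of_mem hadj']
        have : 0 < (nbr Z y).card := card_pos.mpr ⟨x, hadj'⟩
        unfold deg at hx hy
        omega
      · have hadj' : x ∉ nbr Z y := fun h => hadj (key_mem_nbr_comm.mp h)
        rw [erase_eq_of_notMem hadj, erase_eq_of_notMem hadj']
        unfold deg at hx hy
        omega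
    obtain ⟨z, hz1, hz2⟩ := exists_mem_notMem_of_card_lt_card hcard
    have hzy : z ≠ y := ne_of_mem_erase hz1
    have hxz : s(x, z) ∈ Z := key_mem_nbr.mp (mem_of_mem_erase hz1)
    have hzx : z ≠ x := by
      rintro rfl
      exact hZ z hxz
    have hyz : s(y, z) ∉ Z := by
      intro h
      exact hz2 (mem_erase.mpr ⟨hzx, key_mem_nbr.mpr h⟩)
    have hyz' : s(y, z) ∉ Z.erase s(x, z) := fun h => hyz (mem_of_mem_erase h)
    refine ⟨insert s(y, z) (Z.erase s(x, z)), mem_Om.mpr ⟨?_, fun v => ?_⟩, ?_⟩
    · exact key_loopless_insert (fun h => hzy h.symm) (key_loopless_erase hZ)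
    · have h1 := key_deg_insert (fun h => hzy h.symm) hyz' v
      have h2 := key_deg_erase (fun h => hzx h.symm) hxz v
      have h3 := hdeg v
      rw [h2, h3] at h1
      have h4 : (deg (insert s(y, z) (Z.erase s(x, z))) v : ℤ) = d v := by
        rw [h1]; ring
      exact_mod_cast h4
    · have h1 := key_sd_trans Z (Z.erase s(x, z)) (insert s(y, z) (Z.erase s(x, z)))
      have h2 := key_sd_erase Z s(x, z)
      have h3 := key_sd_insert (Z.erase s(x, z)) s(y, z)
      omega

/-- removing two half-edges -/
theorem key_remove (d : V → ℕ) (x y : V) (hxy : cc d y ≤ d x)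
    (Z : Finset (Sym2 V)) (hZ : Loopless Z)
    (hdeg : ∀ v, (deg Z v : ℤ) = d v + (if v = x then 1 else 0) + (if v = y then 1 else 0)) :
    ∃ Z' ∈ Om d, (symmDiff Z Z').card ≤ 3 := by
  by_cases hadj : s(x, y) ∈ Z
  · have hne : x ≠ y := by
      rintro rfl
      exact hZ x hadj
    refine ⟨Z.erase s(x, y), mem_Om.mpr ⟨key_loopless_erase hZ, fun v => ?_⟩, ?_⟩
    · have h2 := key_deg_erase hne hadj v
      rw [hdeg v] at h2
      have h4 : (deg (Z.erase s(x, y)) v : ℤ) = d v := by
        rw [h2]; ring
      exact_mod_cast h4
    · have := key_sd_erase Z s(x, y)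
      omega
  · by_cases hex : ∃ y' x' : V, s(x, y') ∈ Z ∧ s(y, x') ∈ Z ∧ x' ≠ y' ∧ s(x', y') ∉ Z
    · obtain ⟨y', x', h1, h2, h3, h4⟩ := hex
      have hxy' : x ≠ y' := by
        rintro rfl
        exact hZ x h1
      have hyx' : y ≠ x' := by
        rintro rfl
        exact hZ y h2
      have hne2 : s(y, x') ≠ s(x, y') := by
        intro h
        rcases Sym2.eq_iff.mp h with ⟨_, h5⟩ | ⟨h5, h6⟩
        · exact h3 h5
        · apply hadj
          rw [h5]
          exact h1
      have m2 : s(y, x') ∈ Z.erase s(x, y') := mem_erase.mpr ⟨hne2, h2⟩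
      have m3 : s(x', y') ∉ (Z.erase s(x, y')).erase s(y, x') :=
        fun h => h4 (mem_of_mem_erase (mem_of_mem_erase h))
      refine ⟨insert s(x', y') ((Z.erase s(x, y')).erase s(y, x')),
        mem_Om.mpr ⟨?_, fun v => ?_⟩, ?_⟩
      · exact key_loopless_insert h3 (key_loopless_erase (key_loopless_erase hZ))
      · have e1 := key_deg_insert h3 m3 v
        have e2 := key_deg_erase hyx' m2 v
        have e3 := key_deg_erase hxy' h1 v
        rw [e2, e3, hdeg v] at e1
        have e4 : (deg (insert s(x', y') ((Z.erase s(x, y')).erase s(y, x'))) v : ℤ) = d v := by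
          rw [e1]; ring
        exact_mod_cast e4
      · have t1 := key_sd_trans Z (Z.erase s(x, y')) ((Z.erase s(x, y')).erase s(y, x'))
        have t2 := key_sd_trans Z ((Z.erase s(x, y')).erase s(y, x'))
          (insert s(x', y') ((Z.erase s(x, y')).erase s(y, x')))
        have t3 := key_sd_erase Z s(x, y')
        have t4 := key_sd_erase (Z.erase s(x, y')) s(y, x')
        have t5 := key_sd_insert ((Z.erase s(x, y')).erase s(y, x')) s(x', y')
        omega
    · exfalso
      push Not at hex
      have hsub : nbr Z x ⊆ univ.filter (fun z => d y < d z) := by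
        intro z hz
        rw [key_mem_nbr] at hz
        have hzx : z ≠ x := by
          rintro rfl
          exact hZ z hz
        have hzy : z ≠ y := by
          rintro rfl
          exact hadj hz
        have hxN : x ∉ (nbr Z y).erase z := by
          intro h
          apply hadj
          rw [Sym2.eq_swap]
          exact key_mem_nbr.mp (mem_of_mem_erase h)
        have hsub2 : insert x ((nbr Z y).erase z) ⊆ nbr Z z := by
          intro u hu
          rw [key_mem_nbr]
          rcases mem_insert.mp hu with rfl | hu
          · rw [Sym2.eq_swap]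
            exact hz
          · rw [mem_erase, key_mem_nbr] at hu
            have := hex z u hz hu.2 hu.1
            rw [Sym2.eq_swap]
            exact this
        have hc := card_le_card hsub2
        rw [card_insert_of_notMem hxN] at hc
        have hc2 := pred_card_le_card_erase (s := nbr Z y) (a := z)
        have hy := hdeg y
        have hz2 := hdeg z
        simp only [if_neg hzx, if_neg hzy] at hz2
        simp only [if_true] at hy
        rw [mem_filter]
        refine ⟨mem_univ _, ?_⟩
        unfold deg at hy hz2
        split_ifs at hy <;> omega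
      have hc := card_le_card hsub
      have hx := hdeg x
      simp only [if_true] at hx
      unfold deg at hx
      unfold cc at hxy
      split_ifs at hx <;> omega

/-- adding two half-edges -/
theorem key_add (d : V → ℕ) (x y : V) (hxy : d y ≤ cc d x)
    (Z : Finset (Sym2 V)) (hZ : Loopless Z)
    (hdeg : ∀ v, (deg Z v : ℤ) = d v - (if v = x then 1 else 0) - (if v = y then 1 else 0)) :
    ∃ Z' ∈ Om d, (symmDiff Z Z').card ≤ 3 := by
  by_cases hadj : x ≠ y ∧ s(x, y) ∉ Z
  · obtain ⟨hne, hadj⟩ := hadj
    refine ⟨insert s(x, y) Z, mem_Om.mpr ⟨key_loopless_insert hne hZ, fun v => ?_⟩, ?_⟩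
    · have h2 := key_deg_insert hne hadj v
      rw [hdeg v] at h2
      have h4 : (deg (insert s(x, y) Z) v : ℤ) = d v := by
        rw [h2]; ring
      exact_mod_cast h4
    · have := key_sd_insert Z s(x, y)
      omega
  · by_cases hex : ∃ y' x' : V, x ≠ y' ∧ s(x, y') ∉ Z ∧ y ≠ x' ∧ s(y, x') ∉ Z ∧ s(x', y') ∈ Z
    · obtain ⟨y', x', hxy', h1, hyx', h2, h4⟩ := hex
      have h3 : x' ≠ y' := by
        rintro rfl
        exact hZ x' h4
      have hne2 : s(y, x') ≠ s(x, y') := by
        intro h
        rcases Sym2.eq_iff.mp h with ⟨_, h5⟩ | ⟨h5, h6⟩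
        · exact h3 h5
        · apply hadj
          rw [h5]
          exact ⟨hxy', h1⟩
      have m2 : s(y, x') ∉ insert s(x, y') Z := by
        rw [mem_insert, not_or]
        exact ⟨hne2, h2⟩
      have m3 : s(x', y') ∈ insert s(y, x') (insert s(x, y') Z) :=
        mem_insert_of_mem (mem_insert_of_mem h4)
      refine ⟨(insert s(y, x') (insert s(x, y') Z)).erase s(x', y'),
        mem_Om.mpr ⟨?_, fun v => ?_⟩, ?_⟩
      · exact key_loopless_erase (key_loopless_insert hyx' (key_loopless_insert hxy' hZ))
      · have e1 := key_deg_erase h3 m3 v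
        have e2 := key_deg_insert hyx' m2 v
        have e3 := key_deg_insert hxy' h1 v
        rw [e2, e3, hdeg v] at e1
        have e4 : (deg ((insert s(y, x') (insert s(x, y') Z)).erase s(x', y')) v : ℤ) = d v := by
          rw [e1]; ring
        exact_mod_cast e4
      · have t1 := key_sd_trans Z (insert s(x, y') Z) (insert s(y, x') (insert s(x, y') Z))
        have t2 := key_sd_trans Z (insert s(y, x') (insert s(x, y') Z))
          ((insert s(y, x') (insert s(x, y') Z)).erase s(x', y'))
        have t3 := key_sd_insert Z s(x, y')
        have t4 := key_sd_insert (insert s(x, y') Z) s(y, x')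
        have t5 := key_sd_erase (insert s(y, x') (insert s(x, y') Z)) s(x', y')
        omega
    · exfalso
      push Not at hex
      have hxmem : x ∈ insert y (nbr Z y) := by
        rw [mem_insert, key_mem_nbr]
        by_cases h : x = y
        · exact Or.inl h
        · right
          by_contra h2
          apply hadj
          refine ⟨h, fun h3 => h2 ?_⟩
          rw [Sym2.eq_swap]
          exact h3
      have hsub : univ.filter (fun z => d x < d z) ⊆ (insert y (nbr Z y)).erase x := by
        intro z hz
        rw [mem_filter] at hz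
        rw [mem_erase]
        have hzx : z ≠ x := by
          rintro rfl
          exact lt_irrefl _ hz.2
        refine ⟨hzx, ?_⟩
        by_contra hcon
        rw [mem_insert, not_or, key_mem_nbr] at hcon
        obtain ⟨hzy, hyz⟩ := hcon
        have hsub2 : nbr Z z ⊆ insert x (nbr Z x) := by
          intro u hu
          rw [key_mem_nbr] at hu
          rw [mem_insert, key_mem_nbr]
          by_contra h5
          rw [not_or] at h5
          exact hex u z (fun h => h5.1 h.symm) h5.2 (fun h => hzy h.symm) hyz hu
        have hc := card_le_card hsub2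
        have hc2 := card_insert_le x (nbr Z x)
        have hx := hdeg x
        have hz2 := hdeg z
        simp only [if_neg hzx, if_neg hzy] at hz2
        simp only [if_true] at hx
        unfold deg at hx hz2
        have hz3 := hz.2
        split_ifs at hx <;> omega
      have hc := card_le_card hsub
      rw [card_erase_of_mem hxmem] at hc
      have hc2 := card_insert_le y (nbr Z y)
      have hy := hdeg y
      simp only [if_true] at hy
      unfold deg at hy
      unfold cc at hxy
      split_ifs at hy <;> omega

omit [DecidableEq V] in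
theorem key_cc {d : V → ℕ} {x y : V} (h : cc d y ≤ cc d x) : d x ≤ d y := by
  by_contra hlt
  push Not at hlt
  have hss : univ.filter (fun z => d x < d z) ⊂ univ.filter (fun z => d y < d z) := by
    rw [ssubset_iff_of_subset]
    · exact ⟨x, by simp [hlt], by simp⟩
    · intro z hz
      simp only [mem_filter, mem_univ, true_and] at *
      omega
  have := card_lt_card hss
  unfold cc at h
  omega

theorem key_sg_true : sg true = 1 := rfl

theorem key_sg_false : sg false = -1 := rfl

theorem key_lemma (d : V → ℕ) (x y : V) (s t : Bool) (h : ht d y t ≤ ht d x s)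
    (Z : Finset (Sym2 V)) (hZ : Loopless Z)
    (hdeg : ∀ v, (deg Z v : ℤ) = d v + (if v = x then sg s else 0) - (if v = y then sg t else 0)) :
    ∃ Z' ∈ Om d, (symmDiff Z Z').card ≤ 3 := by
  cases s <;> cases t
  · -- both signs minus
    have h1 : d x ≤ d y := key_cc (by simpa [ht] using h)
    refine key_move d y x h1 Z hZ (fun v => ?_)
    rw [hdeg v, key_sg_false]
    split_ifs <;> ring
  · -- minus and plus
    refine key_add d x y (by simpa [ht] using h) Z hZ (fun v => ?_)
    rw [hdeg v, key_sg_false, key_sg_true]
    split_ifs <;> ring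
  · -- plus and minus
    refine key_remove d x y (by simpa [ht] using h) Z hZ (fun v => ?_)
    rw [hdeg v, key_sg_false, key_sg_true]
    split_ifs <;> ring
  · -- both signs plus
    refine key_move d x y (by simpa [ht] using h) Z hZ (fun v => ?_)
    rw [hdeg v, key_sg_true]

end

end Vale.Agent.P335
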