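import Vale.Agent.Lib.P335.Basic

/-!
# P335: discrete mountain climbing

Two integer valued paths `L 0, ..., L p` and `R 0, ..., R q` with the same lowest starting value
and the same highest end value, and with disjoint sets of interior values, can be climbed
simultaneously.  The proof is the parity (handshake) argument on the grid of pairs of steps.
-/

namespace Vale.Agent.P335

section Mountain

/-- indicator with values in `ZMod 2` -/
noncomputable def mtI (P : Prop) : ZMod 2 := @ite _ P (Classical.propDecidable P) 1 0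

theorem mtI_pos {P : Prop} (h : P) : mtI P = 1 := if_pos h

theorem mtI_neg {P : Prop} (h : ¬ P) : mtI P = 0 := if_neg h

/-- For two pairs of numbers without a common element the number of crossings is even. -/
theorem btw_parity (a b c e : ℕ) (h1 : a ≠ c) (h2 : a ≠ e) (h3 : b ≠ c) (h4 : b ≠ e) :
    mtI (Btw c e b) + mtI (Btw c e a) + (mtI (Btw a b e) + mtI (Btw a b c)) = 0 := by
  unfold mtI Btw
  split_ifs <;> first | rfl | (exfalso; omega)

theorem shift_sum (P : ℕ) (e t : ℕ → ZMod 2) (he : e P = 0)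
    (hte : ∀ i, t i * e i = t (i + 1) * e i) :
    ∑ i ∈ Finset.range (P + 1), t i * (e i + if i = 0 then 0 else e (i - 1)) = 0 := by
  simp_rw [mul_add]
  rw [Finset.sum_add_distrib, Finset.sum_range_succ (fun i => t i * e i),
    Finset.sum_range_succ' (fun i => t i * if i = 0 then 0 else e (i - 1))]
  simp only [he, mul_zero, add_zero, if_true, Nat.add_eq_zero_iff, one_ne_zero, and_false,
    if_false, Nat.add_sub_cancel]
  rw [← Finset.sum_add_distrib]
  refine Finset.sum_eq_zero fun i _ => ?_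
  rw [← hte i]
  exact CharTwo.add_self_eq_zero _

theorem shift_sum2 (P Q : ℕ) (e f t : ℕ → ℕ → ZMod 2) (he : ∀ j, e P j = 0)
    (hf : ∀ i, f i Q = 0) (hte : ∀ i j, t i j * e i j = t (i + 1) j * e i j)
    (htf : ∀ i j, t i j * f i j = t i (j + 1) * f i j) :
    ∑ i ∈ Finset.range (P + 1), ∑ j ∈ Finset.range (Q + 1),
      t i j * ((e i j + if i = 0 then 0 else e (i - 1) j) +
        (f i j + if j = 0 then 0 else f i (j - 1))) = 0 := by
  have h1 : ∑ i ∈ Finset.range (P + 1), ∑ j ∈ Finset.range (Q + 1),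
      t i j * (e i j + if i = 0 then 0 else e (i - 1) j) = 0 := by
    rw [Finset.sum_comm]
    exact Finset.sum_eq_zero fun j _ =>
      shift_sum P (fun i => e i j) (fun i => t i j) (he j) (fun i => hte i j)
  have h2 : ∑ i ∈ Finset.range (P + 1), ∑ j ∈ Finset.range (Q + 1),
      t i j * (f i j + if j = 0 then 0 else f i (j - 1)) = 0 :=
    Finset.sum_eq_zero fun i _ =>
      shift_sum Q (fun j => f i j) (fun j => t i j) (hf i) (fun j => htf i j)
  calc _ = ∑ i ∈ Finset.range (P + 1), ∑ j ∈ Finset.range (Q + 1),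
        t i j * (e i j + if i = 0 then 0 else e (i - 1) j) +
      ∑ i ∈ Finset.range (P + 1), ∑ j ∈ Finset.range (Q + 1),
        t i j * (f i j + if j = 0 then 0 else f i (j - 1)) := by
        rw [← Finset.sum_add_distrib]
        refine Finset.sum_congr rfl fun i _ => ?_
        rw [← Finset.sum_add_distrib]
        refine Finset.sum_congr rfl fun j _ => ?_
        ring
    _ = 0 := by rw [h1, h2, add_zero]

/-- elementary steps of the grid -/
def mtStep (p q : ℕ) (L R : ℕ → ℕ) (u v : Fin p × Fin q) : Prop :=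
  (u.1.val + 1 = v.1.val ∧ u.2 = v.2 ∧ Btw (R u.2.val) (R (u.2.val + 1)) (L v.1.val)) ∨
  (u.1 = v.1 ∧ u.2.val + 1 = v.2.val ∧ Btw (L u.1.val) (L (u.1.val + 1)) (R v.2.val))

/-- the graph of elementary steps -/
def mtGraph (p q : ℕ) (L R : ℕ → ℕ) : SimpleGraph (Fin p × Fin q) :=
  SimpleGraph.fromRel (mtStep p q L R)

theorem mtStep_adj {p q : ℕ} {L R : ℕ → ℕ} {u v : Fin p × Fin q} (h : mtStep p q L R u v) :
    (mtGraph p q L R).Adj u v := by
  rw [mtGraph, SimpleGraph.fromRel_adj]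
  refine ⟨?_, Or.inl h⟩
  rintro rfl
  rcases h with ⟨h, _⟩ | ⟨_, h, _⟩ <;> omega

theorem mt_reachable (P Q : ℕ) (L R : ℕ → ℕ)
    (h0 : L 0 = R 0) (h1 : L (P + 1) = R (Q + 1)) (hlt : L 0 < L (P + 1))
    (hL : ∀ i, 0 < i → i < P + 1 → L 0 < L i ∧ L i < L (P + 1))
    (hR : ∀ j, 0 < j → j < Q + 1 → R 0 < R j ∧ R j < R (Q + 1))
    (hne : ∀ i j, 0 < i → i < P + 1 → 0 < j → j < Q + 1 → L i ≠ R j) :
    (mtGraph (P + 1) (Q + 1) L R).Reachable (0, 0) (Fin.last P, Fin.last Q) := by
  by_contra hcon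
  set G := mtGraph (P + 1) (Q + 1) L R with hG
  set t : ℕ → ℕ → ZMod 2 := fun i j =>
    mtI (∃ (hi : i < P + 1) (hj : j < Q + 1), G.Reachable (0, 0) (⟨i, hi⟩, ⟨j, hj⟩)) with ht
  set e : ℕ → ℕ → ZMod 2 := fun i j =>
    mtI (i + 1 < P + 1 ∧ j < Q + 1 ∧ Btw (R j) (R (j + 1)) (L (i + 1))) with he
  set f : ℕ → ℕ → ZMod 2 := fun i j =>
    mtI (i < P + 1 ∧ j + 1 < Q + 1 ∧ Btw (L i) (L (i + 1)) (R (j + 1))) with hf
  have heP : ∀ j, e P j = 0 := fun j => mtI_neg (by omega)
  have hfQ : ∀ i, f i Q = 0 := fun i => mtI_neg (by omega)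
  have hte : ∀ i j, t i j * e i j = t (i + 1) j * e i j := by
    intro i j
    by_cases hc : i + 1 < P + 1 ∧ j < Q + 1 ∧ Btw (R j) (R (j + 1)) (L (i + 1))
    · have hadj : G.Adj (⟨i, by omega⟩, ⟨j, hc.2.1⟩) (⟨i + 1, hc.1⟩, ⟨j, hc.2.1⟩) :=
        mtStep_adj (Or.inl ⟨rfl, rfl, hc.2.2⟩)
      have hiff : (∃ (hi : i < P + 1) (hj : j < Q + 1),
          G.Reachable (0, 0) (⟨i, hi⟩, ⟨j, hj⟩)) ↔
          (∃ (hi : i + 1 < P + 1) (hj : j < Q + 1),
          G.Reachable (0, 0) (⟨i + 1, hi⟩, ⟨j, hj⟩)) := by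
        constructor
        · rintro ⟨_, _, hr⟩
          exact ⟨hc.1, hc.2.1, hr.trans hadj.reachable⟩
        · rintro ⟨_, _, hr⟩
          exact ⟨by omega, hc.2.1, hr.trans hadj.symm.reachable⟩
      simp only [ht]
      rw [propext hiff]
    · have : e i j = 0 := mtI_neg hc
      rw [this, mul_zero, mul_zero]
  have htf : ∀ i j, t i j * f i j = t i (j + 1) * f i j := by
    intro i j
    by_cases hc : i < P + 1 ∧ j + 1 < Q + 1 ∧ Btw (L i) (L (i + 1)) (R (j + 1))
    · have hadj : G.Adj (⟨i, hc.1⟩, ⟨j, by omega⟩) (⟨i, hc.1⟩, ⟨j + 1, hc.2.1⟩) :=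
        mtStep_adj (Or.inr ⟨rfl, rfl, hc.2.2⟩)
      have hiff : (∃ (hi : i < P + 1) (hj : j < Q + 1),
          G.Reachable (0, 0) (⟨i, hi⟩, ⟨j, hj⟩)) ↔
          (∃ (hi : i < P + 1) (hj : j + 1 < Q + 1),
          G.Reachable (0, 0) (⟨i, hi⟩, ⟨j + 1, hj⟩)) := by
        constructor
        · rintro ⟨_, _, hr⟩
          exact ⟨hc.1, hc.2.1, hr.trans hadj.reachable⟩
        · rintro ⟨_, _, hr⟩
          exact ⟨hc.1, by omega, hr.trans hadj.symm.reachable⟩
      simp only [ht]
      rw [propext hiff]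
    · have : f i j = 0 := mtI_neg hc
      rw [this, mul_zero, mul_zero]
  have hsum := shift_sum2 P Q e f t heP hfQ hte htf
  -- values on the grid
  have hLlt : ∀ i, 0 < i → i ≤ P + 1 → L 0 < L i := by
    intro i hi hi'
    rcases Nat.lt_or_ge i (P + 1) with h | h
    · exact (hL i hi h).1
    · obtain rfl : i = P + 1 := by omega
      exact hlt
  have hRlt : ∀ j, 0 < j → j ≤ Q + 1 → R 0 < R j := by
    intro j hj hj'
    rcases Nat.lt_or_ge j (Q + 1) with h | h
    · exact (hR j hj h).1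
    · obtain rfl : j = Q + 1 := by omega
      rw [← h0, ← h1]; exact hlt
  have hLtop : ∀ i, i < P + 1 → L i < L (P + 1) := by
    intro i hi
    rcases Nat.eq_zero_or_pos i with rfl | h
    · exact hlt
    · exact (hL i h hi).2
  have hRtop : ∀ j, j < Q + 1 → R j < R (Q + 1) := by
    intro j hj
    rcases Nat.eq_zero_or_pos j with rfl | h
    · rw [← h0, ← h1]; exact hlt
    · exact (hR j h hj).2
  have hLle : ∀ i, i ≤ P + 1 → L i ≤ L (P + 1) := by
    intro i hi
    rcases Nat.lt_or_ge i (P + 1) with h | h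
    · exact (hLtop i h).le
    · obtain rfl : i = P + 1 := by omega
      exact le_rfl
  have hRle : ∀ j, j ≤ Q + 1 → R j ≤ R (Q + 1) := by
    intro j hj
    rcases Nat.lt_or_ge j (Q + 1) with h | h
    · exact (hRtop j h).le
    · obtain rfl : j = Q + 1 := by omega
      exact le_rfl
  have hLge : ∀ i, i ≤ P + 1 → L 0 ≤ L i := by
    intro i hi
    rcases Nat.eq_zero_or_pos i with rfl | h
    · exact le_rfl
    · exact (hLlt i h hi).le
  have hRge : ∀ j, j ≤ Q + 1 → R 0 ≤ R j := by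
    intro j hj
    rcases Nat.eq_zero_or_pos j with rfl | h
    · exact le_rfl
    · exact (hRlt j h hj).le
  -- distinctness of values
  have hne' : ∀ i j, i ≤ P + 1 → j ≤ Q + 1 → ¬ (i = 0 ∧ j = 0) → ¬ (i = P + 1 ∧ j = Q + 1) →
      L i ≠ R j := by
    intro i j hi hj hn0 hn1
    rcases Nat.eq_zero_or_pos i with rfl | hi0
    · have hj0 : 0 < j := by omega
      have := hRlt j hj0 hj
      omega
    · rcases Nat.eq_zero_or_pos j with rfl | hj0
      · have := hLlt i hi0 hi
        omega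
      · rcases Nat.lt_or_ge i (P + 1) with h | h
        · rcases Nat.lt_or_ge j (Q + 1) with h' | h'
          · exact hne i j hi0 h hj0 h'
          · obtain rfl : j = Q + 1 := by omega
            have := hLtop i h
            omega
        · obtain rfl : i = P + 1 := by omega
          have hj' : j < Q + 1 := by omega
          have := hRtop j hj'
          omega
  -- the local degree
  have heq : ∀ i j, i < P + 1 → j < Q + 1 → e i j = mtI (Btw (R j) (R (j + 1)) (L (i + 1))) := by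
    intro i j hi hj
    rcases Nat.lt_or_ge (i + 1) (P + 1) with h | h
    · simp only [he]
      congr 1
      exact propext ⟨fun hh => hh.2.2, fun hh => ⟨h, hj, hh⟩⟩
    · obtain rfl : i = P := by omega
      rw [heP j, mtI_neg]
      unfold Btw
      have := hRle j hj.le
      have := hRle (j + 1) hj
      omega
  have heq' : ∀ i j, i < P + 1 → j < Q + 1 → (if i = 0 then 0 else e (i - 1) j) =
      mtI (Btw (R j) (R (j + 1)) (L i)) := by
    intro i j hi hj
    rcases Nat.eq_zero_or_pos i with rfl | hi0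
    · rw [if_pos rfl, mtI_neg]
      unfold Btw
      have := hRge j hj.le
      have := hRge (j + 1) hj
      omega
    · rw [if_neg (by omega), heq (i - 1) j (by omega) hj, Nat.sub_add_cancel hi0]
  have hfq : ∀ i j, i < P + 1 → j < Q + 1 → f i j = mtI (Btw (L i) (L (i + 1)) (R (j + 1))) := by
    intro i j hi hj
    rcases Nat.lt_or_ge (j + 1) (Q + 1) with h | h
    · simp only [hf]
      congr 1
      exact propext ⟨fun hh => hh.2.2, fun hh => ⟨hi, h, hh⟩⟩
    · obtain rfl : j = Q := by omega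
      rw [hfQ i, mtI_neg]
      unfold Btw
      have := hLle i hi.le
      have := hLle (i + 1) hi
      omega
  have hfq' : ∀ i j, i < P + 1 → j < Q + 1 → (if j = 0 then 0 else f i (j - 1)) =
      mtI (Btw (L i) (L (i + 1)) (R j)) := by
    intro i j hi hj
    rcases Nat.eq_zero_or_pos j with rfl | hj0
    · rw [if_pos rfl, mtI_neg]
      unfold Btw
      have := hLge i hi.le
      have := hLge (i + 1) hi
      omega
    · rw [if_neg (by omega), hfq i (j - 1) hi (by omega), Nat.sub_add_cancel hj0]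
  have hPQ : ¬ (P = 0 ∧ Q = 0) := by
    rintro ⟨rfl, rfl⟩
    exact hcon (SimpleGraph.Reachable.refl _)
  have hzero : ∀ i j, i < P + 1 → j < Q + 1 → ¬ (i = 0 ∧ j = 0) →
      t i j * ((e i j + if i = 0 then 0 else e (i - 1) j) +
        (f i j + if j = 0 then 0 else f i (j - 1))) = 0 := by
    intro i j hi hj hij
    by_cases hlast : i = P ∧ j = Q
    · obtain ⟨rfl, rfl⟩ := hlast
      have : t i j = 0 := mtI_neg (by
        rintro ⟨_, _, hr⟩
        exact hcon hr)
      rw [this, zero_mul]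
    · rw [heq i j hi hj, heq' i j hi hj, hfq i j hi hj, hfq' i j hi hj,
        btw_parity (L i) (L (i + 1)) (R j) (R (j + 1)), mul_zero]
      · exact hne' i j hi.le hj.le hij (by omega)
      · exact hne' i (j + 1) hi.le hj (by omega) (by omega)
      · exact hne' (i + 1) j hi hj.le (by omega) (by omega)
      · exact hne' (i + 1) (j + 1) hi hj (by omega) (by omega)
  have hone : t 0 0 * ((e 0 0 + if (0 : ℕ) = 0 then 0 else e (0 - 1) 0) +
        (f 0 0 + if (0 : ℕ) = 0 then 0 else f 0 (0 - 1))) = 1 := by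
    have ht0 : t 0 0 = 1 := mtI_pos ⟨Nat.succ_pos _, Nat.succ_pos _, SimpleGraph.Reachable.refl _⟩
    rw [heq' 0 0 (Nat.succ_pos _) (Nat.succ_pos _), hfq' 0 0 (Nat.succ_pos _) (Nat.succ_pos _),
      ht0, heq 0 0 (Nat.succ_pos _) (Nat.succ_pos _), hfq 0 0 (Nat.succ_pos _) (Nat.succ_pos _)]
    have q1 := hLlt (0 + 1) (by omega) (by omega)
    have q2 := hRlt (0 + 1) (by omega) (by omega)
    have q3 := hne' (0 + 1) (0 + 1) (by omega) (by omega) (by omega) (by omega)
    unfold mtI Btw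
    split_ifs <;> first | rfl | (exfalso; omega)
  have hsum1 : ∑ i ∈ Finset.range (P + 1), ∑ j ∈ Finset.range (Q + 1),
      t i j * ((e i j + if i = 0 then 0 else e (i - 1) j) +
        (f i j + if j = 0 then 0 else f i (j - 1))) = 1 := by
    rw [Finset.sum_eq_single 0, Finset.sum_eq_single 0]
    · exact hone
    · intro j hj hj0
      exact hzero 0 j (Nat.succ_pos _) (Finset.mem_range.1 hj) (by omega)
    · intro h
      exact absurd (Finset.mem_range.2 (Nat.succ_pos _)) h
    · intro i hi hi0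
      exact Finset.sum_eq_zero fun j hj =>
        hzero i j (Finset.mem_range.1 hi) (Finset.mem_range.1 hj) (by omega)
    · intro h
      exact absurd (Finset.mem_range.2 (Nat.succ_pos _)) h
  rw [hsum] at hsum1
  exact absurd hsum1 (by decide)

/-- Discrete mountain climbing, in the form of a telescoping estimate. -/
theorem mountain (p q : ℕ) (hp : 0 < p) (hq : 0 < q) (L R : ℕ → ℕ)
    (h0 : L 0 = R 0) (h1 : L p = R q) (hlt : L 0 < L p)
    (hL : ∀ i, 0 < i → i < p → L 0 < L i ∧ L i < L p)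
    (hR : ∀ j, 0 < j → j < q → R 0 < R j ∧ R j < R q)
    (hne : ∀ i j, 0 < i → i < p → 0 < j → j < q → L i ≠ R j)
    (g : ℕ → ℕ → ℝ) (B : ℝ) (hB : 0 ≤ B)
    (hs1 : ∀ i j, i + 1 < p → j < q → Btw (R j) (R (j + 1)) (L (i + 1)) →
      |g i j - g (i + 1) j| ≤ B)
    (hs2 : ∀ i j, i < p → j + 1 < q → Btw (L i) (L (i + 1)) (R (j + 1)) →
      |g i j - g i (j + 1)| ≤ B) :
    |g 0 0 - g (p - 1) (q - 1)| ≤ p * q * B := by
  obtain ⟨P, rfl⟩ : ∃ P, p = P + 1 := ⟨p - 1, by omega⟩
  obtain ⟨Q, rfl⟩ : ∃ Q, q = Q + 1 := ⟨q - 1, by omega⟩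
  have hreach := mt_reachable P Q L R h0 h1 hlt hL hR hne
  set G := mtGraph (P + 1) (Q + 1) L R with hG
  have hstep : ∀ u v : Fin (P + 1) × Fin (Q + 1), mtStep (P + 1) (Q + 1) L R u v →
      |g u.1.val u.2.val - g v.1.val v.2.val| ≤ B := by
    rintro ⟨u1, u2⟩ ⟨v1, v2⟩ h
    rcases h with ⟨h1, h2, h3⟩ | ⟨h1, h2, h3⟩
    · simp only at h1 h2 h3 ⊢
      subst h2
      rw [← h1] at h3 ⊢
      exact hs1 _ _ (by omega) u2.2 h3
    · simp only at h1 h2 h3 ⊢
      subst h1
      rw [← h2] at h3 ⊢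
      exact hs2 _ _ u1.2 (by omega) h3
  have hadj : ∀ u v : Fin (P + 1) × Fin (Q + 1), G.Adj u v →
      |g u.1.val u.2.val - g v.1.val v.2.val| ≤ B := by
    intro u v h
    rw [hG, mtGraph, SimpleGraph.fromRel_adj] at h
    rcases h.2 with h | h
    · exact hstep u v h
    · rw [abs_sub_comm]
      exact hstep v u h
  have hwalk : ∀ u v : Fin (P + 1) × Fin (Q + 1), ∀ w : G.Walk u v,
      |g u.1.val u.2.val - g v.1.val v.2.val| ≤ w.length * B := by
    intro u v w
    induction w with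
    | nil => simp
    | @cons u v w h p ih =>
      rw [SimpleGraph.Walk.length_cons]
      push_cast
      have h1 := hadj u v h
      have h2 := abs_sub_le (g u.1.val u.2.val) (g v.1.val v.2.val) (g w.1.val w.2.val)
      linarith
  obtain ⟨w⟩ := hreach
  classical
  have h2 := hwalk _ _ w.toPath.1
  have h3 := w.toPath.2.length_lt
  rw [Fintype.card_prod, Fintype.card_fin, Fintype.card_fin] at h3
  have h4 : (w.toPath.1.length : ℝ) ≤ ((P + 1 : ℕ) : ℝ) * ((Q + 1 : ℕ) : ℝ) := by
    exact_mod_cast h3.le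
  have h5 := h2.trans (mul_le_mul_of_nonneg_right h4 hB)
  simpa using h5

end Mountain

end Vale.Agent.P335
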