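import Vale.Agent.Lib.P335.Arc
import Vale.Agent.Lib.P335.Key
import Vale.Agent.Lib.P335.Mountain

/-!
Mountain climbing along a circuit.
-/

namespace Vale.Agent.P335

open Finset Function

section
variable {V : Type} [Fintype V] [DecidableEq V]
variable {H G : Finset (Sym2 V)} {φ : V → V → Bool} {τ : V → V → V}

/-- `Z` is within `r` edges of a realization of `d` -/
def Near (d : V → ℕ) (r : ℕ) (Z : Finset (Sym2 V)) : Prop :=
  ∃ Z' ∈ Om d, (symmDiff Z Z').card ≤ r

/-- flipped set of the node `(i, j)` -/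
def FF (τ : V → V → V) (p : V × V) (i j : ℕ) : Finset (Sym2 V) :=
  arc τ ((bw τ)^[i] p) (i + j)

/-- height of a dart -/
def hd (d : V → ℕ) (G : Finset (Sym2 V)) (p : V × V) : ℕ := ht d p.1 (decide (edge p ∉ G))

theorem sgn_eq (G : Finset (Sym2 V)) (p : V × V) : sgn G p = sg (decide (edge p ∉ G)) := by
  unfold sgn sg
  by_cases c : edge p ∈ G <;> simp [c]

/-- the transition system is compatible with the complementary colouring too -/
theorem trans_symmDiff (h : IsTrans H (col G) τ) : IsTrans H (col (symmDiff G H)) τ := by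
  intro v u
  refine ⟨(h v u).1, (h v u).2.1, fun hu => ⟨((h v u).2.2 hu).1, ?_⟩⟩
  have hcol := ((h v u).2.2 hu).2
  have hu2 : s(v, τ v u) ∈ H := by
    by_contra hn
    have h1 := (h v (τ v u)).2.1 hn
    rw [(h v u).1] at h1
    exact ((h v u).2.2 hu).1 h1.symm
  unfold col at hcol ⊢
  have e1 : ∀ e ∈ H, (e ∈ symmDiff G H ↔ e ∉ G) := by
    intro e he
    rw [mem_symmDiff]
    tauto
  intro hh
  apply hcol
  rw [decide_eq_decide] at hh ⊢
  rw [e1 _ hu, e1 _ hu2] at hh
  tauto

theorem sgn_symmDiff {p : V × V} (hp : edge p ∈ H) : sgn (symmDiff G H) p = - sgn G p := by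
  unfold sgn
  by_cases c : edge p ∈ G
  · have : edge p ∉ symmDiff G H := by rw [mem_symmDiff]; tauto
    simp [c, this]
  · have : edge p ∈ symmDiff G H := by rw [mem_symmDiff]; tauto
    simp [c, this]

theorem near3_left {d : V → ℕ} (hG : G ∈ Om d) (h : IsTrans H (col G) τ) (hH : Loopless H)
    {p : V × V} (hp : edge p ∈ H) {l : ℕ} (hl : l ≤ minimalPeriod (fw τ) p)
    (hle : hd d G ((fw τ)^[l] p) ≤ hd d G p) :
    Near d 3 (symmDiff G (arc τ p l)) := by
  have hG' := mem_Om.1 hG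
  have hloop : Loopless (symmDiff G (arc τ p l)) :=
    loopless_symmDiff hG'.1 (loopless_of_subset (arc_subset h hp l) hH)
  refine key_lemma d p.1 ((fw τ)^[l] p).1 (decide (edge p ∉ G))
    (decide (edge ((fw τ)^[l] p) ∉ G)) hle _ hloop ?_
  intro v
  rw [arc_deg h hH hp hl v, hG'.2 v, sgn_eq, sgn_eq]

theorem near3_right {d : V → ℕ} (hG : symmDiff G H ∈ Om d) (h : IsTrans H (col G) τ)
    (hH : Loopless H)
    {p : V × V} (hp : edge p ∈ H) {l : ℕ} (hl : l ≤ minimalPeriod (fw τ) p)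
    (hle : hd d G p ≤ hd d G ((fw τ)^[l] p)) :
    Near d 3 (symmDiff (symmDiff G H) (arc τ p l)) := by
  have hG' := mem_Om.1 hG
  have hloop : Loopless (symmDiff (symmDiff G H) (arc τ p l)) :=
    loopless_symmDiff hG'.1 (loopless_of_subset (arc_subset h hp l) hH)
  refine key_lemma d ((fw τ)^[l] p).1 p.1 (decide (edge ((fw τ)^[l] p) ∉ G))
    (decide (edge p ∉ G)) hle _ hloop ?_
  intro v
  rw [arc_deg (trans_symmDiff h) hH hp hl v, hG'.2 v, sgn_symmDiff hp,
    sgn_symmDiff (edge_fw_iter_mem h hp l), sgn_eq, sgn_eq]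
  split_ifs <;> ring

theorem fw_iter_add_bw (h : IsTrans H φ τ) (p : V × V) (i j : ℕ) :
    (fw τ)^[i + j] ((bw τ)^[i] p) = (fw τ)^[j] p := by
  rw [add_comm i j, iterate_add_apply, fw_iter_bw_iter h]

theorem FF_zero (p : V × V) : FF τ p 0 0 = ∅ := by
  simp [FF, arc_zero]

theorem FF_succ_right (h : IsTrans H φ τ) (p : V × V) (i j : ℕ) :
    FF τ p i (j + 1) = insert (edge ((fw τ)^[j] p)) (FF τ p i j) := by
  unfold FF
  rw [← add_assoc, arc_succ, fw_iter_add_bw h]

theorem FF_succ_left (h : IsTrans H φ τ) (p : V × V) (i j : ℕ) :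
    FF τ p (i + 1) j = insert (edge ((bw τ)^[i + 1] p)) (FF τ p i j) := by
  unfold FF
  rw [iterate_succ_apply', show i + 1 + j = i + j + 1 by ring, arc_bw h]

theorem card_symmDiff_comm (A B : Finset (Sym2 V)) :
    (symmDiff A B).card = (symmDiff B A).card := by
  rw [symmDiff_comm]

theorem card_symmDiff_triangle (A B C : Finset (Sym2 V)) :
    (symmDiff A C).card ≤ (symmDiff A B).card + (symmDiff B C).card := by
  have : symmDiff A C ⊆ symmDiff A B ∪ symmDiff B C := by
    intro x hx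
    simp only [mem_union, mem_symmDiff] at hx ⊢
    tauto
  exact (card_le_card this).trans (card_union_le _ _)

theorem card_symmDiff_insert (A B : Finset (Sym2 V)) (e : Sym2 V) :
    (symmDiff (symmDiff A B) (symmDiff A (insert e B))).card ≤ 1 := by
  have : symmDiff (symmDiff A B) (symmDiff A (insert e B)) ⊆ {e} := by
    intro x hx
    simp only [mem_insert, mem_symmDiff, mem_singleton] at hx ⊢
    tauto
  simpa using card_le_card this

theorem Near.mono {d : V → ℕ} {r s : ℕ} {Z W : Finset (Sym2 V)} (h : Near d r Z)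
    (hs : (symmDiff W Z).card + r ≤ s) : Near d s W := by
  obtain ⟨Z', hZ', hc⟩ := h
  exact ⟨Z', hZ', (card_symmDiff_triangle W Z Z').trans (by omega)⟩

theorem FF_step_right (h : IsTrans H φ τ) (A : Finset (Sym2 V)) (p : V × V) (i j : ℕ) :
    (symmDiff (symmDiff A (FF τ p i j)) (symmDiff A (FF τ p i (j + 1)))).card ≤ 1 := by
  rw [FF_succ_right h]
  exact card_symmDiff_insert _ _ _

theorem FF_step_left (h : IsTrans H φ τ) (A : Finset (Sym2 V)) (p : V × V) (i j : ℕ) :
    (symmDiff (symmDiff A (FF τ p i j)) (symmDiff A (FF τ p (i + 1) j))).card ≤ 1 := by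
  rw [FF_succ_left h]
  exact card_symmDiff_insert _ _ _

theorem FF_step_two (h : IsTrans H φ τ) (A : Finset (Sym2 V)) (p : V × V) (i j a b : ℕ)
    (ha : a ≤ 1) (hb : b ≤ 1) :
    (symmDiff (symmDiff A (FF τ p i j)) (symmDiff A (FF τ p (i + a) (j + b)))).card ≤ 2 := by
  have h1 : (symmDiff (symmDiff A (FF τ p i j)) (symmDiff A (FF τ p (i + a) j))).card ≤ 1 := by
    rcases Nat.le_one_iff_eq_zero_or_eq_one.1 ha with rfl | rfl
    · simp
    · exact FF_step_left h A p i j
  have h2 : (symmDiff (symmDiff A (FF τ p (i + a) j))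
      (symmDiff A (FF τ p (i + a) (j + b)))).card ≤ 1 := by
    rcases Nat.le_one_iff_eq_zero_or_eq_one.1 hb with rfl | rfl
    · simp
    · exact FF_step_right h A p (i + a) j
  have := card_symmDiff_triangle (symmDiff A (FF τ p i j)) (symmDiff A (FF τ p (i + a) j))
    (symmDiff A (FF τ p (i + a) (j + b)))
  omega

theorem mp_bw_iter (h : IsTrans H φ τ) (p : V × V) (i : ℕ) :
    minimalPeriod (fw τ) ((bw τ)^[i] p) = minimalPeriod (fw τ) p := by
  have h1 := minimalPeriod_apply_iterate (fw_periodic h ((bw τ)^[i] p)) i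
  rw [fw_iter_bw_iter h] at h1
  exact h1.symm

theorem near5_left {d : V → ℕ} (hG : G ∈ Om d) (h : IsTrans H (col G) τ) (hH : Loopless H)
    {p : V × V} (hp : edge p ∈ H) {i j a b : ℕ} (ha : a ≤ 1) (hb : b ≤ 1)
    (hl : i + j + 2 ≤ minimalPeriod (fw τ) p)
    (hle : hd d G ((fw τ)^[j + b] p) ≤ hd d G ((bw τ)^[i + a] p)) :
    Near d 5 (symmDiff G (FF τ p i j)) := by
  have h3 : Near d 3 (symmDiff G (FF τ p (i + a) (j + b))) := by
    unfold FF
    apply near3_left hG h hH (edge_bw_iter_mem h hp _)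
    · rw [mp_bw_iter h]
      omega
    · rw [fw_iter_add_bw h]
      exact hle
  exact h3.mono (by have := FF_step_two h G p i j a b ha hb; omega)

theorem near5_right {d : V → ℕ} (hG : symmDiff G H ∈ Om d) (h : IsTrans H (col G) τ)
    (hH : Loopless H)
    {p : V × V} (hp : edge p ∈ H) {i j a b : ℕ} (ha : a ≤ 1) (hb : b ≤ 1)
    (hl : i + j + 2 ≤ minimalPeriod (fw τ) p)
    (hle : hd d G ((bw τ)^[i + a] p) ≤ hd d G ((fw τ)^[j + b] p)) :
    Near d 5 (symmDiff (symmDiff G H) (FF τ p i j)) := by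
  have h3 : Near d 3 (symmDiff (symmDiff G H) (FF τ p (i + a) (j + b))) := by
    unfold FF
    apply near3_right hG h hH (edge_bw_iter_mem h hp _)
    · rw [mp_bw_iter h]
      omega
    · rw [fw_iter_add_bw h]
      exact hle
  exact h3.mono (by have := FF_step_two h (symmDiff G H) p i j a b ha hb; omega)

end

end Vale.Agent.P335
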