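import Mathlib

/-!
Definitions for the statement of the Kannan-Tetali-Vempala theorem (P335): realizations of a
degree vector, the switch chain, its distance to uniformity and its mixing time.
-/

namespace Vale.Agent.P335

open Finset

open Classical in
/-- `Realization n d` is the set `Ω_d` of all simple graphs on `{0, …, n - 1}` in which the vertex
`v` has degree `d v`. -/
abbrev Realization (n : ℕ) (d : Fin n → ℕ) : Type :=
  {G : SimpleGraph (Fin n) // ∀ v, G.degree v = d v}

open Classical in
/-- The perfect matchings of the complete graph on the vertex set `S`: sets `F` of (non-loop)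
pairs of elements of `S` such that every element of `S` lies in exactly one pair of `F`. -/
noncomputable def perfectMatchings {n : ℕ} (S : Finset (Fin n)) :
    Finset (Finset (Sym2 (Fin n))) :=
  univ.filter (fun F => (∀ e ∈ F, ¬ e.IsDiag ∧ ∀ v ∈ e, v ∈ S) ∧
    ∀ v ∈ S, ∃! e : Sym2 (Fin n), e ∈ F ∧ v ∈ e)

open Classical in
/-- If all pairs in `F` are edges of `G` and no pair in `F'` is an edge of `G`, replace `F` by
`F'` in `G`; otherwise keep `G`. -/
noncomputable def switchStep {n : ℕ} (G : SimpleGraph (Fin n)) (F F' : Finset (Sym2 (Fin n))) :
    SimpleGraph (Fin n) :=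
  if (∀ e ∈ F, e ∈ G.edgeSet) ∧ (∀ e ∈ F', e ∉ G.edgeSet) then
    SimpleGraph.fromEdgeSet ((G.edgeSet \ (F : Set (Sym2 (Fin n)))) ∪ (F' : Set (Sym2 (Fin n))))
  else G

open Classical in
/-- The transition matrix of the switch chain: with probability `1/2` stay put; otherwise choose
a `4`-element set `S` of vertices uniformly, then choose uniformly one of the six ordered pairs
`(F, F')` of distinct perfect matchings of `S`, and go to `switchStep G F F'`. -/
noncomputable def switchChain (n : ℕ) (d : Fin n → ℕ) :
    Matrix (Realization n d) (Realization n d) ℝ :=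
  fun G G' => (1 / 2) * (if G = G' then 1 else 0) +
    (1 / 2) * ∑ S ∈ powersetCard 4 (univ : Finset (Fin n)), (1 / (n.choose 4 : ℝ)) *
      ∑ F ∈ (perfectMatchings S).offDiag, (1 / 6) *
        (if switchStep G.1 F.1 F.2 = G'.1 then 1 else 0)

open Classical in
/-- The total variation distance between the distribution of the switch chain after `t` steps
started at `G` and the uniform distribution on `Ω_d`. -/
noncomputable def tvDist (n : ℕ) (d : Fin n → ℕ) (t : ℕ) (G : Realization n d) : ℝ :=
  (1 / 2) * ∑ G' : Realization n d,
    |(switchChain n d ^ t) G G' - 1 / (Fintype.card (Realization n d) : ℝ)|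

/-- The mixing time: the least `t` such that the total variation distance after `t` steps is at
most `1/4` from every starting state. -/
noncomputable def tmix (n : ℕ) (d : Fin n → ℕ) : ℕ :=
  sInf {t : ℕ | ∀ G : Realization n d, tvDist n d t G ≤ 1 / 4}

end Vale.Agent.P335
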