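import Mathlib
import Vale.Agent.Lib.P335.Defs
import Vale.Agent.Lib.P335.Basic

/-!
P335: dictionary between realizations (simple graphs) and edge sets, and a lower bound for the
transition probabilities of the switch chain along a switch.
-/

namespace Vale.Agent.P335

open Finset

/-- J-B -/
noncomputable def es {n : ℕ} (G : SimpleGraph (Fin n)) : Finset (Sym2 (Fin n)) :=
  (Set.toFinite G.edgeSet).toFinset

theorem mem_es {n : ℕ} {G : SimpleGraph (Fin n)} {e : Sym2 (Fin n)} :
    e ∈ es G ↔ e ∈ G.edgeSet := by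
  simp [es]

theorem coe_es {n : ℕ} (G : SimpleGraph (Fin n)) : (es G : Set (Sym2 (Fin n))) = G.edgeSet := by
  ext e
  rw [Finset.mem_coe, mem_es]

theorem es_injective {n : ℕ} : Function.Injective (es (n := n)) := by
  intro G G' h
  apply SimpleGraph.edgeSet_injective
  rw [← coe_es, ← coe_es, h]

theorem es_mem_Om {n : ℕ} {d : Fin n → ℕ} (G : Realization n d) : es G.1 ∈ Om d := by
  classical
  rw [mem_Om]
  constructor
  · intro v hv
    rw [mem_es, SimpleGraph.mem_edgeSet] at hv
    exact G.1.irrefl hv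
  · intro v
    rw [← G.2 v, deg, ← SimpleGraph.card_neighborFinset_eq_degree]
    congr 1
    ext u
    rw [nbr, Finset.mem_filter, SimpleGraph.mem_neighborFinset, mem_es, SimpleGraph.mem_edgeSet]
    simp

theorem es_surj {n : ℕ} {d : Fin n → ℕ} {A : Finset (Sym2 (Fin n))} (hA : A ∈ Om d) :
    ∃ G : Realization n d, es G.1 = A := by
  classical
  rw [mem_Om] at hA
  obtain ⟨hl, hd⟩ := hA
  have hes : es (SimpleGraph.fromEdgeSet (A : Set (Sym2 (Fin n)))) = A := by
    ext e
    rw [mem_es, SimpleGraph.edgeSet_fromEdgeSet, Set.mem_sdiff, Finset.mem_coe]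
    constructor
    · exact fun h => h.1
    · intro h
      refine ⟨h, ?_⟩
      induction e using Sym2.ind with
      | _ x y =>
        intro hxy
        have hxy' : x = y := by simpa using hxy
        subst hxy'
        exact hl x h
  refine ⟨⟨SimpleGraph.fromEdgeSet (A : Set (Sym2 (Fin n))), ?_⟩, hes⟩
  intro v
  rw [← hd v, deg, ← SimpleGraph.card_neighborFinset_eq_degree]
  congr 1
  ext u
  rw [nbr, Finset.mem_filter, SimpleGraph.mem_neighborFinset, ← SimpleGraph.mem_edgeSet, ← mem_es,
    hes]
  simp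

theorem mem_perfectMatchings {n : ℕ} {a b c e : Fin n} (hab : a ≠ b) (hac : a ≠ c) (hae : a ≠ e)
    (hbc : b ≠ c) (hbe : b ≠ e) (hce : c ≠ e) :
    ({s(a, b), s(c, e)} : Finset (Sym2 (Fin n))) ∈ perfectMatchings ({a, b, c, e} : Finset (Fin n)) := by
  classical
  rw [perfectMatchings, Finset.mem_filter]
  refine ⟨Finset.mem_univ _, ?_, ?_⟩
  · intro p hp
    rw [Finset.mem_insert, Finset.mem_singleton] at hp
    rcases hp with rfl | rfl
    · refine ⟨by simpa using hab, ?_⟩
      intro v hv
      rw [Sym2.mem_iff] at hv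
      rcases hv with rfl | rfl <;> simp
    · refine ⟨by simpa using hce, ?_⟩
      intro v hv
      rw [Sym2.mem_iff] at hv
      rcases hv with rfl | rfl <;> simp
  · intro v hv
    simp only [Finset.mem_insert, Finset.mem_singleton] at hv
    rcases hv with rfl | rfl | rfl | rfl
    · refine ⟨s(v, b), ⟨by simp, by simp⟩, ?_⟩
      rintro p ⟨hp, hvp⟩
      rw [Finset.mem_insert, Finset.mem_singleton] at hp
      rcases hp with rfl | rfl
      · rfl
      · rw [Sym2.mem_iff] at hvp
        exact absurd hvp (by push Not; exact ⟨hac, hae⟩)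
    · refine ⟨s(a, v), ⟨by simp, by simp⟩, ?_⟩
      rintro p ⟨hp, hvp⟩
      rw [Finset.mem_insert, Finset.mem_singleton] at hp
      rcases hp with rfl | rfl
      · rfl
      · rw [Sym2.mem_iff] at hvp
        exact absurd hvp (by push Not; exact ⟨hbc, hbe⟩)
    · refine ⟨s(v, e), ⟨by simp, by simp⟩, ?_⟩
      rintro p ⟨hp, hvp⟩
      rw [Finset.mem_insert, Finset.mem_singleton] at hp
      rcases hp with rfl | rfl
      · rw [Sym2.mem_iff] at hvp
        exact absurd hvp (by push Not; exact ⟨hac.symm, hbc.symm⟩)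
      · rfl
    · refine ⟨s(c, v), ⟨by simp, by simp⟩, ?_⟩
      rintro p ⟨hp, hvp⟩
      rw [Finset.mem_insert, Finset.mem_singleton] at hp
      rcases hp with rfl | rfl
      · rw [Sym2.mem_iff] at hvp
        exact absurd hvp (by push Not; exact ⟨hae.symm, hbe.symm⟩)
      · rfl

theorem chain_switch {n : ℕ} (hn : 4 ≤ n) {d : Fin n → ℕ} (G G' : Realization n d)
    (h : SwitchAdj (es G.1) (es G'.1)) :
    1 / (12 * (n.choose 4 : ℝ)) ≤ switchChain n d G G' := by
  classical
  obtain ⟨a, b, c, e, hab, hac, hae, hbc, hbe, hce, h1, h2, h3, h4, h5⟩ := h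
  have hchoose : (0 : ℝ) < (n.choose 4 : ℝ) := by exact_mod_cast Nat.choose_pos hn
  set S : Finset (Fin n) := {a, b, c, e} with hS
  set F : Finset (Sym2 (Fin n)) := {s(a, b), s(c, e)} with hF
  set F' : Finset (Sym2 (Fin n)) := {s(a, c), s(b, e)} with hF'
  have hFS : F ∈ perfectMatchings S := mem_perfectMatchings hab hac hae hbc hbe hce
  have hF'S : F' ∈ perfectMatchings S := by
    have := mem_perfectMatchings (n := n) hac hab hae hbc.symm hce hbe
    have e1 : ({a, c, b, e} : Finset (Fin n)) = S := by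
      rw [hS]; ext x; simp only [Finset.mem_insert, Finset.mem_singleton]; tauto
    rwa [e1] at this
  have hFne : F ≠ F' := by
    intro hEq
    apply h3
    have : s(a, c) ∈ F := by rw [hEq, hF']; simp
    rw [hF, Finset.mem_insert, Finset.mem_singleton] at this
    rcases this with h | h
    · rw [h]; exact h1
    · rw [h]; exact h2
  have hScard : S ∈ powersetCard 4 (univ : Finset (Fin n)) := by
    rw [Finset.mem_powersetCard]
    refine ⟨Finset.subset_univ _, ?_⟩
    rw [hS, Finset.card_insert_of_notMem, Finset.card_insert_of_notMem,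
      Finset.card_insert_of_notMem, Finset.card_singleton]
    · simpa using hce
    · simp only [Finset.mem_insert, Finset.mem_singleton]; push Not; exact ⟨hbc, hbe⟩
    · simp only [Finset.mem_insert, Finset.mem_singleton]; push Not; exact ⟨hab, hac, hae⟩
  have hoff : (F, F') ∈ (perfectMatchings S).offDiag := by
    rw [Finset.mem_offDiag]
    exact ⟨hFS, hF'S, hFne⟩
  have hstep : switchStep G.1 F F' = G'.1 := by
    have hcond : (∀ e ∈ F, e ∈ G.1.edgeSet) ∧ (∀ e ∈ F', e ∉ G.1.edgeSet) := by
      constructor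
      · intro p hp
        rw [hF, Finset.mem_insert, Finset.mem_singleton] at hp
        rcases hp with rfl | rfl
        · exact mem_es.mp h1
        · exact mem_es.mp h2
      · intro p hp hmem
        rw [hF', Finset.mem_insert, Finset.mem_singleton] at hp
        rcases hp with rfl | rfl
        · exact h3 (mem_es.mpr hmem)
        · exact h4 (mem_es.mpr hmem)
    unfold switchStep
    rw [if_pos hcond]
    have e2 : (G.1.edgeSet \ (F : Set (Sym2 (Fin n)))) ∪ (F' : Set (Sym2 (Fin n)))
        = G'.1.edgeSet := by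
      rw [← coe_es G'.1, h5, ← coe_es G.1]
      push_cast
      rfl
    rw [e2, SimpleGraph.fromEdgeSet_edgeSet]
  unfold switchChain
  have hnn1 : (0 : ℝ) ≤ (1 / 2) * (if G = G' then 1 else 0) := by
    split_ifs <;> norm_num
  have hin : (1 / 6 : ℝ) ≤ ∑ F ∈ (perfectMatchings S).offDiag, (1 / 6) *
        (if switchStep G.1 F.1 F.2 = G'.1 then 1 else 0) := by
    have hle := Finset.single_le_sum (f := fun F : Finset (Sym2 (Fin n)) × Finset (Sym2 (Fin n)) =>
      (1 / 6 : ℝ) * (if switchStep G.1 F.1 F.2 = G'.1 then 1 else 0)) (fun F _ => by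
        split_ifs <;> norm_num) hoff
    simp only [hstep, if_true, mul_one] at hle
    exact hle
  have hout : (1 / (n.choose 4 : ℝ)) * (1 / 6 : ℝ) ≤
      ∑ S ∈ powersetCard 4 (univ : Finset (Fin n)), (1 / (n.choose 4 : ℝ)) *
      ∑ F ∈ (perfectMatchings S).offDiag, (1 / 6) *
        (if switchStep G.1 F.1 F.2 = G'.1 then 1 else 0) := by
    have hle := Finset.single_le_sum (f := fun S : Finset (Fin n) => (1 / (n.choose 4 : ℝ)) *
      ∑ F ∈ (perfectMatchings S).offDiag, (1 / 6 : ℝ) *
        (if switchStep G.1 F.1 F.2 = G'.1 then 1 else 0)) (fun S _ => by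
          apply mul_nonneg (by positivity)
          apply Finset.sum_nonneg
          intro F _
          split_ifs <;> norm_num) hScard
    refine le_trans ?_ hle
    exact mul_le_mul_of_nonneg_left hin (by positivity)
  have e3 : 1 / (12 * (n.choose 4 : ℝ)) = (1 / 2) * ((1 / (n.choose 4 : ℝ)) * (1 / 6)) := by
    field_simp
    norm_num
  rw [e3]
  have := mul_le_mul_of_nonneg_left hout (by norm_num : (0 : ℝ) ≤ 1 / 2)
  linarith

end Vale.Agent.P335
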