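import Mathlib

/-!
P335: a Poincare inequality gives a total variation mixing bound for lazy symmetric chains.
-/

namespace Vale.Agent.P335

open Finset

namespace Mixing

variable {Ω : Type} [Fintype Ω]

/-- the Dirichlet form of a symmetric stochastic matrix -/
theorem energy_eq (P : Matrix Ω Ω ℝ)
    (hsymm : ∀ x y, P x y = P y x) (hrow : ∀ x, ∑ y, P x y = 1) (f : Ω → ℝ) :
    ∑ x, ∑ y, P x y * (f x - f y) ^ 2 =
      2 * (∑ x, f x ^ 2 - ∑ x, f x * ∑ y, P x y * f y) := by
  have h1 : ∀ x, ∑ y, P x y * (f x - f y) ^ 2 =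
      f x ^ 2 + ∑ y, P x y * f y ^ 2 - 2 * (f x * ∑ y, P x y * f y) := by
    intro x
    have : ∀ y, P x y * (f x - f y) ^ 2 =
        P x y * f x ^ 2 + P x y * f y ^ 2 - 2 * (f x * (P x y * f y)) := by
      intro y; ring
    simp_rw [this]
    rw [Finset.sum_sub_distrib, Finset.sum_add_distrib, ← Finset.sum_mul, hrow x, one_mul,
      ← Finset.mul_sum, ← Finset.mul_sum]
  simp_rw [h1]
  rw [Finset.sum_sub_distrib, Finset.sum_add_distrib, ← Finset.mul_sum]
  have h2 : ∑ x, ∑ y, P x y * f y ^ 2 = ∑ x, f x ^ 2 := by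
    rw [Finset.sum_comm]
    refine Finset.sum_congr rfl fun y _ => ?_
    rw [← Finset.sum_mul]
    have : ∑ x, P x y = 1 := by
      rw [← hrow y]
      exact Finset.sum_congr rfl fun x _ => hsymm x y
    rw [this, one_mul]
  rw [h2]; ring

/-- pairwise differences of a mean zero function -/
theorem pair_eq (f : Ω → ℝ) (hf : ∑ x, f x = 0) :
    ∑ x, ∑ y, (f x - f y) ^ 2 = 2 * (Fintype.card Ω : ℝ) * ∑ x, f x ^ 2 := by
  have h1 : ∀ x, ∑ y, (f x - f y) ^ 2 =
      (Fintype.card Ω : ℝ) * f x ^ 2 + ∑ y, f y ^ 2 := by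
    intro x
    have : ∀ y, (f x - f y) ^ 2 = f x ^ 2 + f y ^ 2 - 2 * f x * f y := by
      intro y; ring
    simp_rw [this]
    rw [Finset.sum_sub_distrib, Finset.sum_add_distrib, ← Finset.mul_sum, hf]
    simp
  simp_rw [h1]
  rw [Finset.sum_add_distrib, ← Finset.mul_sum]
  simp only [Finset.sum_const, Finset.card_univ, nsmul_eq_mul]
  ring

/-- a symmetric stochastic matrix is a contraction of l2 -/
theorem contract (Q : Matrix Ω Ω ℝ)
    (hsymm : ∀ x y, Q x y = Q y x) (hnn : ∀ x y, 0 ≤ Q x y) (hrow : ∀ x, ∑ y, Q x y = 1)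
    (f : Ω → ℝ) : ∑ x, (∑ y, Q x y * f y) ^ 2 ≤ ∑ x, f x ^ 2 := by
  have h1 : ∀ x, (∑ y, Q x y * f y) ^ 2 ≤ ∑ y, Q x y * f y ^ 2 := by
    intro x
    have h := Finset.sum_sq_le_sum_mul_sum_of_sq_le_mul (s := (Finset.univ : Finset Ω))
      (r := fun y => Q x y * f y) (f := fun y => Q x y) (g := fun y => Q x y * f y ^ 2)
      (fun y _ => hnn x y) (fun y _ => mul_nonneg (hnn x y) (sq_nonneg _))
      (fun y _ => le_of_eq (by ring))
    rwa [hrow x, one_mul] at h
  calc ∑ x, (∑ y, Q x y * f y) ^ 2 ≤ ∑ x, ∑ y, Q x y * f y ^ 2 :=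
        Finset.sum_le_sum fun x _ => h1 x
    _ = ∑ x, f x ^ 2 := by
        rw [Finset.sum_comm]
        refine Finset.sum_congr rfl fun y _ => ?_
        rw [← Finset.sum_mul]
        have : ∑ x, Q x y = 1 := by
          rw [← hrow y]
          exact Finset.sum_congr rfl fun x _ => hsymm x y
        rw [this, one_mul]

/-- for a lazy chain, the square of the operator is dominated by the operator -/
theorem lazy_le [DecidableEq Ω] (P : Matrix Ω Ω ℝ)
    (hsymm : ∀ x y, P x y = P y x) (hnn : ∀ x y, 0 ≤ P x y) (hrow : ∀ x, ∑ y, P x y = 1)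
    (hlazy : ∀ x, 1 / 2 ≤ P x x) (f : Ω → ℝ) :
    ∑ x, (∑ y, P x y * f y) ^ 2 ≤ ∑ x, f x * ∑ y, P x y * f y := by
  have key := contract (fun x y => 2 * P x y - if x = y then 1 else 0)
    (fun x y => by simp only [hsymm x y, eq_comm])
    (fun x y => by
      by_cases h : x = y
      · subst h
        simp only [if_true]
        have := hlazy x
        linarith
      · simp only [h, if_false]
        have := hnn x y
        linarith)
    (fun x => by
      rw [Finset.sum_sub_distrib, ← Finset.mul_sum, hrow x]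
      simp
      norm_num) f
  have h1 : ∀ x, ∑ y, (2 * P x y - if x = y then 1 else 0) * f y =
      2 * ∑ y, P x y * f y - f x := by
    intro x
    have : ∀ y, (2 * P x y - if x = y then 1 else 0) * f y =
        2 * (P x y * f y) - if x = y then f y else 0 := by
      intro y
      split_ifs <;> ring
    simp_rw [this]
    rw [Finset.sum_sub_distrib, ← Finset.mul_sum]
    simp
  simp_rw [h1] at key
  have h2 : ∑ x, (2 * ∑ y, P x y * f y - f x) ^ 2 =
      4 * ∑ x, (∑ y, P x y * f y) ^ 2 - 4 * ∑ x, f x * ∑ y, P x y * f y + ∑ x, f x ^ 2 := by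
    rw [Finset.mul_sum, Finset.mul_sum, ← Finset.sum_sub_distrib, ← Finset.sum_add_distrib]
    refine Finset.sum_congr rfl fun x _ => ?_
    ring
  rw [h2] at key
  linarith

end Mixing

open Mixing in
/-- total variation mixing bound from a Poincare inequality -/
theorem mixing {Ω : Type} [Fintype Ω] [DecidableEq Ω] [Nonempty Ω] (P : Matrix Ω Ω ℝ)
    (hsymm : ∀ x y, P x y = P y x) (hnn : ∀ x y, 0 ≤ P x y) (hrow : ∀ x, ∑ y, P x y = 1)
    (hlazy : ∀ x, 1 / 2 ≤ P x x) (R : ℝ) (hR : 1 ≤ R)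
    (hpoinc : ∀ f : Ω → ℝ, ∑ x, ∑ y, (f x - f y) ^ 2 ≤
      R * (Fintype.card Ω) * ∑ x, ∑ y, P x y * (f x - f y) ^ 2)
    (t : ℕ) (ht : R * Real.log (4 * Fintype.card Ω) ≤ t) (x : Ω) :
    (1 / 2) * ∑ y, |(P ^ t) x y - 1 / (Fintype.card Ω : ℝ)| ≤ 1 / 4 := by
  have hR0 : 0 < R := by linarith
  have hN : 0 < (Fintype.card Ω : ℝ) := by exact_mod_cast Fintype.card_pos
  set N : ℝ := (Fintype.card Ω : ℝ) with hNdef
  -- one step contraction
  have step : ∀ f : Ω → ℝ, ∑ x, f x = 0 →
      ∑ x, (∑ y, P x y * f y) ^ 2 ≤ (1 - 1 / R) * ∑ x, f x ^ 2 := by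
    intro f hf
    have h1 := hpoinc f
    rw [pair_eq f hf, energy_eq P hsymm hrow f] at h1
    have h2 := lazy_le P hsymm hnn hrow hlazy f
    refine h2.trans ?_
    have h3 : ∑ x, f x ^ 2 ≤ R * (∑ x, f x ^ 2 - ∑ x, f x * ∑ y, P x y * f y) := by
      have h4 : 2 * N * ∑ x, f x ^ 2 ≤
          2 * N * (R * (∑ x, f x ^ 2 - ∑ x, f x * ∑ y, P x y * f y)) := by
        calc 2 * N * ∑ x, f x ^ 2 ≤ _ := h1
          _ = _ := by ring
      exact le_of_mul_le_mul_left h4 (by positivity)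
    have h5 : (1 / R) * ∑ x, f x ^ 2 ≤ ∑ x, f x ^ 2 - ∑ x, f x * ∑ y, P x y * f y := by
      rw [one_div, inv_mul_le_iff₀ hR0]
      exact h3
    linarith
  -- iteration
  have mean : ∀ f : Ω → ℝ, ∑ x, f x = 0 → ∑ x, ∑ y, P x y * f y = 0 := by
    intro f hf
    rw [Finset.sum_comm, ← hf]
    refine Finset.sum_congr rfl fun y _ => ?_
    rw [← Finset.sum_mul]
    have : ∑ x, P x y = 1 := by
      rw [← hrow y]
      exact Finset.sum_congr rfl fun x _ => hsymm x y
    rw [this, one_mul]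
  have h1R : 0 ≤ 1 - 1 / R := by
    rw [sub_nonneg, div_le_one hR0]; exact hR
  have iter : ∀ (n : ℕ) (f : Ω → ℝ), ∑ x, f x = 0 →
      ∑ x, ((P ^ n).mulVec f x) ^ 2 ≤ (1 - 1 / R) ^ n * ∑ x, f x ^ 2 := by
    intro n
    induction n with
    | zero => intro f _; simp
    | succ n ih =>
      intro f hf
      have hm : ∀ x, (P ^ (n + 1)).mulVec f x = (P ^ n).mulVec (P.mulVec f) x := by
        intro x
        rw [pow_succ, Matrix.mulVec_mulVec]
      simp_rw [hm]
      have hP : ∀ x, P.mulVec f x = ∑ y, P x y * f y := fun x => rfl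
      have h0 : ∑ x, P.mulVec f x = 0 := by
        simp_rw [hP]; exact mean f hf
      refine (ih (P.mulVec f) h0).trans ?_
      rw [pow_succ, mul_assoc]
      refine mul_le_mul_of_nonneg_left ?_ (pow_nonneg h1R n)
      simp_rw [hP]
      exact step f hf
  -- rows of powers
  have hrowt : ∀ (n : ℕ) (x : Ω), ∑ y, (P ^ n) x y = 1 := by
    intro n
    induction n with
    | zero => intro x; simp [Matrix.one_apply]
    | succ n ih =>
      intro x
      rw [pow_succ]
      simp_rw [Matrix.mul_apply]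
      rw [Finset.sum_comm]
      simp_rw [← Finset.mul_sum, hrow, mul_one]
      exact ih x
  have hPT : P.transpose = P := by
    ext a b
    exact hsymm b a
  have hsymmt : ∀ (n : ℕ) (x y : Ω), (P ^ n) x y = (P ^ n) y x := by
    intro n x y
    have : (P ^ n).transpose = P ^ n := by
      rw [Matrix.transpose_pow, hPT]
    calc (P ^ n) x y = (P ^ n).transpose y x := rfl
      _ = (P ^ n) y x := by rw [this]
  -- the test function
  set g : Ω → ℝ := fun z => (if z = x then 1 else 0) - 1 / N with hg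
  have hg0 : ∑ z, g z = 0 := by
    simp only [hg]
    rw [Finset.sum_sub_distrib]
    simp only [Finset.sum_ite_eq', Finset.mem_univ, if_true, Finset.sum_const,
      Finset.card_univ, nsmul_eq_mul]
    rw [← hNdef]
    field_simp
    ring
  have hg1 : ∑ z, g z ^ 2 ≤ 1 := by
    have h1 : ∀ z, g z ^ 2 = (1 - 1 / N) * (if z = x then 1 else 0) - (1 / N) * g z := by
      intro z
      simp only [hg]
      split_ifs <;> ring
    simp_rw [h1]
    rw [Finset.sum_sub_distrib, ← Finset.mul_sum, ← Finset.mul_sum, hg0]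
    simp only [Finset.sum_ite_eq', Finset.mem_univ, if_true]
    have : 0 ≤ 1 / N := by positivity
    linarith
  have hPg : ∀ y, (P ^ t).mulVec g y = (P ^ t) x y - 1 / N := by
    intro y
    have h1 : (P ^ t).mulVec g y = ∑ z, (P ^ t) y z * g z := rfl
    rw [h1]
    have h2 : ∀ z, (P ^ t) y z * g z =
        (if z = x then (P ^ t) y z else 0) - (P ^ t) y z * (1 / N) := by
      intro z
      simp only [hg]
      split_ifs <;> ring
    simp_rw [h2]
    rw [Finset.sum_sub_distrib, ← Finset.sum_mul, hrowt t y, one_mul]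
    simp only [Finset.sum_ite_eq', Finset.mem_univ, if_true]
    rw [hsymmt t y x]
  have hmain : ∑ y, ((P ^ t) x y - 1 / N) ^ 2 ≤ 1 / (4 * N) := by
    have h1 := iter t g hg0
    simp_rw [hPg] at h1
    refine h1.trans ?_
    have h2 : (1 - 1 / R) ^ t * ∑ z, g z ^ 2 ≤ (1 - 1 / R) ^ t := by
      calc (1 - 1 / R) ^ t * ∑ z, g z ^ 2 ≤ (1 - 1 / R) ^ t * 1 :=
            mul_le_mul_of_nonneg_left hg1 (pow_nonneg h1R t)
        _ = _ := mul_one _
    refine h2.trans ?_
    have h3 : 1 - 1 / R ≤ Real.exp (-(1 / R)) := by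
      have := Real.add_one_le_exp (-(1 / R))
      linarith
    have h4 : (1 - 1 / R) ^ t ≤ Real.exp (-(1 / R)) ^ t := pow_le_pow_left₀ h1R h3 t
    refine h4.trans ?_
    rw [← Real.exp_nat_mul]
    have h5 : (t : ℝ) * -(1 / R) ≤ - Real.log (4 * N) := by
      have : Real.log (4 * N) ≤ t * (1 / R) := by
        rw [mul_one_div, le_div_iff₀ hR0]
        linarith
      linarith
    calc Real.exp ((t : ℝ) * -(1 / R)) ≤ Real.exp (- Real.log (4 * N)) := Real.exp_le_exp.mpr h5
      _ = 1 / (4 * N) := by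
        rw [Real.exp_neg, Real.exp_log (by positivity), one_div]
  have hcs : (∑ y, |(P ^ t) x y - 1 / N|) ^ 2 ≤ N * ∑ y, ((P ^ t) x y - 1 / N) ^ 2 := by
    have h := Finset.sum_mul_sq_le_sq_mul_sq (Finset.univ : Finset Ω) (fun _ => (1 : ℝ))
      (fun y => |(P ^ t) x y - 1 / N|)
    simp only [one_mul, one_pow, Finset.sum_const, Finset.card_univ, nsmul_eq_mul, mul_one,
      sq_abs] at h
    exact h
  have hfin : (∑ y, |(P ^ t) x y - 1 / N|) ^ 2 ≤ (1 / 2) ^ 2 := by
    refine hcs.trans ?_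
    calc N * ∑ y, ((P ^ t) x y - 1 / N) ^ 2 ≤ N * (1 / (4 * N)) :=
          mul_le_mul_of_nonneg_left hmain hN.le
      _ = (1 / 2) ^ 2 := by field_simp; norm_num
  have := abs_le_of_sq_le_sq' hfin (by norm_num)
  linarith [this.2]

end Vale.Agent.P335
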