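import Vale.Agent.Lib.P335.Defs
import Vale.Agent.Lib.P335.Basic
import Vale.Agent.Lib.P335.Mixing
import Vale.Agent.Lib.P335.Chain
import Vale.Agent.Lib.P335.Edges

/-!
P335: the final assembly.  A Poincare inequality over switch pairs, polynomial in the number of
vertices, gives polynomial mixing time of the switch chain.
-/

namespace Vale.Agent.P335

open Finset

/-- sums over `Om d` are sums over the realizations -/
theorem sum_Om_eq {n : ℕ} {d : Fin n → ℕ} (g : Finset (Sym2 (Fin n)) → ℝ) :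
    ∑ A ∈ Om d, g A = ∑ G : Realization n d, g (es G.1) := by
  symm
  refine Finset.sum_bij (fun G _ => es G.1) (fun G _ => es_mem_Om G) ?_ ?_ ?_
  · intro G _ G' _ h
    exact Subtype.ext (es_injective h)
  · intro A hA
    obtain ⟨G, hG⟩ := es_surj hA
    exact ⟨G, Finset.mem_univ _, hG⟩
  · intro G _
    rfl

theorem card_Om_eq {n : ℕ} {d : Fin n → ℕ} :
    (Om d).card = Fintype.card (Realization n d) := by
  have h := sum_Om_eq (d := d) (fun _ => (1 : ℝ))
  simp only [Finset.sum_const, nsmul_eq_mul, mul_one, Finset.card_univ] at h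
  exact_mod_cast h

/-- crude bound on the number of realizations -/
theorem card_realization_le {n : ℕ} (hn : 1 ≤ n) {d : Fin n → ℕ} :
    Fintype.card (Realization n d) ≤ 2 ^ (n ^ 2) := by
  rw [← card_Om_eq]
  have h1 : (Om d).card ≤ Fintype.card (Finset (Sym2 (Fin n))) := Finset.card_le_univ _
  rw [Fintype.card_finset, Sym2.card, Fintype.card_fin] at h1
  refine h1.trans (Nat.pow_le_pow_right (by norm_num) ?_)
  rw [Nat.choose_two_right, Nat.add_sub_cancel]
  refine Nat.div_le_of_le_mul ?_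
  nlinarith

theorem log_card_le {n : ℕ} (hn : 1 ≤ n) {d : Fin n → ℕ} (hne : Nonempty (Realization n d)) :
    Real.log (4 * (Fintype.card (Realization n d) : ℝ)) ≤ (n : ℝ) ^ 2 + 2 := by
  have hpos : 0 < (Fintype.card (Realization n d) : ℝ) := by exact_mod_cast Fintype.card_pos
  have hle : (Fintype.card (Realization n d) : ℝ) ≤ 2 ^ (n ^ 2) := by
    exact_mod_cast card_realization_le hn (d := d)
  have h1 : Real.log (4 * (Fintype.card (Realization n d) : ℝ)) ≤
      Real.log ((2 : ℝ) ^ (n ^ 2 + 2)) := by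
    refine Real.log_le_log (by positivity) ?_
    rw [pow_add]
    linarith
  rw [Real.log_pow] at h1
  have h2 : Real.log 2 ≤ 1 := by
    have := Real.log_two_lt_d9
    linarith
  have h3 : ((n ^ 2 + 2 : ℕ) : ℝ) * Real.log 2 ≤ ((n ^ 2 + 2 : ℕ) : ℝ) * 1 :=
    mul_le_mul_of_nonneg_left h2 (by positivity)
  refine h1.trans (h3.trans (le_of_eq ?_))
  push_cast
  ring

/-- the switch energy is bounded by the Dirichlet form of the switch chain -/
theorem switchEnergy_le {n : ℕ} (hn : 4 ≤ n) {d : Fin n → ℕ}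
    (g : Finset (Sym2 (Fin n)) → ℝ) (f : Realization n d → ℝ) (hgf : ∀ G, g (es G.1) = f G) :
    SwitchEnergy d g ≤ 12 * (n.choose 4 : ℝ) *
      ∑ G, ∑ G', switchChain n d G G' * (f G - f G') ^ 2 := by
  classical
  have hc : 0 < (n.choose 4 : ℝ) := by exact_mod_cast Nat.choose_pos hn
  unfold SwitchEnergy
  rw [sum_Om_eq, Finset.mul_sum]
  refine Finset.sum_le_sum fun G _ => ?_
  rw [Finset.sum_filter, sum_Om_eq, Finset.mul_sum]
  refine Finset.sum_le_sum fun G' _ => ?_
  rw [hgf, hgf]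
  have h0 := chain_nonneg n d G G'
  split_ifs with h
  · have h1 := chain_switch hn G G' h
    rw [div_le_iff₀ (by positivity)] at h1
    calc (f G - f G') ^ 2 = 1 * (f G - f G') ^ 2 := by ring
      _ ≤ (switchChain n d G G' * (12 * (n.choose 4 : ℝ))) * (f G - f G') ^ 2 :=
        mul_le_mul_of_nonneg_right h1 (sq_nonneg _)
      _ = _ := by ring
  · positivity

/-- the final assembly -/
theorem final
    (poincare : ∃ C k : ℕ, ∀ (V : Type) [Fintype V] [DecidableEq V] (d : V → ℕ)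
      (f : Finset (Sym2 V) → ℝ), ∑ A ∈ Om d, ∑ B ∈ Om d, (f A - f B) ^ 2 ≤
        (C : ℝ) * (Fintype.card V : ℝ) ^ k * ((Om d).card : ℝ) * SwitchEnergy d f) :
    ∃ p : Polynomial ℝ, ∀ n : ℕ, 4 ≤ n → ∀ d : Fin n → ℕ, Nonempty (Realization n d) →
      (∃ t : ℕ, ∀ G : Realization n d, tvDist n d t G ≤ 1 / 4) ∧
        (tmix n d : ℝ) ≤ p.eval (n : ℝ) := by
  classical
  obtain ⟨C, k, hP⟩ := poincare
  refine ⟨(Polynomial.C (12 * (C : ℝ)) * Polynomial.X ^ (k + 4) + 1) *
    (Polynomial.X ^ 2 + 2) + 1, fun n hn d hne => ?_⟩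
  set R : ℝ := (C : ℝ) * (n : ℝ) ^ k * (12 * (n.choose 4 : ℝ)) + 1 with hR
  have hR1 : 1 ≤ R := by
    have : 0 ≤ (C : ℝ) * (n : ℝ) ^ k * (12 * (n.choose 4 : ℝ)) := by positivity
    linarith
  have hcard : 0 < (Fintype.card (Realization n d) : ℝ) := by exact_mod_cast Fintype.card_pos
  have hpoinc : ∀ f : Realization n d → ℝ, ∑ x, ∑ y, (f x - f y) ^ 2 ≤
      R * (Fintype.card (Realization n d)) * ∑ x, ∑ y, switchChain n d x y * (f x - f y) ^ 2 := by
    intro f
    have hinj : Function.Injective (fun G : Realization n d => es G.1) :=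
      fun G G' h => Subtype.ext (es_injective h)
    set g : Finset (Sym2 (Fin n)) → ℝ :=
      Function.extend (fun G : Realization n d => es G.1) f 0 with hg
    have hgf : ∀ G : Realization n d, g (es G.1) = f G := fun G => hinj.extend_apply f 0 G
    have h1 := hP (Fin n) d g
    rw [sum_Om_eq, card_Om_eq, Fintype.card_fin] at h1
    have h2 : ∑ G : Realization n d, ∑ B ∈ Om d, (g (es G.1) - g B) ^ 2 =
        ∑ x : Realization n d, ∑ y : Realization n d, (f x - f y) ^ 2 := by
      refine Finset.sum_congr rfl fun x _ => ?_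
      rw [sum_Om_eq]
      refine Finset.sum_congr rfl fun y _ => ?_
      rw [hgf, hgf]
    rw [h2] at h1
    have h3 := switchEnergy_le hn g f hgf
    have h4 : 0 ≤ ∑ G, ∑ G', switchChain n d G G' * (f G - f G') ^ 2 :=
      Finset.sum_nonneg fun G _ => Finset.sum_nonneg fun G' _ =>
        mul_nonneg (chain_nonneg n d G G') (sq_nonneg _)
    calc ∑ x, ∑ y, (f x - f y) ^ 2
        ≤ (C : ℝ) * (n : ℝ) ^ k * (Fintype.card (Realization n d) : ℝ) * SwitchEnergy d g := h1
      _ ≤ (C : ℝ) * (n : ℝ) ^ k * (Fintype.card (Realization n d) : ℝ) *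
          (12 * (n.choose 4 : ℝ) *
            ∑ G, ∑ G', switchChain n d G G' * (f G - f G') ^ 2) :=
        mul_le_mul_of_nonneg_left h3 (by positivity)
      _ = (R - 1) * (Fintype.card (Realization n d)) *
          ∑ x, ∑ y, switchChain n d x y * (f x - f y) ^ 2 := by rw [hR]; ring
      _ ≤ R * (Fintype.card (Realization n d)) *
          ∑ x, ∑ y, switchChain n d x y * (f x - f y) ^ 2 := by
        refine mul_le_mul_of_nonneg_right ?_ h4
        refine mul_le_mul_of_nonneg_right (by linarith) hcard.le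
  set L : ℝ := Real.log (4 * (Fintype.card (Realization n d) : ℝ)) with hL
  set t : ℕ := ⌈R * L⌉₊ with ht
  have hcard1 : 1 ≤ (Fintype.card (Realization n d) : ℝ) := by
    exact_mod_cast Fintype.card_pos
  have hL0 : 0 ≤ L := Real.log_nonneg (by linarith)
  have hmix : ∀ G : Realization n d, tvDist n d t G ≤ 1 / 4 := by
    intro G
    have h := mixing (switchChain n d) (chain_symm n d) (chain_nonneg n d)
      (fun G => chain_row n hn d G) (chain_lazy n d) R hR1 hpoinc t (Nat.le_ceil _) G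
    unfold tvDist
    convert h using 8
  refine ⟨⟨t, hmix⟩, ?_⟩
  have h1 : tmix n d ≤ t := Nat.sInf_le hmix
  have h2 : (t : ℝ) ≤ R * L + 1 := (Nat.ceil_lt_add_one (by positivity)).le
  have h3 : L ≤ (n : ℝ) ^ 2 + 2 := log_card_le (by omega) hne
  have h4 : (n.choose 4 : ℝ) ≤ (n : ℝ) ^ 4 := by exact_mod_cast Nat.choose_le_pow n 4
  have h5 : R ≤ 12 * (C : ℝ) * (n : ℝ) ^ (k + 4) + 1 := by
    rw [hR, pow_add]
    have : (C : ℝ) * (n : ℝ) ^ k * (12 * (n.choose 4 : ℝ)) ≤
        (C : ℝ) * (n : ℝ) ^ k * (12 * (n : ℝ) ^ 4) :=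
      mul_le_mul_of_nonneg_left (by linarith) (by positivity)
    linarith
  have h6 : R * L ≤ (12 * (C : ℝ) * (n : ℝ) ^ (k + 4) + 1) * ((n : ℝ) ^ 2 + 2) :=
    mul_le_mul h5 h3 hL0 (by positivity)
  have h7 : (tmix n d : ℝ) ≤ t := by exact_mod_cast h1
  have h8 : ((Polynomial.C (12 * (C : ℝ)) * Polynomial.X ^ (k + 4) + 1) *
    (Polynomial.X ^ 2 + 2) + 1 : Polynomial ℝ).eval (n : ℝ) =
      (12 * (C : ℝ) * (n : ℝ) ^ (k + 4) + 1) * ((n : ℝ) ^ 2 + 2) + 1 := by
    simp [Polynomial.eval_ofNat]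
  rw [h8]
  linarith

end Vale.Agent.P335
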