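import Vale.Agent.Lib.P335.Circ

/-!
Flipping closed sets and telescoping over the circuits.
-/

namespace Vale.Agent.P335

open Finset Function

section
variable {V : Type} [Fintype V] [DecidableEq V]
variable {H G : Finset (Sym2 V)} {φ : V → V → Bool} {τ : V → V → V}

/-- closed under the transition system -/
def Closed (τ : V → V → V) (U : Finset (Sym2 V)) : Prop :=
  ∀ v u, s(v, u) ∈ U → s(v, τ v u) ∈ U

theorem Closed.iff (h : IsTrans H φ τ) {U : Finset (Sym2 V)} (hU : Closed τ U) (v u : V) :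
    s(v, τ v u) ∈ U ↔ s(v, u) ∈ U := by
  constructor
  · intro h1
    have := hU v _ h1
    rwa [(h v u).1] at this
  · exact hU v u

theorem closed_circ (h : IsTrans H φ τ) (p : V × V) : Closed τ (circ τ p) := by
  intro v u hvu
  rw [mem_circ h] at hvu ⊢
  obtain ⟨k, hk⟩ := hvu
  have hm := mp_pos h p
  rcases (edge_eq_iff _ (v, u)).1 hk with h1 | h1
  · refine ⟨k + (minimalPeriod (fw τ) p - 1), ?_⟩
    have h2 : (fw τ)^[k + (minimalPeriod (fw τ) p - 1)] p = bw τ (v, u) := by
      apply fw_injective h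
      rw [fw_bw h, ← iterate_succ_apply' (fw τ), ← h1]
      have e : (k + (minimalPeriod (fw τ) p - 1)).succ = k + minimalPeriod (fw τ) p := by
        omega
      rw [e, iterate_add_apply, iterate_minimalPeriod]
    rw [h2]
    simp [edge, bw, Sym2.eq_swap]
  · refine ⟨k + 1, ?_⟩
    rw [iterate_succ_apply', h1]
    simp [edge, fw]

theorem closed_union {U W : Finset (Sym2 V)} (hU : Closed τ U) (hW : Closed τ W) :
    Closed τ (U ∪ W) := by
  intro v u hvu
  rw [mem_union] at hvu ⊢
  exact hvu.imp (hU v u) (hW v u)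

theorem closed_empty : Closed τ (∅ : Finset (Sym2 V)) := by
  intro v u hvu
  simp at hvu

theorem closed_iter {U : Finset (Sym2 V)} (hU : Closed τ U) {p : V × V} (hp : edge p ∈ U)
    (k : ℕ) : edge ((fw τ)^[k] p) ∈ U := by
  induction k with
  | zero => exact hp
  | succ k ih =>
    rw [iterate_succ_apply']
    set q := (fw τ)^[k] p
    have h1 : s(q.2, q.1) ∈ U := by
      rw [Sym2.eq_swap]; exact ih
    exact hU _ _ h1

theorem circ_subset_of_inter (h : IsTrans H φ τ) {U : Finset (Sym2 V)} (hU : Closed τ U)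
    {p : V × V} {e : Sym2 V} (he : e ∈ circ τ p) (heU : e ∈ U) : circ τ p ⊆ U := by
  obtain ⟨k, hk⟩ := (mem_circ h).1 he
  rw [← hk] at heU
  intro x hx
  rw [← circ_iter h p k] at hx
  obtain ⟨l, hl⟩ := (mem_circ h).1 hx
  rw [← hl]
  exact closed_iter hU heU l

theorem nbr_symmDiff (A B : Finset (Sym2 V)) (v : V) :
    nbr (symmDiff A B) v = symmDiff (nbr A v) (nbr B v) := by
  ext u
  simp only [nbr, mem_filter, mem_univ, true_and, mem_symmDiff]

theorem deg_flip (h : IsTrans H (col G) τ) {U : Finset (Sym2 V)} (hUH : U ⊆ H)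
    (hU : Closed τ U) (v : V) : deg (symmDiff G U) v = deg G v := by
  unfold deg
  rw [nbr_symmDiff]
  have hbij : (nbr U v ∩ nbr G v).card = (nbr U v \ nbr G v).card := by
    apply card_nbij' (τ v) (τ v)
    · intro u hu
      simp only [coe_inter, Set.mem_inter_iff, mem_coe, coe_sdiff, Set.mem_diff, nbr, mem_filter,
        mem_univ, true_and] at hu ⊢
      refine ⟨hU v u hu.1, ?_⟩
      have := ((h v u).2.2 (hUH hu.1)).2
      unfold col at this
      intro hh
      apply this
      simp [hh, hu.2]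
    · intro u hu
      simp only [coe_inter, Set.mem_inter_iff, mem_coe, coe_sdiff, Set.mem_diff, nbr, mem_filter,
        mem_univ, true_and] at hu ⊢
      refine ⟨hU v u hu.1, ?_⟩
      have := ((h v u).2.2 (hUH hu.1)).2
      unfold col at this
      by_contra hh
      apply this
      simp [hh, hu.2]
    · intro u _
      exact (h v u).1
    · intro u _
      exact (h v u).1
  have e1 : (symmDiff (nbr G v) (nbr U v)).card =
      (nbr G v \ nbr U v).card + (nbr U v \ nbr G v).card := by
    rw [symmDiff_def, sup_eq_union, card_union_of_disjoint]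
    rw [disjoint_left]
    intro x hx hx'
    simp only [mem_sdiff] at hx hx'
    exact hx.2 hx'.1
  have e2 := card_sdiff_add_card_inter (nbr G v) (nbr U v)
  rw [inter_comm] at e2
  omega

open Classical in
/-- pairs with a given symmetric difference compatible with `τ` -/
noncomputable def PP (d : V → ℕ) (H : Finset (Sym2 V)) (τ : V → V → V) :
    Finset (Finset (Sym2 V)) :=
  (Om d).filter (fun G => symmDiff G H ∈ Om d ∧ IsTrans H (col G) τ)

theorem mem_PP {d : V → ℕ} : G ∈ PP d H τ ↔
    G ∈ Om d ∧ symmDiff G H ∈ Om d ∧ IsTrans H (col G) τ := by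
  simp [PP]

theorem loopless_of_PP {d : V → ℕ} (hG : G ∈ PP d H τ) : Loopless H := by
  have h := mem_PP.1 hG
  have h1 := (mem_Om.1 h.1).1
  have h2 := (mem_Om.1 h.2.1).1
  have : H = symmDiff G (symmDiff G H) := by
    rw [← symmDiff_assoc, symmDiff_self, bot_symmDiff]
  rw [this]
  exact loopless_symmDiff h1 h2

theorem flip_mem_Om {d : V → ℕ} (hG : G ∈ Om d) (hH : Loopless H) (h : IsTrans H (col G) τ)
    {U : Finset (Sym2 V)} (hUH : U ⊆ H) (hU : Closed τ U) : symmDiff G U ∈ Om d := by
  have hG' := mem_Om.1 hG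
  rw [mem_Om]
  refine ⟨loopless_symmDiff hG'.1 (loopless_of_subset hUH hH), fun v => ?_⟩
  rw [deg_flip h hUH hU v]
  exact hG'.2 v

theorem flip_mem_PP {d : V → ℕ} (hG : G ∈ PP d H τ)
    {U : Finset (Sym2 V)} (hUH : U ⊆ H) (hU : Closed τ U) : symmDiff G U ∈ PP d H τ := by
  have hH := loopless_of_PP hG
  obtain ⟨h1, h2, h3⟩ := mem_PP.1 hG
  rw [mem_PP]
  refine ⟨flip_mem_Om h1 hH h3 hUH hU, ?_, ?_⟩
  · have := flip_mem_Om h2 hH (trans_symmDiff h3) hUH hU
    rwa [symmDiff_assoc, symmDiff_comm H, ← symmDiff_assoc] at this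
  · intro v u
    refine ⟨(h3 v u).1, (h3 v u).2.1, fun hu => ⟨((h3 v u).2.2 hu).1, ?_⟩⟩
    have hcol := ((h3 v u).2.2 hu).2
    have hc := hU.iff h3 v u
    unfold col at hcol ⊢
    intro hh
    apply hcol
    rw [decide_eq_decide] at hh ⊢
    rw [mem_symmDiff, mem_symmDiff, hc] at hh
    tauto

theorem sum_flip {d : V → ℕ} {U : Finset (Sym2 V)} (hUH : U ⊆ H) (hU : Closed τ U)
    (F : Finset (Sym2 V) → ℝ) :
    ∑ G ∈ PP d H τ, F (symmDiff G U) = ∑ G ∈ PP d H τ, F G := by
  apply sum_nbij' (fun G => symmDiff G U) (fun G => symmDiff G U)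
  · intro G hG
    exact flip_mem_PP hG hUH hU
  · intro G hG
    exact flip_mem_PP hG hUH hU
  · intro G _
    rw [symmDiff_assoc, symmDiff_self, symmDiff_bot]
  · intro G _
    rw [symmDiff_assoc, symmDiff_self, symmDiff_bot]
  · intro G _
    rfl

/-- union of the circuits through the darts in `S` -/
noncomputable def UU (τ : V → V → V) (S : Finset (V × V)) : Finset (Sym2 V) :=
  S.biUnion (circ τ)

theorem circ_subset (h : IsTrans H φ τ) {p : V × V} (hp : edge p ∈ H) : circ τ p ⊆ H :=
  arc_subset h hp _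

theorem UU_closed (h : IsTrans H φ τ) (S : Finset (V × V)) : Closed τ (UU τ S) := by
  intro v u hvu
  unfold UU at hvu ⊢
  rw [mem_biUnion] at hvu ⊢
  obtain ⟨p, hp, hp2⟩ := hvu
  exact ⟨p, hp, closed_circ h p v u hp2⟩

theorem UU_subset (h : IsTrans H φ τ) {S : Finset (V × V)} (hS : ∀ p ∈ S, edge p ∈ H) :
    UU τ S ⊆ H := by
  unfold UU
  rw [biUnion_subset]
  intro p hp
  exact circ_subset h (hS p hp)

theorem telescope {d : V → ℕ} (f : Finset (Sym2 V) → ℝ) (h0 : IsTrans H φ τ)
    (S : Finset (V × V)) (hS : ∀ p ∈ S, edge p ∈ H) :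
    ∑ G ∈ PP d H τ, (f G - f (symmDiff G (UU τ S))) ^ 2 ≤
      S.card * ∑ p ∈ S, ∑ G ∈ PP d H τ, (f G - f (symmDiff G (circ τ p))) ^ 2 := by
  induction S using Finset.induction_on with
  | empty => simp [UU, sd_empty]
  | insert p S hp ih =>
    have hS' : ∀ q ∈ S, edge q ∈ H := fun q hq => hS q (mem_insert_of_mem hq)
    have ih' := ih hS'
    set b : V × V → ℝ := fun p => ∑ G ∈ PP d H τ, (f G - f (symmDiff G (circ τ p))) ^ 2
      with hb
    have hb0 : ∀ p, 0 ≤ b p := fun p => sum_nonneg fun _ _ => sq_nonneg _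
    have hU : UU τ (insert p S) = circ τ p ∪ UU τ S := by
      unfold UU
      rw [biUnion_insert]
    have hsum0 : 0 ≤ ∑ q ∈ S, b q := sum_nonneg fun q _ => hb0 q
    rw [sum_insert hp, card_insert_of_notMem hp]
    push_cast
    by_cases hsub : circ τ p ⊆ UU τ S
    · rw [hU, union_eq_right.2 hsub]
      refine ih'.trans ?_
      have := hb0 p
      have hk : (0 : ℝ) ≤ S.card := by positivity
      nlinarith [mul_nonneg hk this]
    · have hdisj : Disjoint (circ τ p) (UU τ S) := by
        rw [disjoint_left]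
        intro e he1 he2
        exact hsub (circ_subset_of_inter h0 (UU_closed h0 S) he1 he2)
      have hsplit : ∀ G : Finset (Sym2 V), symmDiff G (UU τ (insert p S)) =
          symmDiff (symmDiff G (UU τ S)) (circ τ p) := by
        intro G
        rw [hU, symmDiff_assoc]
        congr 1
        ext e
        have : e ∈ circ τ p → e ∉ UU τ S := fun h1 h2 => disjoint_left.1 hdisj h1 h2
        rw [mem_union, mem_symmDiff]
        tauto
      have hy : ∑ G ∈ PP d H τ, (f (symmDiff G (UU τ S)) -
          f (symmDiff (symmDiff G (UU τ S)) (circ τ p))) ^ 2 = b p :=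
        sum_flip (UU_subset h0 hS') (UU_closed h0 S)
          (fun G => (f G - f (symmDiff G (circ τ p))) ^ 2)
      rcases Nat.eq_zero_or_pos S.card with h1 | h1
      · have hSe : S = ∅ := card_eq_zero.1 h1
        subst hSe
        have : ∀ G, symmDiff G (UU τ (insert p ∅)) = symmDiff G (circ τ p) := by
          intro G
          rw [hsplit G]
          simp [UU]
        simp only [this]
        simp [hb]
      · set k : ℝ := (S.card : ℝ) with hk
        have hk0 : 0 < k := by rw [hk]; exact_mod_cast h1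
        have hpt : ∀ G : Finset (Sym2 V), k * (f G - f (symmDiff G (UU τ (insert p S)))) ^ 2 ≤
            (k + 1) * (f G - f (symmDiff G (UU τ S))) ^ 2 + k * (k + 1) *
              (f (symmDiff G (UU τ S)) -
                f (symmDiff (symmDiff G (UU τ S)) (circ τ p))) ^ 2 := by
          intro G
          rw [hsplit G]
          nlinarith [sq_nonneg ((f G - f (symmDiff G (UU τ S))) - k *
            (f (symmDiff G (UU τ S)) - f (symmDiff (symmDiff G (UU τ S)) (circ τ p))))]
        have hs := sum_le_sum (fun G (_ : G ∈ PP d H τ) => hpt G)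
        rw [← mul_sum, sum_add_distrib, ← mul_sum, ← mul_sum, hy] at hs
        have h2 : k * ∑ G ∈ PP d H τ, (f G - f (symmDiff G (UU τ (insert p S)))) ^ 2 ≤
            k * ((k + 1) * (b p + ∑ q ∈ S, b q)) := by
          refine hs.trans ?_
          have h3 : (k + 1) * ∑ G ∈ PP d H τ, (f G - f (symmDiff G (UU τ S))) ^ 2 ≤
              (k + 1) * (k * ∑ q ∈ S, b q) :=
            mul_le_mul_of_nonneg_left ih' (by linarith)
          linarith
        exact le_of_mul_le_mul_left h2 hk0

theorem UU_full (h : IsTrans H φ τ) :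
    UU τ (univ.filter (fun p : V × V => edge p ∈ H)) = H := by
  apply subset_antisymm
  · exact UU_subset h (fun p hp => (mem_filter.1 hp).2)
  · intro e he
    induction e with
    | _ v u =>
      unfold UU
      rw [mem_biUnion]
      refine ⟨(v, u), mem_filter.2 ⟨mem_univ _, he⟩, ?_⟩
      rw [mem_circ h]
      exact ⟨0, rfl⟩

theorem pair_bound {d : V → ℕ} (f : Finset (Sym2 V) → ℝ) (H : Finset (Sym2 V))
    (τ : V → V → V) :
    ∑ G ∈ PP d H τ, (f G - f (symmDiff G H)) ^ 2 ≤
      (ND V : ℝ) ^ 5 * ((ND V : ℝ) * ND V + 1) ^ 2 *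
        ∑ Z : Finset (Sym2 V), term d f H τ Z := by
  have hZ0 : 0 ≤ ∑ Z : Finset (Sym2 V), term d f H τ Z :=
    sum_nonneg fun _ _ => term_nonneg _ _ _ _ _
  rcases (PP d H τ).eq_empty_or_nonempty with he | ⟨G0, hG0⟩
  · rw [he, sum_empty]
    positivity
  have hH := loopless_of_PP hG0
  have h0 := (mem_PP.1 hG0).2.2
  set N : ℝ := (ND V : ℝ) with hN
  have hN0 : 0 ≤ N := by rw [hN]; positivity
  set A : ℝ := (N * N + 1) ^ 2 with hA
  have hA0 : 0 ≤ A := by positivity
  set T := ∑ Z : Finset (Sym2 V), term d f H τ Z with hT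
  set S := univ.filter (fun p : V × V => edge p ∈ H) with hS
  have hS' : ∀ p ∈ S, edge p ∈ H := fun p hp => (mem_filter.1 hp).2
  have h1 := telescope (d := d) f h0 S hS'
  rw [hS, UU_full h0, ← hS] at h1
  have hcard : (S.card : ℝ) ≤ N := by
    have : S.card ≤ ND V := card_le_univ S
    rw [hN]
    exact_mod_cast this
  -- bound for one circuit
  have hinner : ∀ (D : V × V) (i j : ℕ),
      ∑ G ∈ PP d H τ, term d f H τ (symmDiff G (FF τ D i j)) ≤ T := by
    intro D i j
    have hinj : Set.InjOn (fun G : Finset (Sym2 V) => symmDiff G (FF τ D i j))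
        (PP d H τ : Set (Finset (Sym2 V))) := by
      intro x _ y _ hxy
      exact symmDiff_left_injective _ hxy
    have := sum_image (f := fun Z => term d f H τ Z) hinj
    rw [← this]
    exact sum_le_sum_of_subset_of_nonneg (subset_univ _)
      (fun _ _ _ => term_nonneg _ _ _ _ _)
  have hone : ∀ p ∈ S, ∑ G ∈ PP d H τ, (f G - f (symmDiff G (circ τ p))) ^ 2 ≤
      A * (N * (N * (N * T))) := by
    intro p hp
    have a1 : ∑ G ∈ PP d H τ, (f G - f (symmDiff G (circ τ p))) ^ 2 ≤
        ∑ G ∈ PP d H τ, A * ∑ D : V × V, ∑ i ∈ range (ND V), ∑ j ∈ range (ND V),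
          term d f H τ (symmDiff G (FF τ D i j)) := by
      apply sum_le_sum
      intro G hG
      obtain ⟨g1, g2, g3⟩ := mem_PP.1 hG
      exact circuit_ineq f g1 g2 g3 hH (hS' p hp)
    refine a1.trans ?_
    rw [← mul_sum]
    apply mul_le_mul_of_nonneg_left _ hA0
    rw [sum_comm]
    have a2 : ∀ D ∈ (univ : Finset (V × V)), ∑ G ∈ PP d H τ, ∑ i ∈ range (ND V),
        ∑ j ∈ range (ND V), term d f H τ (symmDiff G (FF τ D i j)) ≤ N * (N * T) := by
      intro D _
      rw [sum_comm]
      have a3 : ∀ i ∈ range (ND V), ∑ G ∈ PP d H τ,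
          ∑ j ∈ range (ND V), term d f H τ (symmDiff G (FF τ D i j)) ≤ N * T := by
        intro i _
        rw [sum_comm]
        have := sum_le_card_nsmul (range (ND V)) (fun j => ∑ G ∈ PP d H τ,
          term d f H τ (symmDiff G (FF τ D i j))) T (fun j _ => hinner D i j)
        simpa [nsmul_eq_mul] using this
      have := sum_le_card_nsmul (range (ND V)) _ (N * T) a3
      simpa [nsmul_eq_mul] using this
    have := sum_le_card_nsmul (univ : Finset (V × V)) _ (N * (N * T)) a2
    rw [nsmul_eq_mul] at this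
    exact this
  have hsum := sum_le_card_nsmul S _ (A * (N * (N * (N * T)))) hone
  rw [nsmul_eq_mul] at hsum
  calc ∑ G ∈ PP d H τ, (f G - f (symmDiff G H)) ^ 2
      ≤ S.card * ∑ p ∈ S, ∑ G ∈ PP d H τ, (f G - f (symmDiff G (circ τ p))) ^ 2 := h1
    _ ≤ N * (N * (A * (N * (N * (N * T))))) := by
        apply mul_le_mul hcard _ _ hN0
        · refine hsum.trans ?_
          apply mul_le_mul_of_nonneg_right hcard (by positivity)
        · exact sum_nonneg fun _ _ => sum_nonneg fun _ _ => sq_nonneg _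
    _ = N ^ 5 * A * T := by ring

end

end Vale.Agent.P335
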