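import Vale.Agent.Lib.P335.Defs
import Vale.Agent.Lib.P335.Assembly
import Vale.Agent.Lib.P335.Final

/-!
A random walk driven by independent uniform draws, its transition matrix, and mixing of every lazy
symmetric chain on the realizations of a degree vector which performs each switch with probability
at least `1 / M`.
-/

namespace Vale.Agent.P335

open Finset

section walk

variable {Ω D : Type} [Fintype Ω] [DecidableEq Ω] [Fintype D]

/-- the transition matrix of the walk `x ↦ step x c` with a uniform draw `c` -/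
noncomputable def walkMatrix (step : Ω → D → Ω) : Matrix Ω Ω ℝ :=
  fun x y => ((univ.filter (fun c : D => step x c = y)).card : ℝ) / (Fintype.card D : ℝ)

omit [Fintype D] in
theorem sum_fiber (s : Finset D) (step : Ω → D → Ω) (x : Ω) (g : Ω → ℝ) :
    ∑ c ∈ s, g (step x c) =
      ∑ z : Ω, ((s.filter (fun c : D => step x c = z)).card : ℝ) * g z := by
  have h1 : ∀ c ∈ s, g (step x c) = ∑ z : Ω, if step x c = z then g z else 0 := by
    intro c _
    rw [Finset.sum_ite_eq, if_pos (mem_univ _)]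
  rw [Finset.sum_congr rfl h1, Finset.sum_comm]
  refine Finset.sum_congr rfl fun z _ => ?_
  rw [← Finset.sum_filter, Finset.sum_const, nsmul_eq_mul]

theorem walkMatrix_row [Nonempty D] (step : Ω → D → Ω) (x : Ω) :
    ∑ y, walkMatrix step x y = 1 := by
  have h := sum_fiber univ step x (fun _ => (1 : ℝ))
  simp only [Finset.sum_const, nsmul_eq_mul, mul_one, Finset.card_univ] at h
  unfold walkMatrix
  rw [← Finset.sum_div, ← h]
  exact div_self (by exact_mod_cast Fintype.card_ne_zero)

omit [Fintype Ω] in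
theorem walkMatrix_nonneg (step : Ω → D → Ω) (x y : Ω) : 0 ≤ walkMatrix step x y := by
  unfold walkMatrix
  positivity

/-- powers of the transition matrix count sequences of draws -/
theorem walkMatrix_pow [Nonempty D] (step : Ω → D → Ω) (t : ℕ) (x y : Ω) :
    (walkMatrix step ^ t) x y =
      ((univ.filter (fun ω : Fin t → D => (List.ofFn ω).foldl step x = y)).card : ℝ) /
        (Fintype.card (Fin t → D) : ℝ) := by
  have hD : (Fintype.card D : ℝ) ≠ 0 := by exact_mod_cast Fintype.card_ne_zero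
  have hcard : ∀ s : ℕ, (Fintype.card (Fin s → D) : ℝ) = (Fintype.card D : ℝ) ^ s := by
    intro s
    rw [Fintype.card_fun, Fintype.card_fin]
    push_cast
    rfl
  rw [hcard, eq_div_iff (pow_ne_zero _ hD), Finset.card_filter]
  push_cast
  induction t generalizing x with
  | zero =>
    rw [pow_zero, pow_zero, mul_one, Matrix.one_apply]
    simp
  | succ t ih =>
    rw [pow_succ', Matrix.mul_apply]
    have h1 : ∑ ω : Fin (t + 1) → D, (if (List.ofFn ω).foldl step x = y then (1 : ℝ) else 0) =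
        ∑ c : D, ∑ ω : Fin t → D,
          (if (List.ofFn ω).foldl step (step x c) = y then (1 : ℝ) else 0) := by
      rw [← Fintype.sum_prod_type']
      refine (Fintype.sum_equiv (Fin.consEquiv (fun _ : Fin (t + 1) => D)) _ _ ?_).symm
      rintro ⟨c, ω⟩
      have h2 : List.ofFn (Fin.consEquiv (fun _ : Fin (t + 1) => D) (c, ω)) =
          c :: List.ofFn ω := by
        rw [List.ofFn_succ]
        rfl
      rw [h2]
      rfl
    rw [h1]
    have h3 : ∀ c : D, ∑ ω : Fin t → D,
        (if (List.ofFn ω).foldl step (step x c) = y then (1 : ℝ) else 0) =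
        (walkMatrix step ^ t) (step x c) y * (Fintype.card D : ℝ) ^ t :=
      fun c => (ih (step x c)).symm
    rw [Finset.sum_congr rfl fun c _ => h3 c,
      sum_fiber univ step x (fun z => (walkMatrix step ^ t) z y * (Fintype.card D : ℝ) ^ t),
      Finset.sum_mul]
    refine Finset.sum_congr rfl fun z _ => ?_
    have h4 : walkMatrix step x z * (Fintype.card D : ℝ) =
        ((univ.filter (fun c : D => step x c = z)).card : ℝ) := div_mul_cancel₀ _ hD
    rw [← h4, pow_succ (Fintype.card D : ℝ)]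
    ring

end walk

/-- Poincare inequality for a chain on the realizations which performs every switch with
probability at least `1 / M` -/
theorem switchEnergy_le_of {n : ℕ} {d : Fin n → ℕ}
    (P : Matrix (Realization n d) (Realization n d) ℝ) (hnn : ∀ x y, 0 ≤ P x y) (M : ℝ)
    (hM : 0 < M) (hsw : ∀ G G' : Realization n d, SwitchAdj (es G.1) (es G'.1) → 1 / M ≤ P G G')
    (g : Finset (Sym2 (Fin n)) → ℝ) (f : Realization n d → ℝ) (hgf : ∀ G, g (es G.1) = f G) :
    SwitchEnergy d g ≤ M * ∑ G, ∑ G', P G G' * (f G - f G') ^ 2 := by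
  classical
  unfold SwitchEnergy
  rw [sum_Om_eq, Finset.mul_sum]
  refine Finset.sum_le_sum fun G _ => ?_
  rw [Finset.sum_filter, sum_Om_eq, Finset.mul_sum]
  refine Finset.sum_le_sum fun G' _ => ?_
  rw [hgf, hgf]
  have h0 := hnn G G'
  split_ifs with h
  · have h1 := hsw G G' h
    rw [div_le_iff₀ hM] at h1
    calc (f G - f G') ^ 2 = 1 * (f G - f G') ^ 2 := by ring
      _ ≤ (P G G' * M) * (f G - f G') ^ 2 :=
        mul_le_mul_of_nonneg_right h1 (sq_nonneg _)
      _ = _ := by ring
  · positivity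

open Classical in
/-- every lazy symmetric chain on the realizations of a degree vector which performs every switch
with probability at least `1 / (2 n ^ 4)` has polynomial mixing time, uniformly in the degree
vector. -/
theorem mixing_of_switches : ∃ C k : ℕ, ∀ n : ℕ, 4 ≤ n → ∀ d : Fin n → ℕ,
    ∀ P : Matrix (Realization n d) (Realization n d) ℝ, (∀ x y, P x y = P y x) →
      (∀ x y, 0 ≤ P x y) → (∀ x, ∑ y, P x y = 1) → (∀ x, 1 / 2 ≤ P x x) →
      (∀ G G' : Realization n d, SwitchAdj (es G.1) (es G'.1) →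
        1 / (2 * (n : ℝ) ^ 4) ≤ P G G') →
      ∀ G₀ : Realization n d, ∀ t : ℕ, C * n ^ k ≤ t →
        (1 / 2) * ∑ H, |(P ^ t) G₀ H - 1 / (Fintype.card (Realization n d) : ℝ)| ≤ 1 / 4 := by
  obtain ⟨C, k, hP⟩ := poincare
  refine ⟨(2 * C + 1) * 3, k + 6, fun n hn d P hsymm hnn hrow hlazy hsw G₀ t ht => ?_⟩
  have hne : Nonempty (Realization n d) := ⟨G₀⟩
  have hn1 : (1 : ℝ) ≤ n := by exact_mod_cast (by omega : 1 ≤ n)
  have hM : 0 < 2 * (n : ℝ) ^ 4 := by positivity
  set R : ℝ := (C : ℝ) * (n : ℝ) ^ k * (2 * (n : ℝ) ^ 4) + 1 with hR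
  have hR1 : 1 ≤ R := by
    have : 0 ≤ (C : ℝ) * (n : ℝ) ^ k * (2 * (n : ℝ) ^ 4) := by positivity
    linarith
  have hcard : 0 < (Fintype.card (Realization n d) : ℝ) := by exact_mod_cast Fintype.card_pos
  have hpoinc : ∀ f : Realization n d → ℝ, ∑ x, ∑ y, (f x - f y) ^ 2 ≤
      R * (Fintype.card (Realization n d)) * ∑ x, ∑ y, P x y * (f x - f y) ^ 2 := by
    intro f
    have hinj : Function.Injective (fun G : Realization n d => es G.1) :=
      fun G G' h => Subtype.ext (es_injective h)
    set g : Finset (Sym2 (Fin n)) → ℝ :=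
      Function.extend (fun G : Realization n d => es G.1) f 0 with hg
    have hgf : ∀ G : Realization n d, g (es G.1) = f G := fun G => hinj.extend_apply f 0 G
    have h1 := hP (Fin n) d g
    rw [sum_Om_eq, card_Om_eq, Fintype.card_fin] at h1
    have h2 : ∑ G : Realization n d, ∑ B ∈ Om d, (g (es G.1) - g B) ^ 2 =
        ∑ x : Realization n d, ∑ y : Realization n d, (f x - f y) ^ 2 := by
      refine Finset.sum_congr rfl fun x _ => ?_
      rw [sum_Om_eq]
      refine Finset.sum_congr rfl fun y _ => ?_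
      rw [hgf, hgf]
    rw [h2] at h1
    have h3 := switchEnergy_le_of P hnn _ hM hsw g f hgf
    have h4 : 0 ≤ ∑ G, ∑ G', P G G' * (f G - f G') ^ 2 :=
      Finset.sum_nonneg fun G _ => Finset.sum_nonneg fun G' _ =>
        mul_nonneg (hnn G G') (sq_nonneg _)
    calc ∑ x, ∑ y, (f x - f y) ^ 2
        ≤ (C : ℝ) * (n : ℝ) ^ k * (Fintype.card (Realization n d) : ℝ) * SwitchEnergy d g := h1
      _ ≤ (C : ℝ) * (n : ℝ) ^ k * (Fintype.card (Realization n d) : ℝ) *
          (2 * (n : ℝ) ^ 4 * ∑ G, ∑ G', P G G' * (f G - f G') ^ 2) :=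
        mul_le_mul_of_nonneg_left h3 (by positivity)
      _ = (R - 1) * (Fintype.card (Realization n d)) *
          ∑ x, ∑ y, P x y * (f x - f y) ^ 2 := by rw [hR]; ring
      _ ≤ R * (Fintype.card (Realization n d)) *
          ∑ x, ∑ y, P x y * (f x - f y) ^ 2 := by
        refine mul_le_mul_of_nonneg_right ?_ h4
        refine mul_le_mul_of_nonneg_right (by linarith) hcard.le
  set L : ℝ := Real.log (4 * (Fintype.card (Realization n d) : ℝ)) with hL
  have hcard1 : 1 ≤ (Fintype.card (Realization n d) : ℝ) := by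
    exact_mod_cast Fintype.card_pos
  have hL0 : 0 ≤ L := Real.log_nonneg (by linarith)
  have h3 : L ≤ (n : ℝ) ^ 2 + 2 := log_card_le (by omega) hne
  have hn2 : (1 : ℝ) ≤ (n : ℝ) ^ 2 := one_le_pow₀ hn1
  have hnk : (1 : ℝ) ≤ (n : ℝ) ^ (k + 4) := one_le_pow₀ hn1
  have h5 : R ≤ (2 * (C : ℝ) + 1) * (n : ℝ) ^ (k + 4) := by
    rw [hR]
    have h6 : (C : ℝ) * (n : ℝ) ^ k * (2 * (n : ℝ) ^ 4) = 2 * (C : ℝ) * (n : ℝ) ^ (k + 4) := by
      rw [pow_add]; ring
    linarith
  have h6 : R * L ≤ (2 * (C : ℝ) + 1) * (n : ℝ) ^ (k + 4) * (3 * (n : ℝ) ^ 2) :=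
    mul_le_mul h5 (by linarith) hL0 (by positivity)
  have h7 : (2 * (C : ℝ) + 1) * (n : ℝ) ^ (k + 4) * (3 * (n : ℝ) ^ 2) =
      (((2 * C + 1) * 3 * n ^ (k + 6) : ℕ) : ℝ) := by
    push_cast
    rw [show k + 6 = (k + 4) + 2 from rfl, pow_add _ (k + 4) 2]
    ring
  have h8 : R * L ≤ t := by
    rw [h7] at h6
    exact h6.trans (by exact_mod_cast ht)
  exact mixing P hsymm hnn hrow hlazy R hR1 hpoinc t h8 G₀

end Vale.Agent.P335
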